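import Vale.Agent.P151.Conn

/-! Graph balls, edge sets, local failure probabilities. -/

namespace Vale.Agent.P151

open scoped Classical

variable {V : Type*} (G : SimpleGraph V) [G.LocallyFinite]

/-- graph ball as a finset -/
noncomputable def ball : ℕ → V → Finset V
  | 0, u => {u}
  | k + 1, u => ball k u ∪ (ball k u).biUnion (fun w => G.neighborFinset w)

/-- edges of `G` inside a finite set -/
noncomputable def edgesIn (Q : Finset V) : Finset (Sym2 V) := Q.sym2.filter (· ∈ G.edgeSet)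

/-- graph neighbourhood of a set -/
def near (T : Set V) (j : ℕ) : Set V := {v | ∃ z ∈ T, v ∈ ball G j z}

/-- probability that `L` is not joined to `T` inside `Q` -/
noncomputable def LF (p : ℝ) (L Q : Finset V) (T : Set V) : ℝ :=
  Ex (fun _ => p) (edgesIn G Q) (fun ω => ind (Disjoint T (cl ω L)))

variable {G} {u v w : V} {k l : ℕ}

lemma mem_ball_zero : v ∈ ball G 0 u ↔ v = u := by simp [ball]

lemma mem_ball_succ : v ∈ ball G (k + 1) u ↔ v ∈ ball G k u ∨ ∃ w ∈ ball G k u, G.Adj w v := by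
  simp [ball]

lemma ball_mono (h : k ≤ l) : ball G k u ⊆ ball G l u := by
  induction h with
  | refl => exact subset_rfl
  | step _ ih => exact fun v hv => mem_ball_succ.2 (Or.inl (ih hv))

lemma self_mem_ball (k : ℕ) (u : V) : u ∈ ball G k u :=
  ball_mono (Nat.zero_le k) (mem_ball_zero.2 rfl)

lemma ball_adj (h : v ∈ ball G k u) (h' : G.Adj v w) : w ∈ ball G (k + 1) u :=
  mem_ball_succ.2 (Or.inr ⟨v, h, h'⟩)

lemma ball_trans (h : v ∈ ball G k u) (h' : w ∈ ball G l v) : w ∈ ball G (k + l) u := by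
  induction l generalizing w with
  | zero => rw [mem_ball_zero.1 h']; exact h
  | succ l ih =>
    rcases mem_ball_succ.1 h' with h' | ⟨x, hx, hxw⟩
    · exact ball_mono (by omega) (ih h')
    · exact ball_adj (ih hx) hxw

lemma ball_trans' {n : ℕ} (h : v ∈ ball G k u) (h' : w ∈ ball G l v) (hn : k + l ≤ n) :
    w ∈ ball G n u := ball_mono hn (ball_trans h h')

lemma ball_symm (h : v ∈ ball G k u) : u ∈ ball G k v := by
  induction k generalizing v with
  | zero => rw [mem_ball_zero.1 h]; exact self_mem_ball _ _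
  | succ k ih =>
    rcases mem_ball_succ.1 h with h | ⟨x, hx, hxv⟩
    · exact ball_mono (by omega) (ih h)
    · exact ball_trans' (ball_adj (self_mem_ball 0 v) hxv.symm) (ih hx) (by omega)

lemma card_ball_le {Δ : ℕ} (hΔ : ∀ v, G.degree v ≤ Δ) (k : ℕ) (u : V) :
    (ball G k u).card ≤ (Δ + 1) ^ k := by
  induction k with
  | zero => simp [ball]
  | succ k ih =>
    calc (ball G (k + 1) u).card ≤ (ball G k u).card +
          ((ball G k u).biUnion (fun w => G.neighborFinset w)).card := Finset.card_union_le _ _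
      _ ≤ (ball G k u).card + (ball G k u).card * Δ := by
          gcongr
          exact Finset.card_biUnion_le_card_mul _ _ _ fun w _ => hΔ w
      _ = (ball G k u).card * (Δ + 1) := by ring
      _ ≤ _ := by rw [pow_succ]; gcongr

lemma ball_map (γ : G ≃g G) (h : v ∈ ball G k u) : γ v ∈ ball G k (γ u) := by
  induction k generalizing v with
  | zero => rw [mem_ball_zero.1 h]; exact self_mem_ball _ _
  | succ k ih =>
    rcases mem_ball_succ.1 h with h | ⟨x, hx, hxv⟩
    · exact ball_mono (by omega) (ih h)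
    · exact ball_adj (ih hx) (γ.map_adj_iff.2 hxv)

lemma ball_map_iff (γ : G ≃g G) : γ v ∈ ball G k (γ u) ↔ v ∈ ball G k u :=
  ⟨fun h => by simpa using ball_map γ.symm h, ball_map γ⟩

lemma image_ball (γ : G ≃g G) (k : ℕ) (u : V) : (ball G k u).image γ = ball G k (γ u) := by
  ext v
  simp only [Finset.mem_image]
  constructor
  · rintro ⟨x, hx, rfl⟩; exact ball_map γ hx
  · intro h; exact ⟨γ.symm v, (ball_map_iff γ).1 (by simpa using h), by simp⟩

lemma ball_lip {f : V → ℝ} (hf : ∀ a b, G.Adj a b → f b ≤ f a + 1) (h : v ∈ ball G k u) :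
    f v ≤ f u + k ∧ f u ≤ f v + k := by
  induction k generalizing v with
  | zero => rw [mem_ball_zero.1 h]; simp
  | succ k ih =>
    push_cast
    rcases mem_ball_succ.1 h with h | ⟨x, hx, hxv⟩
    · have := ih h; constructor <;> linarith
    · have := ih hx
      have a := hf _ _ hxv
      have b := hf _ _ hxv.symm
      constructor <;> linarith

lemma conn_ball (h : v ∈ ball G k u) : conn (G.edgeSet ∩ ins (ball G k u)) u v := by
  induction k generalizing v with
  | zero => rw [mem_ball_zero.1 h]; exact conn.refl _ _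
  | succ k ih =>
    have hs : (G.edgeSet ∩ ins (ball G k u : Set V)) ⊆ G.edgeSet ∩ ins (ball G (k + 1) u) :=
      Set.inter_subset_inter_right _ (ins_mono (ball_mono (Nat.le_succ k)))
    rcases mem_ball_succ.1 h with h' | ⟨x, hx, hxv⟩
    · exact (ih h').mono hs
    · exact ((ih hx).mono hs).tail ⟨hxv, mem_ins_mk.2 ⟨ball_mono (Nat.le_succ k) hx, h⟩⟩

lemma exists_ball_of_conn {ω : Set (Sym2 V)} (hω : ω ⊆ G.edgeSet) (h : conn ω u v) :
    ∃ k, v ∈ ball G k u := by
  induction h with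
  | refl => exact ⟨0, self_mem_ball _ _⟩
  | tail _ h2 ih => obtain ⟨k, hk⟩ := ih; exact ⟨k + 1, ball_adj hk (hω h2)⟩

lemma exists_ball_of_reachable (h : G.Reachable u v) : ∃ k, v ∈ ball G k u := by
  rw [SimpleGraph.reachable_iff_reflTransGen] at h
  induction h with
  | refl => exact ⟨0, self_mem_ball _ _⟩
  | tail _ h2 ih => obtain ⟨k, hk⟩ := ih; exact ⟨k + 1, ball_adj hk h2⟩

omit [G.LocallyFinite] in
lemma mem_edgesIn {Q : Finset V} {e : Sym2 V} :
    e ∈ edgesIn G Q ↔ e ∈ G.edgeSet ∧ e ∈ ins (Q : Set V) := by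
  simp only [edgesIn, Finset.mem_filter, Finset.mem_sym2_iff, ins, Set.mem_ofPred_eq,
    Finset.mem_coe]
  tauto

omit [G.LocallyFinite] in
lemma edgesIn_subset (Q : Finset V) : (edgesIn G Q : Set (Sym2 V)) ⊆ G.edgeSet :=
  fun _ he => (mem_edgesIn.1 he).1

omit [G.LocallyFinite] in
lemma edgesIn_mono {Q Q' : Finset V} (h : Q ⊆ Q') : edgesIn G Q ⊆ edgesIn G Q' :=
  fun _ he => mem_edgesIn.2 ⟨(mem_edgesIn.1 he).1, ins_mono h (mem_edgesIn.1 he).2⟩

omit [G.LocallyFinite] in
lemma card_edgesIn_le (Q : Finset V) : (edgesIn G Q).card ≤ (Q.card + 1) ^ 2 := by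
  calc (edgesIn G Q).card ≤ Q.sym2.card := Finset.card_filter_le _ _
    _ ≤ _ := by rw [Finset.card_sym2]; exact Nat.choose_le_pow _ _

lemma subset_near (T : Set V) (j : ℕ) : T ⊆ near G T j := fun z hz => ⟨z, hz, self_mem_ball _ _⟩

lemma near_mono (T : Set V) (h : k ≤ l) : near G T k ⊆ near G T l :=
  fun _ ⟨z, hz, hv⟩ => ⟨z, hz, ball_mono h hv⟩

lemma near_ball {T : Set V} {n : ℕ} (h : v ∈ near G T k) (h' : w ∈ ball G l v) (hn : k + l ≤ n) :
    w ∈ near G T n :=
  let ⟨z, hz, hv⟩ := h; ⟨z, hz, ball_trans' hv h' hn⟩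

lemma near_inward {T : Set V} (m : ℕ) : ∀ {j : ℕ} {u : V}, u ∈ near G T (j + m) →
    ∃ w ∈ near G T j, w ∈ ball G m u ∧
      conn (G.edgeSet ∩ ins (near G T (j + m) ∩ ball G m u)) u w := by
  induction m with
  | zero => intro j u h; exact ⟨u, h, self_mem_ball _ _, conn.refl _ _⟩
  | succ m ih =>
    intro j u h
    obtain ⟨z, hz, hu⟩ := h
    rcases mem_ball_succ.1 hu with hu' | ⟨x, hx, hxu⟩
    · obtain ⟨w, hw, hw', hc⟩ := ih (j := j) (u := u) ⟨z, hz, hu'⟩
      refine ⟨w, hw, ball_mono (by omega) hw', hc.mono ?_⟩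
      exact Set.inter_subset_inter_right _ (ins_mono (Set.inter_subset_inter
        (near_mono T (by omega)) (ball_mono (by omega))))
    · obtain ⟨w, hw, hw', hc⟩ := ih (j := j) (u := x) ⟨z, hz, hx⟩
      have hxb : x ∈ ball G 1 u := ball_adj (self_mem_ball 0 u) hxu.symm
      refine ⟨w, hw, ball_trans' hxb hw' (by omega), (conn.single ?_).trans (hc.mono ?_)⟩
      · exact ⟨hxu.symm, mem_ins_mk.2 ⟨⟨⟨z, hz, hu⟩, self_mem_ball _ _⟩,
          ⟨⟨z, hz, ball_mono (Nat.le_succ (j + m)) hx⟩, ball_mono (by omega) hxb⟩⟩⟩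
      · exact Set.inter_subset_inter_right _ (ins_mono (Set.inter_subset_inter
          (near_mono T (by omega)) fun y hy => ball_trans' hxb hy (by omega)))

lemma par_const {ι : Type*} {p : ℝ} (h0 : 0 ≤ p) (h1 : p ≤ 1) : Par (fun _ : ι => p) :=
  fun _ => ⟨h0, h1⟩

omit [G.LocallyFinite] in
lemma LF_eq (p : ℝ) (L Q : Finset V) (T : Set V) {F : Finset (Sym2 V)}
    (hF : (F : Set (Sym2 V)) ⊆ G.edgeSet) (hQ : edgesIn G Q ⊆ F) :
    Ex (fun _ => p) F (fun ω => ind (Disjoint T (cl (ω ∩ ins (Q : Set V)) L))) = LF G p L Q T := by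
  rw [Ex_subset _ hQ]
  · refine Ex_congr fun s hs => ?_
    rw [Set.inter_eq_left.2 fun e he => (mem_edgesIn.1 (hs he)).2]
  · intro s hs
    congr 3
    ext e
    have := @hs e
    have := @hF e
    simp only [Set.mem_inter_iff, Finset.mem_coe, mem_edgesIn] at *
    tauto

omit [G.LocallyFinite] in
lemma LF_mono {p : ℝ} (h0 : 0 ≤ p) (h1 : p ≤ 1) {L L' Q Q' : Finset V} {T T' : Set V}
    (hL : L ⊆ L') (hQ : Q ⊆ Q') (hT : T ⊆ T') : LF G p L' Q' T' ≤ LF G p L Q T := by
  rw [← LF_eq p L Q T (edgesIn_subset Q') (edgesIn_mono hQ)]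
  refine Ex_mono (par_const h0 h1) fun ω _ => ind_mono fun h => ?_
  exact h.mono hT (cl_mono Set.inter_subset_left hL)

omit [G.LocallyFinite] in
lemma LF_map (γ : G ≃g G) (p : ℝ) (L Q : Finset V) (T : Set V) :
    LF G p (L.image γ) (Q.image γ) (γ '' T) = LF G p L Q T := by
  have hinj : Function.Injective (Sym2.map γ) := Sym2.map.injective γ.injective
  have e1 : edgesIn G (Q.image γ) = (edgesIn G Q).image (Sym2.map γ) := by
    ext e
    simp only [Finset.mem_image, mem_edgesIn]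
    constructor
    · intro h
      induction e using Sym2.ind with
      | _ x y =>
        obtain ⟨h1, h2⟩ := h
        rw [mem_ins_mk] at h2
        obtain ⟨a, ha, rfl⟩ := Finset.mem_image.1 h2.1
        obtain ⟨b, hb, rfl⟩ := Finset.mem_image.1 h2.2
        exact ⟨s(a, b), ⟨γ.map_adj_iff.1 h1, mem_ins_mk.2 ⟨ha, hb⟩⟩, rfl⟩
    · rintro ⟨e, ⟨h1, h2⟩, rfl⟩
      induction e using Sym2.ind with
      | _ x y =>
        rw [mem_ins_mk] at h2
        exact ⟨γ.map_adj_iff.2 h1,
          mem_ins_mk.2 ⟨Finset.mem_image_of_mem _ h2.1, Finset.mem_image_of_mem _ h2.2⟩⟩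
  unfold LF
  rw [e1, Ex_image p hinj]
  refine Ex_congr fun ω _ => ind_congr ?_
  simp only [Set.disjoint_left]
  constructor
  · rintro h t ht ⟨x, hx, hc⟩
    exact h ⟨t, ht, rfl⟩ ⟨γ x, Finset.mem_image_of_mem _ hx, conn_image hc⟩
  · rintro h _ ⟨t, ht, rfl⟩ ⟨_, hx, hc⟩
    obtain ⟨y, hy, rfl⟩ := Finset.mem_image.1 hx
    have := conn_image (φ := γ.symm) hc
    rw [Set.image_image] at this
    exact h ht ⟨y, hy, by simpa [Sym2.map_map] using this⟩

lemma exists_separated {Δ : ℕ} (hΔ : ∀ v, G.degree v ≤ Δ) (k n : ℕ) :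
    ∀ K : Finset V, n * (Δ + 1) ^ k ≤ K.card →
      ∃ I ⊆ K, I.card = n ∧ ∀ u ∈ I, ∀ v ∈ I, u ≠ v → v ∉ ball G k u := by
  induction n with
  | zero => intro K _; exact ⟨∅, by simp⟩
  | succ n ih =>
    intro K hK
    have hpos : 0 < (Δ + 1) ^ k := by positivity
    obtain ⟨u, hu⟩ : K.Nonempty := Finset.card_pos.1 (by nlinarith)
    obtain ⟨I, hI, hc, hs⟩ := ih (K \ ball G k u) (by
      have := Finset.le_card_sdiff (ball G k u) K
      have := card_ball_le hΔ k u
      rw [add_mul] at hK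
      omega)
    have huI : u ∉ I := fun h => (Finset.mem_sdiff.1 (hI h)).2 (self_mem_ball _ _)
    refine ⟨insert u I, Finset.insert_subset hu (hI.trans Finset.sdiff_subset),
      by rw [Finset.card_insert_of_notMem huI, hc], ?_⟩
    intro a ha b hb hab
    rcases Finset.mem_insert.1 ha with ha' | ha' <;> rcases Finset.mem_insert.1 hb with hb' | hb'
    · exact absurd (ha'.trans hb'.symm) hab
    · rw [ha']; exact (Finset.mem_sdiff.1 (hI hb')).2
    · rw [hb']; exact fun h => (Finset.mem_sdiff.1 (hI ha')).2 (ball_symm h)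
    · exact hs a ha' b hb' hab

end Vale.Agent.P151
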