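import Vale.Agent.P151.Ex

/-! Connectivity in edge configurations. -/

namespace Vale.Agent.P151

open scoped Classical

variable {V : Type*}

/-- connection by open edges -/
def conn (ω : Set (Sym2 V)) (a b : V) : Prop :=
  Relation.ReflTransGen (fun x y => s(x, y) ∈ ω) a b

/-- open cluster of a set -/
def cl (ω : Set (Sym2 V)) (X : Set V) : Set V := {v | ∃ x ∈ X, conn ω x v}

/-- edges meeting a vertex set -/
def touch (S : Set V) : Set (Sym2 V) := {e | ∃ v ∈ S, v ∈ e}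

/-- edges inside a vertex set -/
def ins (S : Set V) : Set (Sym2 V) := {e | ∀ v ∈ e, v ∈ S}

variable {ω ω' : Set (Sym2 V)} {a b c : V} {X Y S T : Set V}

lemma conn.refl (ω : Set (Sym2 V)) (a : V) : conn ω a a := Relation.ReflTransGen.refl
lemma conn.trans (h : conn ω a b) (h' : conn ω b c) : conn ω a c :=
  Relation.ReflTransGen.trans h h'
lemma conn.single (h : s(a, b) ∈ ω) : conn ω a b := Relation.ReflTransGen.single h
lemma conn.tail (h : conn ω a b) (h' : s(b, c) ∈ ω) : conn ω a c :=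
  Relation.ReflTransGen.tail h h'
lemma conn.symm (h : conn ω a b) : conn ω b a := by
  induction h with
  | refl => exact conn.refl _ _
  | tail _ h2 ih => exact (conn.single (by rwa [Sym2.eq_swap])).trans ih
lemma conn.mono (h : ω ⊆ ω') (hc : conn ω a b) : conn ω' a b := by
  induction hc with
  | refl => exact conn.refl _ _
  | tail _ h2 ih => exact conn.tail ih (h h2)

lemma mem_touch_mk {x y : V} : s(x, y) ∈ touch S ↔ x ∈ S ∨ y ∈ S := by
  constructor
  · rintro ⟨v, hv, hm⟩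
    rcases Sym2.mem_iff.1 hm with rfl | rfl
    · exact Or.inl hv
    · exact Or.inr hv
  · rintro (h | h)
    · exact ⟨x, h, Sym2.mem_mk_left _ _⟩
    · exact ⟨y, h, Sym2.mem_mk_right _ _⟩

lemma mem_ins_mk {x y : V} : s(x, y) ∈ ins S ↔ x ∈ S ∧ y ∈ S := by
  constructor
  · intro h; exact ⟨h x (Sym2.mem_mk_left _ _), h y (Sym2.mem_mk_right _ _)⟩
  · rintro ⟨h1, h2⟩ v hv
    rcases Sym2.mem_iff.1 hv with rfl | rfl <;> assumption

lemma touch_mono (h : S ⊆ T) : touch S ⊆ touch T := fun _ ⟨v, hv, hm⟩ => ⟨v, h hv, hm⟩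
lemma ins_mono (h : S ⊆ T) : ins S ⊆ ins T := fun _ he v hv => h (he v hv)

lemma subset_cl (ω : Set (Sym2 V)) (X : Set V) : X ⊆ cl ω X := fun x hx => ⟨x, hx, conn.refl _ _⟩

lemma cl_mono (h : ω ⊆ ω') (hX : X ⊆ Y) : cl ω X ⊆ cl ω' Y :=
  fun _ ⟨x, hx, hc⟩ => ⟨x, hX hx, hc.mono h⟩

lemma cl_step (ha : a ∈ cl ω X) (h : s(a, b) ∈ ω) : b ∈ cl ω X :=
  let ⟨x, hx, hc⟩ := ha; ⟨x, hx, hc.tail h⟩

lemma cl_conn (ha : a ∈ cl ω X) (h : conn ω a b) : b ∈ cl ω X :=
  let ⟨x, hx, hc⟩ := ha; ⟨x, hx, hc.trans h⟩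

lemma mem_cl_singleton : b ∈ cl ω {a} ↔ conn ω a b := by simp [cl]

lemma cl_empty (X : Set V) : cl (∅ : Set (Sym2 V)) X = X := by
  refine Set.Subset.antisymm ?_ (subset_cl _ _)
  rintro v ⟨x, hx, hc⟩
  induction hc with
  | refl => exact hx
  | tail _ h _ => exact absurd h (Set.notMem_empty _)

lemma cl_union (ω : Set (Sym2 V)) (X Y : Set V) : cl ω (X ∪ Y) = cl ω X ∪ cl ω Y := by
  ext v; simp only [cl, Set.mem_union, Set.mem_ofPred_eq]
  constructor
  · rintro ⟨x, hx | hx, hc⟩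
    · exact Or.inl ⟨x, hx, hc⟩
    · exact Or.inr ⟨x, hx, hc⟩
  · rintro (⟨x, hx, hc⟩ | ⟨x, hx, hc⟩)
    · exact ⟨x, Or.inl hx, hc⟩
    · exact ⟨x, Or.inr hx, hc⟩

/-- a set closed under open edges contains the cluster -/
lemma cl_subset_of_closed (hX : X ⊆ S) (h : ∀ x y, x ∈ S → s(x, y) ∈ ω → y ∈ S) :
    cl ω X ⊆ S := by
  rintro v ⟨x, hx, hc⟩
  induction hc with
  | refl => exact hX hx
  | tail _ h2 ih => exact h _ _ ih h2

lemma cl_subset_of_agree (h : ∀ e ∈ touch (cl ω X), e ∈ ω → e ∈ ω') : cl ω X ⊆ cl ω' X := by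
  have : cl ω X ⊆ cl ω X ∩ cl ω' X := by
    refine cl_subset_of_closed (Set.subset_inter (subset_cl _ _) (subset_cl _ _)) ?_
    intro x y hx hxy
    exact ⟨cl_step hx.1 hxy, cl_step hx.2 (h _ (mem_touch_mk.2 (Or.inl hx.1)) hxy)⟩
  exact fun v hv => (this hv).2

lemma cl_eq_of_agree (h : ∀ e ∈ touch (cl ω X), e ∈ ω ↔ e ∈ ω') : cl ω' X = cl ω X := by
  refine Set.Subset.antisymm ?_ (cl_subset_of_agree fun e he => (h e he).1)
  refine cl_subset_of_closed (subset_cl _ _) fun x y hx hxy => ?_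
  exact cl_step hx ((h _ (mem_touch_mk.2 (Or.inl hx))).2 hxy)

lemma disjoint_cl_comm : Disjoint (cl ω X) Y ↔ Disjoint X (cl ω Y) := by
  simp only [Set.disjoint_left]
  constructor
  · rintro h x hx ⟨y, hy, hc⟩; exact h ⟨x, hx, hc.symm⟩ hy
  · rintro h y ⟨x, hx, hc⟩ hy; exact h hx ⟨y, hy, hc.symm⟩

lemma disjoint_cl_cl (h : Disjoint X (cl ω Y)) : Disjoint (cl ω X) (cl ω Y) := by
  rw [Set.disjoint_left] at h ⊢
  rintro v ⟨x, hx, hc⟩ hv
  exact h hx (cl_conn hv hc.symm)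

lemma cl_sdiff_touch (h : Disjoint X (cl ω Y)) : cl (ω \ touch (cl ω Y)) X = cl ω X := by
  refine cl_eq_of_agree fun e he => ⟨fun h1 => ⟨h1, ?_⟩, fun h1 => h1.1⟩
  have hd := Set.disjoint_left.1 (disjoint_cl_cl h)
  induction e using Sym2.ind with
  | _ x y =>
    intro h2
    rw [mem_touch_mk] at he h2
    have h1' : s(y, x) ∈ ω := by rwa [Sym2.eq_swap]
    rcases he with he | he <;> rcases h2 with h2 | h2
    · exact hd he h2
    · exact hd (cl_step he h1) h2
    · exact hd (cl_step he h1') h2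
    · exact hd he h2

lemma conn_sdiff_touch_eq (ha : a ∈ S) (h : conn (ω \ touch S) a b) : b = a := by
  induction h with
  | refl => rfl
  | tail _ h2 ih => exact absurd (mem_touch_mk.2 (Or.inl (ih ▸ ha))) h2.2

/-- first exit from a set -/
lemma conn_exit (h : conn ω a b) (hb : b ∉ S) : ∃ w, w ∉ S ∧ conn (ω ∩ touch S) a w := by
  induction h using Relation.ReflTransGen.head_induction_on with
  | refl => exact ⟨b, hb, conn.refl _ _⟩
  | head h1 _ ih =>
    rename_i x y _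
    by_cases hx : x ∈ S
    · obtain ⟨w, hw, hc⟩ := ih
      exact ⟨w, hw, (conn.single (ω := ω ∩ touch S)
        ⟨h1, mem_touch_mk.2 (Or.inl hx)⟩).trans hc⟩
    · exact ⟨x, hx, conn.refl _ _⟩

lemma conn_ins_mem (ha : a ∈ S) (h : conn (ω ∩ ins S) a b) : b ∈ S := by
  induction h with
  | refl => exact ha
  | tail _ h2 _ => exact (mem_ins_mk.1 h2.2).2

lemma conn_image {φ : V → V} (h : conn ω a b) : conn (Sym2.map φ '' ω) (φ a) (φ b) := by
  induction h with
  | refl => exact conn.refl _ _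
  | tail _ h2 ih => exact ih.tail ⟨_, h2, by simp⟩

lemma conn_union_base {E : Set (Sym2 V)} {L : Set V} (hE : E ⊆ ins L) (ha : a ∈ L)
    (h : conn (ω ∪ E) a b) : b ∈ cl ω L := by
  induction h with
  | refl => exact subset_cl _ _ ha
  | tail _ h2 ih =>
    rcases h2 with h2 | h2
    · exact cl_step ih h2
    · exact subset_cl _ _ (mem_ins_mk.1 (hE h2)).2

/-- Markov property for clusters -/
lemma markov_cl (q : Sym2 V → ℝ) (F : Finset (Sym2 V)) (Z : Set (Sym2 V)) (Y Y' : Set V)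
    (hY : Y ⊆ Y') (g : Set V → Set V → Set (Sym2 V) → ℝ) :
    Ex q F (fun a => g (cl (a \ Z) Y) (cl (a \ Z) Y') (a \ touch (cl (a \ Z) Y'))) =
      Ex q F (fun a => Ex q F (fun b =>
        g (cl (a \ Z) Y) (cl (a \ Z) Y') (b \ touch (cl (a \ Z) Y')))) := by
  have key : ∀ (a b : Set (Sym2 V)) (W : Set V), W ⊆ Y' →
      cl (((a ∩ touch (cl (a \ Z) Y')) ∪ (b \ touch (cl (a \ Z) Y'))) \ Z) W = cl (a \ Z) W := by
    intro a b W hW
    refine cl_eq_of_agree fun e he => ?_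
    have he' := touch_mono (cl_mono subset_rfl hW) he
    simp only [Set.mem_sdiff, Set.mem_union, Set.mem_inter_iff]
    tauto
  refine Ex_markov q F (fun a => touch (cl (a \ Z) Y')) ?_
    (fun a c => g (cl (a \ Z) Y) (cl (a \ Z) Y') c) ?_
  · intro a b; simp only [key a b Y' subset_rfl]
  · intro a b c; simp only [key a b Y' subset_rfl, key a b Y hY]

lemma markov_cl' (q : Sym2 V → ℝ) (F : Finset (Sym2 V)) (Y : Set V)
    (g : Set V → Set (Sym2 V) → ℝ) :
    Ex q F (fun a => g (cl a Y) (a \ touch (cl a Y))) =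
      Ex q F (fun a => Ex q F (fun b => g (cl a Y) (b \ touch (cl a Y)))) := by
  simpa using markov_cl q F ∅ Y Y subset_rfl (fun _ S c => g S c)

end Vale.Agent.P151
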