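import Vale.Agent.P151.Ex

/-! A Peierls argument for an oriented exploration of the quadrant. -/

namespace Vale.Agent.P151

open scoped Classical

section walks
variable {α : Type*} [DecidableEq α]

/-- walks of given length -/
noncomputable def walks (nb : α → Finset α) : ℕ → α → Finset (List α)
  | 0, v => {[v]}
  | k + 1, v => (nb v).biUnion fun w => (walks nb k w).image (v :: ·)

lemma card_walks (nb : α → Finset α) {Δ : ℕ} (h : ∀ v, (nb v).card ≤ Δ) (k : ℕ) (v : α) :
    (walks nb k v).card ≤ Δ ^ k := by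
  induction k generalizing v with
  | zero => simp [walks]
  | succ k ih =>
    calc (walks nb (k + 1) v).card ≤ (nb v).card * Δ ^ k :=
          Finset.card_biUnion_le_card_mul _ _ _ fun w _ => Finset.card_image_le.trans (ih w)
      _ ≤ _ := by rw [pow_succ, mul_comm]; exact Nat.mul_le_mul_left _ (h v)

lemma mem_walks (nb : α → Finset α) {r : α → α → Prop} (h : ∀ a b, r a b → b ∈ nb a)
    (l : List α) : ∀ v, (v :: l).IsChain r → v :: l ∈ walks nb l.length v := by
  induction l with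
  | nil => intro v _; simp [walks]
  | cons w l ih =>
    intro v hc
    rw [List.isChain_cons_cons] at hc
    exact Finset.mem_biUnion.2 ⟨w, h _ _ hc.1, Finset.mem_image_of_mem _ (ih w hc.2)⟩

lemma exists_walk {r : α → α → Prop} (hr : ∀ a b, r a b → r b a) (S : Finset α) (v : α)
    (hv : v ∈ S) (hS : ∀ w ∈ S, Relation.ReflTransGen (fun a b => r a b ∧ b ∈ S) v w) :
    ∃ l : List α, (v :: l).IsChain r ∧ l.length = 2 * (S.card - 1) ∧ (v :: l).toFinset = S := by
  have key : ∀ n, n + 1 ≤ S.card → ∃ l : List α, (v :: l).IsChain r ∧ l.length = 2 * n ∧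
      (v :: l).toFinset ⊆ S ∧ (v :: l).toFinset.card = n + 1 := by
    intro n
    induction n with
    | zero => intro _; exact ⟨[], by simp, rfl, by simpa, by simp⟩
    | succ n ih =>
      intro hn
      obtain ⟨l, h1, h2, h3, h4⟩ := ih (by omega)
      obtain ⟨w0, hw0, hw0'⟩ := Finset.exists_mem_notMem_of_card_lt_card
        (s := (v :: l).toFinset) (t := S) (by omega)
      have : ∃ s ∈ (v :: l).toFinset, ∃ w ∈ S, w ∉ (v :: l).toFinset ∧ r s w := by
        have hp := hS w0 hw0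
        clear hw0
        induction hp with
        | refl => exact absurd (by simp) hw0'
        | tail _ hb ih' =>
          rename_i b c _
          by_cases hbm : b ∈ (v :: l).toFinset
          · exact ⟨b, hbm, c, hb.2, hw0', hb.1⟩
          · exact ih' hbm
      obtain ⟨s, hs, w, hw, hw', hsw⟩ := this
      obtain ⟨l1, l2, hl⟩ := List.append_of_mem (List.mem_toFinset.1 hs)
      have hc : (l1 ++ s :: w :: s :: l2).IsChain r := by
        rw [hl, List.isChain_split] at h1
        rw [List.isChain_split]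
        exact ⟨h1.1, List.isChain_cons_cons.2 ⟨hsw, List.isChain_cons_cons.2 ⟨hr _ _ hsw, h1.2⟩⟩⟩
      have ht : (l1 ++ s :: w :: s :: l2).toFinset = insert w (v :: l).toFinset := by
        rw [hl]; ext x; simp
      have hlen : (l1 ++ s :: w :: s :: l2).length = 2 * (n + 1) + 1 := by
        have := congrArg List.length hl
        simp at this ⊢; omega
      obtain ⟨l', hl'⟩ : ∃ l', l1 ++ s :: w :: s :: l2 = v :: l' := by
        cases l1 with
        | nil => exact ⟨_, by rw [List.nil_append] at hl ⊢; rw [(List.cons.inj hl).1]⟩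
        | cons a l1 => exact ⟨_, by rw [List.cons_append] at hl ⊢; rw [(List.cons.inj hl).1]⟩
      rw [hl'] at hc ht hlen
      refine ⟨l', hc, by simpa using hlen, ?_, ?_⟩
      · rw [ht]; exact Finset.insert_subset hw h3
      · rw [ht, Finset.card_insert_of_notMem hw', h4]
  have hpos : 0 < S.card := Finset.card_pos.2 ⟨v, hv⟩
  obtain ⟨l, h1, h2, h3, h4⟩ := key (S.card - 1) (by omega)
  exact ⟨l, h1, h2, Finset.eq_of_subset_of_card_le h3 (by omega)⟩

end walks

/-- oriented edges of the square lattice -/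
abbrev Ed := (ℤ × ℤ) × Bool

/-- head of an edge -/
def hd (e : Ed) : ℤ × ℤ := if e.2 then (e.1.1 + 1, e.1.2) else (e.1.1, e.1.2 + 1)

/-- edges of a unit square -/
def sqr (z : ℤ × ℤ) : Finset Ed :=
  {(z, true), ((z.1, z.2 + 1), true), (z, false), ((z.1 + 1, z.2), false)}

/-- edges sharing a square -/
def nbE (e : Ed) : Finset Ed :=
  sqr e.1 ∪ sqr (if e.2 then (e.1.1, e.1.2 - 1) else (e.1.1 - 1, e.1.2))

lemma card_nbE (e : Ed) : (nbE e).card ≤ 8 := by
  have : ∀ z, (sqr z).card ≤ 4 := fun z => Finset.card_le_four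
  exact (Finset.card_union_le _ _).trans (add_le_add (this _) (this _))

lemma mem_nbE {a b : Ed} (h : ∃ z, a ∈ sqr z ∧ b ∈ sqr z) : b ∈ nbE a := by
  obtain ⟨⟨x, y⟩, ha, hb⟩ := h
  simp only [sqr, Finset.mem_insert, Finset.mem_singleton] at ha
  rcases ha with rfl | rfl | rfl | rfl
  · exact Finset.mem_union_left _ hb
  · exact Finset.mem_union_right _ (by simpa using hb)
  · exact Finset.mem_union_left _ hb
  · exact Finset.mem_union_right _ (by simpa using hb)

lemma flux_zero (c : Ed → ℝ) (S : Finset Ed) (hS : ∀ e ∉ S, c e = 0)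
    (h : ∀ z : ℤ × ℤ, c (z, true) + c ((z.1 + 1, z.2), false) - c ((z.1, z.2 + 1), true) -
      c (z, false) = 0) : ∑ e ∈ S, c e = 0 := by
  have hsum : ∀ (w : ℤ × ℤ → ℝ) (b : Bool), Summable fun z => w z * c (z, b) := by
    intro w b
    refine summable_of_ne_finset_zero (s := S.image Prod.fst) fun z hz => ?_
    rw [hS (z, b) fun h => hz (Finset.mem_image_of_mem _ h), mul_zero]
  let w : ℤ × ℤ → ℝ := fun z => (z.2 : ℝ) - z.1
  let e1 : ℤ × ℤ ≃ ℤ × ℤ := Equiv.addRight (1, 0)
  let e2 : ℤ × ℤ ≃ ℤ × ℤ := Equiv.addRight (0, 1)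
  have a1 : ∀ z : ℤ × ℤ, w z * c ((z.1 + 1, z.2), false) =
      (fun z => (w z + 1) * c (z, false)) (e1 z) := by
    rintro ⟨x, y⟩; simp [w, e1]; left; ring
  have a2 : ∀ z : ℤ × ℤ, w z * c ((z.1, z.2 + 1), true) =
      (fun z => (w z - 1) * c (z, true)) (e2 z) := by
    rintro ⟨x, y⟩; simp [w, e2]; left; ring
  have s1 := hsum (fun z => w z + 1) false
  have s2 := hsum (fun z => w z - 1) true
  have s3 := hsum w true
  have s4 := hsum w false
  have t : ∑' z, (w z * c (z, true) + (fun z => (w z + 1) * c (z, false)) (e1 z) -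
      (fun z => (w z - 1) * c (z, true)) (e2 z) - w z * c (z, false)) = 0 := by
    rw [← tsum_zero (β := ℤ × ℤ) (α := ℝ)]
    refine tsum_congr fun z => ?_
    rw [← a1, ← a2]
    linear_combination w z * h z
  have s1' : Summable fun z => (fun z => (w z + 1) * c (z, false)) (e1 z) := e1.summable_iff.2 s1
  have s2' : Summable fun z => (fun z => (w z - 1) * c (z, true)) (e2 z) := e2.summable_iff.2 s2
  rw [Summable.tsum_sub ((s3.add s1').sub s2') s4, Summable.tsum_sub (s3.add s1') s2',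
    Summable.tsum_add s3 s1', e1.tsum_eq (fun z => (w z + 1) * c (z, false)),
    e2.tsum_eq (fun z => (w z - 1) * c (z, true))] at t
  have u1 := hsum (fun _ => 1) false
  have u2 := hsum (fun _ => 1) true
  simp only [one_mul] at u1 u2
  simp_rw [add_mul, sub_mul, one_mul] at t
  rw [Summable.tsum_add s4 u1, Summable.tsum_sub s3 u2] at t
  have v : ∑' e, c e = ∑ e ∈ S, c e := tsum_eq_sum hS
  have v2 : Summable c := summable_of_ne_finset_zero hS
  rw [← v, v2.tsum_prod]
  simp_rw [tsum_bool]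
  rw [Summable.tsum_add u1 u2]
  linarith

lemma contour (A : Finset (ℤ × ℤ)) (h0 : (0, 0) ∈ A) (h1 : (0, -1) ∉ A) :
    ∃ l : List Ed, ∃ n, ((0, -1), false) :: l ∈ walks nbE (2 * n) ((0, -1), false) ∧
      ((((0, -1), false) : Ed) :: l).toFinset.card = n + 1 ∧
      n + 1 ≤ 2 * (((((0, -1), false) : Ed) :: l).toFinset.filter
        fun e => e.1 ∈ A ∧ hd e ∉ A).card := by
  set e0 : Ed := ((0, -1), false) with he0
  let cut : Ed → Prop := fun e => ¬ (e.1 ∈ A ↔ hd e ∈ A)
  let r : Ed → Ed → Prop := fun a b => ∃ z, a ∈ sqr z ∧ b ∈ sqr z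
  have hc0 : cut e0 := by simp [cut, he0, hd, h0, h1]
  have hcut : ∀ e, Relation.ReflTransGen (fun a b => r a b ∧ cut b) e0 e → cut e := by
    intro e h
    induction h with
    | refl => exact hc0
    | tail _ h _ => exact h.2
  have hfin : {e | Relation.ReflTransGen (fun a b => r a b ∧ cut b) e0 e}.Finite := by
    refine Set.Finite.subset (Finset.finite_toSet (A.biUnion fun z => sqr z ∪ sqr (z.1 - 1, z.2 - 1)))
      fun e he => ?_
    have := hcut e he
    obtain ⟨⟨x, y⟩, b⟩ := e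
    simp only [Finset.coe_biUnion, Set.mem_iUnion, Finset.mem_coe, Finset.mem_union]
    by_cases hA : (x, y) ∈ A
    · exact ⟨_, hA, Or.inl (by cases b <;> simp [sqr])⟩
    · have h2 : hd ((x, y), b) ∈ A := by by_contra h; exact this (iff_of_false hA h)
      exact ⟨_, h2, Or.inr (by cases b <;> simp [sqr, hd])⟩
  set S := hfin.toFinset with hS
  have memS : ∀ e, e ∈ S ↔ Relation.ReflTransGen (fun a b => r a b ∧ cut b) e0 e := by
    intro e; simp [hS]
  have h0S : e0 ∈ S := (memS _).2 Relation.ReflTransGen.refl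
  obtain ⟨l, l1, l2, l3⟩ := exists_walk (r := r) (fun a b ⟨z, ha, hb⟩ => ⟨z, hb, ha⟩) S e0 h0S (by
    intro w hw
    rw [memS] at hw
    induction hw with
    | refl => exact Relation.ReflTransGen.refl
    | tail h h' ih => exact ih.tail ⟨h'.1, (memS _).2 (h.tail h')⟩)
  have hpos : 0 < S.card := Finset.card_pos.2 ⟨_, h0S⟩
  refine ⟨l, S.card - 1, l2 ▸ mem_walks nbE (fun a b h => mem_nbE h) l e0 l1,
    by rw [l3]; omega, ?_⟩
  rw [l3]
  let c : Ed → ℝ := fun e => ind (e ∈ S) * (ind (e.1 ∈ A) - ind (hd e ∈ A))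
  have hz := flux_zero c S (fun e he => by simp [c, ind, he]) (by
    intro z
    by_cases hz : ∃ e ∈ sqr z, e ∈ S
    · obtain ⟨e, he, heS⟩ := hz
      have : ∀ e' ∈ sqr z, c e' = ind (e'.1 ∈ A) - ind (hd e' ∈ A) := by
        intro e' he'
        by_cases hc : cut e'
        · simp only [c]
          rw [ind_pos ((memS _).2 (((memS _).1 heS).tail ⟨⟨z, he, he'⟩, hc⟩)), one_mul]
        · simp only [c]
          rw [ind_congr (not_not.1 hc)]; ring
      rw [this _ (by simp [sqr]), this _ (by simp [sqr]), this _ (by simp [sqr]),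
        this _ (by simp [sqr])]
      simp [hd]
    · push Not at hz
      simp only [c]
      rw [ind_neg (hz _ (by simp [sqr])), ind_neg (hz _ (by simp [sqr])),
        ind_neg (hz _ (by simp [sqr])), ind_neg (hz _ (by simp [sqr]))]
      ring)
  have e : ∑ e ∈ S, c e = ∑ e ∈ S, (2 * ind (e.1 ∈ A ∧ hd e ∉ A) - 1) := by
    refine Finset.sum_congr rfl fun e he => ?_
    have := hcut e ((memS _).1 he)
    simp only [c, cut] at this ⊢
    by_cases a : e.1 ∈ A <;> by_cases b : hd e ∈ A <;> simp_all [ind] <;> norm_num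
  rw [e, Finset.sum_sub_distrib, ← Finset.mul_sum] at hz
  have e' : ∑ e ∈ S, ind (e.1 ∈ A ∧ hd e ∉ A) =
      ((S.filter fun e => e.1 ∈ A ∧ hd e ∉ A).card : ℝ) := by
    rw [Finset.card_filter]; push_cast
    exact Finset.sum_congr rfl fun e _ => by unfold ind; split_ifs <;> rfl
  rw [e', Finset.sum_const, nsmul_eq_mul, mul_one] at hz
  have : (S.card : ℝ) = 2 * ((S.filter fun e => e.1 ∈ A ∧ hd e ∉ A).card : ℝ) := by linarith
  have : S.card = 2 * (S.filter fun e => e.1 ∈ A ∧ hd e ∉ A).card := by exact_mod_cast this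
  omega

/-- site attached to the head of an edge -/
def hs (e : Ed) : ℕ × ℕ := ((hd e).1.toNat, (hd e).2.toNat)

theorem peierls {ι : Type*} {q : ι → ℝ} (hq : Par q) (F : Finset ι) (N : ℕ) (hN : 0 < N)
    (rch suc : ℕ × ℕ → Set ι → Prop) (h0 : ∀ ω : Set ι, ω ⊆ F → rch (0, 0) ω)
    (hstep : ∀ ω : Set ι, ω ⊆ F → ∀ x : ℕ × ℕ, x.1 + x.2 < N → rch x ω → suc x ω →
      rch (x.1 + 1, x.2) ω ∧ rch (x.1, x.2 + 1) ω)
    (hprod : ∀ Γ : Finset (ℕ × ℕ), (∀ x ∈ Γ, x.1 + x.2 < N) →
      Ex q F (fun ω => ind (∀ x ∈ Γ, rch x ω ∧ ¬ suc x ω)) ≤ ((1 / 512 : ℝ) ^ 4) ^ Γ.card) :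
    1 / 2 ≤ Ex q F (fun ω => ind (∃ x : ℕ × ℕ, x.1 + x.2 = N ∧ rch x ω)) := by
  set e0 : Ed := ((0, -1), false) with he0
  let fam : ℕ → Finset (List Ed) := fun n =>
    (walks nbE (2 * n) e0).filter fun l => l.toFinset.card = n + 1
  let sub : ℕ → List Ed → Finset (Finset (ℕ × ℕ)) := fun n l =>
    (l.toFinset.image hs).powerset.filter fun Γ => n + 1 ≤ 4 * Γ.card ∧ ∀ x ∈ Γ, x.1 + x.2 < N
  let bad : Finset (ℕ × ℕ) → Set ι → ℝ := fun Γ ω => ind (∀ x ∈ Γ, rch x ω ∧ ¬ suc x ω)
  have det : ∀ ω : Set ι, ω ⊆ F → 1 - ind (∃ x : ℕ × ℕ, x.1 + x.2 = N ∧ rch x ω) ≤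
      bad {(0, 0)} ω + ∑ n ∈ Finset.range (4 * (N * N)), ∑ l ∈ fam n, ∑ Γ ∈ sub n l, bad Γ ω := by
    intro ω hω
    have n1 : 0 ≤ bad {(0, 0)} ω := ind_nonneg _
    have n3 : ∀ n l, 0 ≤ ∑ Γ ∈ sub n l, bad Γ ω := fun _ _ =>
      Finset.sum_nonneg fun _ _ => ind_nonneg _
    have n2 : ∀ n, 0 ≤ ∑ l ∈ fam n, ∑ Γ ∈ sub n l, bad Γ ω := fun _ =>
      Finset.sum_nonneg fun _ _ => n3 _ _
    have n4 := Finset.sum_nonneg (s := Finset.range (4 * (N * N))) fun n _ => n2 n
    by_cases hE : ∃ x : ℕ × ℕ, x.1 + x.2 = N ∧ rch x ω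
    · rw [ind_pos hE]; linarith
    rw [ind_neg hE, sub_zero]
    by_cases hs0 : suc (0, 0) ω
    swap
    · have : bad {(0, 0)} ω = 1 := ind_pos (by simp [h0 ω hω, hs0])
      linarith
    let A0 := (Finset.range N ×ˢ Finset.range N).filter
      fun x => x.1 + x.2 < N ∧ rch x ω ∧ suc x ω
    let A : Finset (ℤ × ℤ) := A0.image fun x => ((x.1 : ℤ), (x.2 : ℤ))
    have memA : ∀ x : ℕ × ℕ, x.1 + x.2 < N → rch x ω → suc x ω → ((x.1 : ℤ), (x.2 : ℤ)) ∈ A := by
      intro x a b c
      refine Finset.mem_image_of_mem _ (Finset.mem_filter.2 ⟨?_, a, b, c⟩)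
      simp only [Finset.mem_product, Finset.mem_range]; omega
    obtain ⟨l, n, w1, w2, w3⟩ := contour A (memA (0, 0) hN (h0 ω hω) hs0) (by
      intro h
      obtain ⟨x, _, hx⟩ := Finset.mem_image.1 h
      have := congrArg Prod.snd hx
      simp at this)
    set X := (e0 :: l).toFinset.filter fun e => e.1 ∈ A ∧ hd e ∉ A with hX
    have hXp : ∀ e ∈ X, hd e = (((hs e).1 : ℤ), ((hs e).2 : ℤ)) ∧
        (hs e).1 + (hs e).2 < N ∧ rch (hs e) ω ∧ ¬ suc (hs e) ω := by
      intro e he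
      obtain ⟨_, a, b⟩ := Finset.mem_filter.1 he
      obtain ⟨x, hx, hxe⟩ := Finset.mem_image.1 a
      obtain ⟨_, c1, c2, c3⟩ := Finset.mem_filter.1 hx
      have st := hstep ω hω x c1 c2 c3
      obtain ⟨z, bb⟩ := e
      simp only at hxe
      subst hxe
      have k : hd (((x.1 : ℤ), (x.2 : ℤ)), bb) =
            (((hs (((x.1 : ℤ), (x.2 : ℤ)), bb)).1 : ℤ), ((hs (((x.1 : ℤ), (x.2 : ℤ)), bb)).2 : ℤ)) ∧
          (hs (((x.1 : ℤ), (x.2 : ℤ)), bb)).1 + (hs (((x.1 : ℤ), (x.2 : ℤ)), bb)).2 =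
            x.1 + x.2 + 1 ∧ rch (hs (((x.1 : ℤ), (x.2 : ℤ)), bb)) ω := by
        cases bb
        · have : hs (((x.1 : ℤ), (x.2 : ℤ)), false) = (x.1, x.2 + 1) := by simp [hs, hd]
          rw [this]; exact ⟨by simp [hd], by simp; omega, st.2⟩
        · have : hs (((x.1 : ℤ), (x.2 : ℤ)), true) = (x.1 + 1, x.2) := by simp [hs, hd]
          rw [this]; exact ⟨by simp [hd], by simp; omega, st.1⟩
      have lt : (hs (((x.1 : ℤ), (x.2 : ℤ)), bb)).1 + (hs (((x.1 : ℤ), (x.2 : ℤ)), bb)).2 < N := by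
        have : ¬ (hs (((x.1 : ℤ), (x.2 : ℤ)), bb)).1 + (hs (((x.1 : ℤ), (x.2 : ℤ)), bb)).2 = N :=
          fun h => hE ⟨_, h, k.2.2⟩
        omega
      exact ⟨k.1, lt, k.2.2, fun h => b (k.1 ▸ memA _ lt k.2.2 h)⟩
    have hcard : X.card ≤ 2 * (X.image hs).card := by
      have : X.card ≤ ((X.image hs) ×ˢ (Finset.univ : Finset Bool)).card := by
        refine Finset.card_le_card_of_injOn (fun e => (hs e, e.2)) (fun e he => by
          simp only [Finset.coe_product, Set.mem_prod, Finset.mem_coe, Finset.mem_univ, and_true]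
          exact Finset.mem_image_of_mem _ he) ?_
        intro e he e' he' h
        have a := (hXp e he).1
        have b := (hXp e' he').1
        obtain ⟨h1, h2⟩ := Prod.mk.inj h
        rw [h1, ← b] at a
        obtain ⟨⟨x, y⟩, bb⟩ := e
        obtain ⟨⟨x', y'⟩, bb'⟩ := e'
        simp only at h2
        subst h2
        cases bb <;> simp [hd] at a ⊢ <;> exact a
      rw [Finset.card_product] at this
      simp at this; omega
    have hle : (X.image hs).card ≤ N * N := by
      have : X.image hs ⊆ Finset.range N ×ˢ Finset.range N := by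
        intro x hx
        obtain ⟨e, he, rfl⟩ := Finset.mem_image.1 hx
        have := (hXp e he).2.1
        simp only [Finset.mem_product, Finset.mem_range]; omega
      simpa using Finset.card_le_card this
    have m1 : n ∈ Finset.range (4 * (N * N)) := Finset.mem_range.2 (by omega)
    have m2 : e0 :: l ∈ fam n := Finset.mem_filter.2 ⟨w1, w2⟩
    have m3 : X.image hs ∈ sub n (e0 :: l) := by
      refine Finset.mem_filter.2 ⟨Finset.mem_powerset.2
        (Finset.image_subset_image (Finset.filter_subset _ _)), by omega, ?_⟩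
      intro x hx
      obtain ⟨e, he, rfl⟩ := Finset.mem_image.1 hx
      exact (hXp e he).2.1
    have m4 : bad (X.image hs) ω = 1 := ind_pos (by
      intro x hx
      obtain ⟨e, he, rfl⟩ := Finset.mem_image.1 hx
      exact (hXp e he).2.2)
    have b1 := Finset.single_le_sum (f := fun Γ => bad Γ ω) (fun _ _ => ind_nonneg _) m3
    have b2 := Finset.single_le_sum (f := fun l => ∑ Γ ∈ sub n l, bad Γ ω) (fun _ _ => n3 _ _) m2
    have b3 := Finset.single_le_sum (f := fun n => ∑ l ∈ fam n, ∑ Γ ∈ sub n l, bad Γ ω)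
      (fun _ _ => n2 _) m1
    linarith
  have t := Ex_mono hq det
  rw [Ex_sub, Ex_const, Ex_add, Ex_sum] at t
  have b0 : Ex q F (bad {(0, 0)}) ≤ (1 / 512 : ℝ) ^ 4 := by
    have := hprod {(0, 0)} (by simpa using hN)
    rwa [Finset.card_singleton, pow_one] at this
  have b1 : ∀ n, Ex q F (fun ω => ∑ l ∈ fam n, ∑ Γ ∈ sub n l, bad Γ ω) ≤ (1 / 8) * (1 / 2) ^ n := by
    intro n
    rw [Ex_sum]
    have c1 : ∀ l ∈ fam n, Ex q F (fun ω => ∑ Γ ∈ sub n l, bad Γ ω) ≤
        2 ^ (n + 1) * (1 / 512) ^ (n + 1) := by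
      intro l hl
      rw [Ex_sum]
      have d1 : ∀ Γ ∈ sub n l, Ex q F (bad Γ) ≤ (1 / 512) ^ (n + 1) := by
        intro Γ hΓ
        obtain ⟨_, e1, e2⟩ := Finset.mem_filter.1 hΓ
        refine (hprod Γ e2).trans ?_
        rw [← pow_mul]
        exact pow_le_pow_of_le_one (by norm_num) (by norm_num) e1
      refine (Finset.sum_le_card_nsmul _ _ _ d1).trans ?_
      rw [nsmul_eq_mul]
      gcongr
      have : (sub n l).card ≤ 2 ^ (n + 1) := by
        refine (Finset.card_filter_le _ _).trans ?_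
        rw [Finset.card_powerset, ← (Finset.mem_filter.1 hl).2]
        exact Nat.pow_le_pow_right (by norm_num) Finset.card_image_le
      exact_mod_cast this
    refine (Finset.sum_le_card_nsmul _ _ _ c1).trans ?_
    rw [nsmul_eq_mul]
    have : ((fam n).card : ℝ) ≤ 8 ^ (2 * n) := by
      exact_mod_cast (Finset.card_filter_le _ _).trans (card_walks nbE card_nbE _ _)
    calc ((fam n).card : ℝ) * (2 ^ (n + 1) * (1 / 512) ^ (n + 1)) ≤
          8 ^ (2 * n) * (2 ^ (n + 1) * (1 / 512) ^ (n + 1)) := by gcongr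
      _ = (1 / 256) * (64 * 2 * (1 / 512)) ^ n := by
          rw [pow_mul, mul_pow, mul_pow, pow_succ, pow_succ]; norm_num; ring
      _ ≤ _ := by gcongr <;> norm_num
  have b2 : ∑ n ∈ Finset.range (4 * (N * N)),
      Ex q F (fun ω => ∑ l ∈ fam n, ∑ Γ ∈ sub n l, bad Γ ω) ≤ (1 / 8) * 2 := by
    refine (Finset.sum_le_sum fun n _ => b1 n).trans ?_
    rw [← Finset.mul_sum]
    gcongr
    exact sum_geometric_two_le _
  norm_num at b0 b2
  linarith

end Vale.Agent.P151
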