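import Vale.Agent.P151.Step
import Vale.Agent.P151.Peierls

/-! The renormalised exploration. -/

namespace Vale.Agent.P151

open scoped Classical

variable {V : Type*} {G : SimpleGraph V} [G.LocallyFinite]

/-- horizontal part of the region of a site -/
def hz (α β : V → ℝ) (ν L a b : ℝ) : Set V :=
  rect α β (a - L + 801 * ν) (a + 800 * ν) (b - 800 * ν) (b + 800 * ν) ∪
    rect α β (a - 750 * ν) (a + L - 900 * ν) (b - 350 * ν) (b + 350 * ν)

/-- region of a site -/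
def big (α β : V → ℝ) (ν L a b : ℝ) : Set V := hz α β ν L a b ∪ hz β α ν L b a

lemma big_swap (α β : V → ℝ) (ν L a b : ℝ) : big β α ν L b a = big α β ν L a b :=
  Set.union_comm _ _

/-- working rectangle -/
def wr (α β : V → ℝ) (ν L a b : ℝ) : Set V :=
  rect α β (a - 800 * ν) (a + L + 800 * ν) (b - 800 * ν) (b + 800 * ν)

/-- target square -/
def sq (α β : V → ℝ) (ν a b : ℝ) : Set V :=
  rect α β (a - 200 * ν) (a + 200 * ν) (b - 200 * ν) (b + 200 * ν)

lemma sq_swap (α β : V → ℝ) (ν a b : ℝ) : sq β α ν b a = sq α β ν a b := rect_swap _ _ _ _ _ _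

lemma big_disj {α β : V → ℝ} {ν L a b : ℝ} (hν : 1 ≤ ν) (hL : 2200 * ν ≤ L) {i j i' j' : ℕ}
    (h1 : ¬ (i' = i ∧ j' = j)) (h2 : ¬ (i' = i + 1 ∧ j' = j)) {v : V}
    (hv : v ∈ big α β ν L (a + i' * L) (b + j' * L)) : v ∉ wr α β ν L (a + i * L) (b + j * L) := by
  have hL0 : 0 ≤ L := by linarith
  have up : ∀ {s t : ℕ}, s ≤ t → (s : ℝ) * L ≤ t * L := fun h =>
    mul_le_mul_of_nonneg_right (by exact_mod_cast h) hL0
  rintro ⟨c1, c2, c3, c4⟩
  have : j' + 1 ≤ j ∨ j + 1 ≤ j' ∨ (j' = j ∧ (i' + 1 ≤ i ∨ i + 2 ≤ i')) := by omega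
  rcases this with h | h | ⟨rfl, h | h⟩ <;> have := up h <;> push_cast at this <;>
    rcases hv with (⟨d1, d2, d3, d4⟩ | ⟨d1, d2, d3, d4⟩) | (⟨d1, d2, d3, d4⟩ | ⟨d1, d2, d3, d4⟩) <;>
    linarith

/-- success towards the child in the `α` direction -/
def child (G : SimpleGraph V) [G.LocallyFinite] (p δ0 : ℝ) (F : Finset (Sym2 V))
    (E : Set (Sym2 V)) (o : V) (α β : V → ℝ) (ν L a b : ℝ) (Pp : Set V) (D : ℕ)
    (ω : Set (Sym2 V)) : Prop :=
  cf p F E o Pp (Pp ∪ (rect α β (a + 801 * ν) (a + L + 500 * ν) (b - 500 * ν) (b + 500 * ν) ∩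
    ball G D o)) (sq α β ν (a + L) b) ω ≤ δ0

lemma cf_inter (p : ℝ) (F : Finset (Sym2 V)) (E : Set (Sym2 V)) (o : V) (P S T : Set V)
    {R : Set (Sym2 V)} (hR : ins P ⊆ R) {ω s : Set (Sym2 V)} (h : s ∩ R = ω ∩ R) :
    cf p F E o P S T s = cf p F E o P S T ω := by
  unfold cf
  rw [← CE_inter (ins P) _ s, ← CE_inter (ins P) _ ω]
  congr 1
  rw [← Set.inter_eq_right.2 hR, ← Set.inter_assoc, h, Set.inter_assoc]

lemma child_succ {p δ0 : ℝ} (h0 : 0 ≤ p) (h1 : p ≤ 1) {F : Finset (Sym2 V)} {E : Set (Sym2 V)}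
    {o : V} {α β : V → ℝ} {ν L a b : ℝ} (hν : 1 ≤ ν) {Pp P' : Set V} {D : ℕ} (hP : Pp ⊆ P')
    (hP' : ∀ v ∈ P', v ∈ wr α β ν L a b → v ∈ Pp) {ω : Set (Sym2 V)} (hω : ω ⊆ F)
    (h : child G p δ0 F E o α β ν L a b Pp D ω) :
    cf p F E o P' (P' ∪ (big α β ν L (a + L) b ∩ ball G D o)) (sq α β ν (a + L) b) ω ≤ δ0 := by
  refine le_trans ?_ h
  set S := Pp ∪ (rect α β (a + 801 * ν) (a + L + 500 * ν) (b - 500 * ν) (b + 500 * ν) ∩
    ball G D o) with hS
  have e : cf p F E o P' S (sq α β ν (a + L) b) ω = cf p F E o Pp S (sq α β ν (a + L) b) ω := by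
    refine CE_eq_of_dep (Z := ins S) (ins_mono hP) ?_ _ ?_ ω
    · rintro e ⟨e1, e2⟩ v hv
      rcases e1 v hv with h | ⟨⟨c1, c2, c3, c4⟩, _⟩
      · exact h
      · exact hP' v (e2 v hv) ⟨by linarith, by linarith, by linarith, by linarith⟩
    · intro s
      congr 4
      ext e; simp only [Set.mem_inter_iff, Set.mem_union]; tauto
  rw [← e]
  refine CE_mono (par_const h0 h1) hω fun s _ _ => ind_mono fun h h' => h
    (cl_mono (Set.inter_subset_inter_right _ (ins_mono ?_)) subset_rfl h')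
  rintro v (hv | ⟨⟨c1, c2, c3, c4⟩, hv⟩)
  · exact Or.inl (hP hv)
  · exact Or.inr ⟨Or.inl (Or.inl ⟨by linarith, by linarith, by linarith, by linarith⟩), hv⟩

lemma child_prob {p ν δ η δ0 : ℝ} {m ρ r K k D : ℕ} (h0 : 0 ≤ p) (h1 : p ≤ 1) {α β : V → ℝ}
    (hL : Loc G α β p ν δ m ρ) (hT : TrOK G p δ η m r) (hr : (r : ℝ) ≤ ν) (hν : 1 ≤ ν)
    (hk : k = 300 + 110 * K) (hδ0 : 0 < δ0) (hδ1 : δ0 ≤ 1) (hη : k * η ≤ δ0 ^ 2)
    (hK : (1 - δ0 ^ 2) ^ K ≤ δ0) {F : Finset (Sym2 V)} (hF : (F : Set (Sym2 V)) ⊆ G.edgeSet)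
    {E : Set (Sym2 V)} (hEE : E ⊆ G.edgeSet) (hEf : E.Finite) {o : V}
    (hFb : ∀ u v, G.Adj u v → u ∈ ball G (D + k * (ρ + 2 * m) + k * (ρ + 2 * m)) o →
      v ∈ ball G (D + k * (ρ + 2 * m) + k * (ρ + 2 * m)) o → s(u, v) ∈ F)
    {a b L : ℝ} (hLd : L = (2200 + 850 * K) * ν) {P : Set V}
    (hP : ∀ v ∈ P, v ∉ wr α β ν L a b) (hE : ∀ e ∈ E, ∀ v ∈ e, v ∉ wr α β ν L a b)
    (ho : o ∉ wr α β ν L a b) {ω : Set (Sym2 V)} (hω : ω ⊆ F)
    (hreach : cf p F E o P (P ∪ (big α β ν L a b ∩ ball G D o)) (sq α β ν a b) ω ≤ δ0) :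
    CE (fun _ => p) F (ins P) (fun s => ind (¬ child G p δ0 F E o α β ν L a b
      (P ∪ (big α β ν L a b ∩ ball G (D + k * (ρ + 2 * m)) o))
      (D + k * (ρ + 2 * m) + k * (ρ + 2 * m)) s)) ω ≤ 5 * δ0 := by
  have := step h0 h1 hL hT hr hν hk hδ0 hδ1 hη hK hF hEE hEf hFb hLd hP hE ho
    (Big := big α β ν L a b) (fun v hv => Or.inl (Or.inr hv)) (by
      rintro v ((⟨d1, d2, d3, d4⟩ | ⟨d1, d2, d3, d4⟩) | (⟨d1, d2, d3, d4⟩ | ⟨d1, d2, d3, d4⟩))
        ⟨c1, c2, c3, c4⟩ <;> refine ⟨?_, ?_, ?_⟩ <;> linarith) hω hreach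
  simpa only [child, not_le, sq] using this

/-- exploration order -/
def bef (z x : ℕ × ℕ) : Prop := z.1 + z.2 < x.1 + x.2 ∨ (z.1 + z.2 = x.1 + x.2 ∧ z.1 < x.1)

theorem renorm {p ν δ η δ0 : ℝ} {m ρ r K k : ℕ} (h0 : 0 ≤ p) (h1 : p ≤ 1) {α β : V → ℝ}
    (hL : Loc G α β p ν δ m ρ) (hT : TrOK G p δ η m r) (hr : (r : ℝ) ≤ ν) (hm : (m : ℝ) ≤ ν)
    (hν : 1 ≤ ν) (hk : k = 300 + 110 * K) (hδ0 : 0 < δ0) (hδ1 : 10 * δ0 ≤ (1 / 512 : ℝ) ^ 4)
    (hη : k * η ≤ δ0 ^ 2) (hδ : 2 * δ ≤ δ0) (hK : (1 - δ0 ^ 2) ^ K ≤ δ0) (o : V) (n : ℕ) :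
    ∃ D, LF G p (ball G m o) (ball G D o) (ball G n o : Set V)ᶜ ≤ 1 / 2 := by
  have hq : Par (fun _ : Sym2 V => p) := par_const h0 h1
  have hδ2 : δ0 ≤ 1 / 2 := by norm_num at hδ1; linarith
  obtain ⟨L, hLd⟩ : ∃ L, L = (2200 + 850 * K) * ν := ⟨_, rfl⟩
  have hLν : 2200 * ν ≤ L := by
    have : 0 ≤ (K : ℝ) * ν := by positivity
    rw [hLd]; linarith
  obtain ⟨κ, hκ⟩ : ∃ κ, κ = k * (ρ + 2 * m) := ⟨_, rfl⟩
  let D1 : ℕ → ℕ := fun l => ρ + m + κ + 2 * l * κ
  have hD1 : ∀ l, D1 l + κ + κ = D1 (l + 1) := fun l => by simp only [D1]; ring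
  have hDm : ∀ {l l'}, l ≤ l' → D1 l ≤ D1 l' := fun h => by simp only [D1]; gcongr
  obtain ⟨N, hN⟩ : ∃ N, N = n + 2 := ⟨_, rfl⟩
  refine ⟨D1 N, ?_⟩
  set F := edgesIn G (ball G (D1 N) o) with hFd
  have hF : (F : Set (Sym2 V)) ⊆ G.edgeSet := edgesIn_subset _
  have hFb : ∀ D ≤ D1 N, ∀ u v, G.Adj u v → u ∈ ball G D o → v ∈ ball G D o → s(u, v) ∈ F :=
    fun D hD u v huv hu hv => mem_edgesIn.2 ⟨huv, mem_ins_mk.2 ⟨ball_mono hD hu, ball_mono hD hv⟩⟩
  set E : Set (Sym2 V) := ↑(edgesIn G (ball G m o)) with hEd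
  have hEE : E ⊆ G.edgeSet := edgesIn_subset _
  have hEf : E.Finite := Finset.finite_toSet _
  have hEi : E ⊆ ins (ball G m o : Set V) := fun e he => (mem_edgesIn.1 he).2
  have hΛ : ∀ v ∈ ball G m o, α v ≤ α o + ν ∧ α o ≤ α v + ν ∧ β v ≤ β o + ν ∧ β o ≤ β v + ν := by
    intro v hv
    have a := ball_lip hL.lipa hv
    have b := ball_lip hL.lipb hv
    exact ⟨by linarith [a.1], by linarith [a.2], by linarith [b.1], by linarith [b.2]⟩
  set a0 := α o + 1000 * ν with ha0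
  set b0 := β o with hb0
  let Bg : ℕ × ℕ → Set V := fun x => big α β ν L (a0 + x.1 * L) (b0 + x.2 * L)
  let Reg : ℕ × ℕ → Set V := fun x => Bg x ∩ ball G (D1 (x.1 + x.2) + κ) o
  let P : ℕ × ℕ → Set V := fun x => {v | ∃ z, bef z x ∧ v ∈ Reg z}
  let rch : ℕ × ℕ → Set (Sym2 V) → Prop := fun x ω =>
    cf p F E o (P x) (P x ∪ (Bg x ∩ ball G (D1 (x.1 + x.2)) o))
      (sq α β ν (a0 + x.1 * L) (b0 + x.2 * L)) ω ≤ δ0
  let suc : ℕ × ℕ → Set (Sym2 V) → Prop := fun x ω =>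
    child G p δ0 F E o α β ν L (a0 + x.1 * L) (b0 + x.2 * L) (P x ∪ Reg x)
      (D1 (x.1 + x.2) + κ + κ) ω ∧
    child G p δ0 F E o β α ν L (b0 + x.2 * L) (a0 + x.1 * L) (P x ∪ Reg x)
      (D1 (x.1 + x.2) + κ + κ) ω
  have hPP : ∀ z x, bef z x → P z ∪ Reg z ⊆ P x := by
    rintro z x h v (⟨y, hy, hv⟩ | hv)
    · exact ⟨y, by unfold bef at *; omega, hv⟩
    · exact ⟨z, h, hv⟩
  have hL0 : ∀ i : ℕ, 0 ≤ (i : ℝ) * L := fun i => by
    have : 0 ≤ L := by linarith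
    positivity
  have r0 : ∀ ω : Set (Sym2 V), ω ⊆ F → rch (0, 0) ω := by
    intro ω hω
    have hP0 : P (0, 0) = ∅ := by
      ext v; simp only [P, bef, Set.mem_ofPred_eq, Set.mem_empty_iff_false, iff_false]
      rintro ⟨z, hz, _⟩; omega
    have hi : ins (∅ : Set V) = ∅ := by
      ext e; induction e using Sym2.ind with
      | _ x y => simp [mem_ins_mk]
    simp only [rch, hP0, Set.empty_union, cf_eq_fail, hi, Set.inter_empty, Set.union_empty,
      Set.notMem_empty, not_false_eq_true, Finset.filter_true]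
    have hAB : rect α β (α o - 300 * ν) (a0 + 300 * ν) (b0 - 300 * ν) (b0 + 300 * ν) ⊆ Bg (0, 0) := by
      rintro v ⟨c1, c2, c3, c4⟩
      refine Or.inl (Or.inl ⟨?_, ?_, ?_, ?_⟩) <;> simp only [Nat.cast_zero, zero_mul] <;> linarith
    have hkr : (300 : ℝ) ≤ k := by rw [hk]; push_cast; linarith [Nat.cast_nonneg (α := ℝ) K]
    have t := steer h0 h1 hL hT hr hF hEE hEf (o := o) (fun D' => Bg (0, 0) ∩ ball G D' o)
      (ρ + m) k (Y := b0) (h := 144 * ν) (lo := α o + b0 + 10 * ν) (hi := α o + b0 + 38 * ν)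
      (Φ := a0 + b0) (A := rect α β (α o - 300 * ν) (a0 + 300 * ν) (b0 - 300 * ν) (b0 + 300 * ν))
      (X := mv α β ν o) (M := sq α β ν (a0 + (0 : ℕ) * L) (b0 + (0 : ℕ) * L)) le_rfl
      (by linarith) (by nlinarith)
      (fun v ⟨c1, c2, c3, c4⟩ => ⟨by linarith, by linarith, by linarith, by linarith⟩)
      (fun v ⟨c1, c2, c3, c4, c5, c6⟩ => ⟨by linarith, by linarith, by linarith, by linarith⟩)
      (fun v c1 c2 c3 c4 => by
        refine ⟨?_, ?_, ?_, ?_⟩ <;> simp only [Nat.cast_zero, zero_mul] <;> linarith)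
      (fun _ _ h => Set.inter_subset_inter_right _ (ball_mono h)) (fun _ _ _ hu _ => hu.2)
      (fun _ u hu h => ⟨hAB hu, h⟩)
      (fun u v huv _ _ => hFb _ (by
        have := hDm (Nat.zero_le N); simp only [D1] at this ⊢; omega) u v huv)
      (fun e he v hv _ => by have := hΛ v (hEi he v hv); linarith [this.1, this.2.2.1])
      (fun _ => by linarith)
    obtain ⟨Λ, Q, q1, q2, q3, q4⟩ := hL.dn o
    have t2 : fail p F E o (Bg (0, 0) ∩ ball G (ρ + m) o) (mv α β ν o) ≤ δ := by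
      refine le_trans ?_ q4
      rw [← LF_eq p Λ Q _ hF (edgesIn_mono (q2.trans (ball_mono (by simp only [D1]; omega))))]
      refine Ex_mono hq fun s _ => ind_mono fun h => ?_
      rw [Set.disjoint_left]
      rintro v hv ⟨u, hu, hc⟩
      refine h ⟨v, hv, (hc.symm.mono ?_).trans ((conn_ball (q1 hu)).symm.mono ?_)⟩
      · refine Set.inter_subset_inter Set.subset_union_right (ins_mono fun w hw => ?_)
        obtain ⟨c1, c2, c3, c4⟩ := q3 hw
        exact ⟨hAB ⟨by linarith, by linarith, by linarith, by linarith⟩,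
          ball_mono (by omega) (q2 hw)⟩
      · refine fun e he => ⟨Or.inl (mem_edgesIn.2 he), ins_mono (fun w hw => ?_) he.2⟩
        obtain ⟨c1, c2, c3, c4⟩ := hΛ w hw
        exact ⟨hAB ⟨by linarith, by linarith, by linarith, by linarith⟩, ball_mono (by omega) hw⟩
    have e : D1 (0 + 0) = ρ + m + k * (ρ + 2 * m) := by simp only [D1, hκ]; ring
    rw [e]
    nlinarith
  have rstep : ∀ ω : Set (Sym2 V), ω ⊆ F → ∀ x : ℕ × ℕ, x.1 + x.2 < N → rch x ω → suc x ω →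
      rch (x.1 + 1, x.2) ω ∧ rch (x.1, x.2 + 1) ω := by
    intro ω hω x _ _ hs
    constructor
    · have := child_succ h0 h1 hν (hPP x (x.1 + 1, x.2) (by unfold bef; simp)) (by
        rintro v ⟨z, hz, hv⟩ hw
        by_cases hzx : z.1 = x.1 ∧ z.2 = x.2
        · exact Or.inr ((Prod.ext hzx.1 hzx.2 : z = x) ▸ hv)
        · exact absurd hw (big_disj hν hLν hzx (by unfold bef at hz; simp at hz; omega) hv.1))
        hω hs.1
      rw [hD1] at this
      simp only [rch, Bg]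
      push_cast
      rw [add_mul, one_mul, ← add_assoc a0, add_right_comm x.1]
      exact this
    · have := child_succ h0 h1 hν (hPP x (x.1, x.2 + 1) (by unfold bef; simp)) (by
        rintro v ⟨z, hz, hv⟩ hw
        by_cases hzx : z.2 = x.2 ∧ z.1 = x.1
        · exact Or.inr ((Prod.ext hzx.2 hzx.1 : z = x) ▸ hv)
        · exact absurd hw (big_disj hν hLν hzx (by unfold bef at hz; simp at hz; omega)
            (big_swap α β ν L _ _ ▸ hv.1)))
        hω hs.2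
      rw [hD1, big_swap, sq_swap] at this
      simp only [rch, Bg]
      push_cast
      rw [add_mul, one_mul, ← add_assoc b0, ← add_assoc x.1]
      exact this
  have rone : ∀ x : ℕ × ℕ, x.1 + x.2 < N → ∀ ω : Set (Sym2 V), ω ⊆ F → rch x ω →
      CE (fun _ => p) F (ins (P x)) (fun s => ind (¬ suc x s)) ω ≤ (1 / 512 : ℝ) ^ 4 := by
    intro x hx ω hω hr'
    have hb : D1 (x.1 + x.2) + k * (ρ + 2 * m) + k * (ρ + 2 * m) ≤ D1 N := by
      rw [← hκ, hD1]; exact hDm hx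
    have t1 := child_prob h0 h1 hL hT hr hν hk hδ0 (by linarith) hη hK hF hEE hEf (hFb _ hb) hLd
      (a := a0 + x.1 * L) (b := b0 + x.2 * L) (P := P x)
      (fun v ⟨z, hz, hv⟩ => big_disj hν hLν (by unfold bef at hz; omega)
        (by unfold bef at hz; omega) hv.1)
      (fun e he v hv h => by linarith [(hΛ v (hEi he v hv)).1, h.1, hL0 x.1])
      (fun h => by linarith [h.1, hL0 x.1]) hω hr'
    have t2 := child_prob h0 h1 hL.swap hT hr hν hk hδ0 (by linarith) hη hK hF hEE hEf (hFb _ hb)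
      hLd (a := b0 + x.2 * L) (b := a0 + x.1 * L) (P := P x)
      (fun v ⟨z, hz, hv⟩ => big_disj (i' := z.2) (j' := z.1) hν hLν (by unfold bef at hz; omega)
        (by unfold bef at hz; omega) (by rw [big_swap]; exact hv.1))
      (fun e he v hv h => by linarith [(hΛ v (hEi he v hv)).1, h.2.2.1, hL0 x.1])
      (fun h => by linarith [h.2.2.1, hL0 x.1]) hω (by rw [big_swap, sq_swap]; exact hr')
    rw [big_swap] at t2
    rw [← hκ] at t1 t2
    refine le_trans (CE_mono hq hω fun s _ _ => (ind_congr not_and_or).le.trans (ind_or_le _ _)) ?_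
    rw [CE_add]
    exact (add_le_add t1 t2).trans (by linarith)
  have rprod : ∀ Γ : Finset (ℕ × ℕ), (∀ x ∈ Γ, x.1 + x.2 < N) →
      Ex (fun _ => p) F (fun ω => ind (∀ x ∈ Γ, rch x ω ∧ ¬ suc x ω)) ≤
        ((1 / 512 : ℝ) ^ 4) ^ Γ.card := by
    intro Γ
    induction Γ using Finset.induction_on_max_value
      (fun x : ℕ × ℕ => toLex (x.1 + x.2, x.1)) with
    | empty => intro _; simpa using Ex_ind_le_one hq _
    | insert x Γ hx hmax ih =>
      intro hΓ
      have ih' := ih fun z hz => hΓ z (Finset.mem_insert_of_mem hz)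
      have hb : ∀ z ∈ Γ, bef z x := by
        intro z hz
        have h1 := Prod.Lex.toLex_le_toLex.1 (hmax z hz)
        have h2 : ¬ (z.1 = x.1 ∧ z.2 = x.2) := fun h => hx ((Prod.ext h.1 h.2 : z = x) ▸ hz)
        unfold bef; simp only at h1; omega
      rw [Finset.card_insert_of_notMem hx, pow_succ', ← Ex_CE (ins (P x))]
      refine le_trans (Ex_mono hq (g := fun ω => (1 / 512 : ℝ) ^ 4 *
        ind (∀ x ∈ Γ, rch x ω ∧ ¬ suc x ω)) fun ω hω => ?_) ?_
      · by_cases hA : (∀ z ∈ Γ, rch z ω ∧ ¬ suc z ω) ∧ rch x ω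
        · rw [ind_pos hA.1, mul_one]
          refine le_trans (CE_mono hq hω fun s _ _ => ind_mono fun h =>
            (h x (Finset.mem_insert_self _ _)).2) ?_
          exact rone x (hΓ x (Finset.mem_insert_self _ _)) ω hω hA.2
        · refine le_trans (CE_mono hq hω (g := fun _ => 0) fun s _ hs =>
            le_of_eq (ind_neg fun h => hA ⟨fun z hz => ?_, ?_⟩)) ?_
          · have hz' := h z (Finset.mem_insert_of_mem hz)
            have i1 := ins_mono (hPP z x (hb z hz))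
            have i2 := ins_mono (Set.subset_union_left.trans (hPP z x (hb z hz)))
            simp only [rch, suc, child] at hz' ⊢
            rwa [cf_inter _ _ _ _ _ _ _ i2 hs, cf_inter _ _ _ _ _ _ _ i1 hs,
              cf_inter _ _ _ _ _ _ _ i1 hs] at hz'
          · have hz' := (h x (Finset.mem_insert_self _ _)).1
            simp only [rch] at hz' ⊢
            rwa [cf_inter _ _ _ _ _ _ _ subset_rfl hs] at hz'
          · rw [CE_const]; exact mul_nonneg (by positivity) (ind_nonneg _)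
      · rw [Ex_const_mul]; gcongr
  have main := peierls hq F N (by omega) rch suc r0 rstep rprod
  have far : ∀ ω : Set (Sym2 V), ω ⊆ F → (∃ x : ℕ × ℕ, x.1 + x.2 = N ∧ rch x ω) →
      ¬ Disjoint (ball G n o : Set V)ᶜ (cl ω (ball G m o)) := by
    rintro ω hω ⟨x, hx, hr'⟩ hd
    have hxr : (x.1 : ℝ) * L + x.2 * L = (n + 2) * L := by
      have : (x.1 : ℝ) + x.2 = n + 2 := by exact_mod_cast hx.trans hN
      rw [← this]; ring
    have hnL : 2 * (n : ℝ) + 2 ≤ (n + 1) * L := by nlinarith [Nat.cast_nonneg (α := ℝ) n]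
    have : 1 ≤ cf p F E o (P x) (P x ∪ (Bg x ∩ ball G (D1 (x.1 + x.2)) o))
        (sq α β ν (a0 + x.1 * L) (b0 + x.2 * L)) ω := by
      rw [← CE_const (q := fun _ => p) (F := F) (ins (P x)) 1 ω]
      refine CE_mono hq hω fun s hs he => le_of_eq (ind_pos ?_).symm
      rintro ⟨v, ⟨c1, _, c3, _⟩, hc⟩
      obtain ⟨w, hw, hcw⟩ := conn_exit (S := {v | α v + β v < α o + b0 + (n + 1) * L}) hc.symm
        (fun h => by simp only [Set.mem_ofPred_eq] at h; linarith)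
      have hw' : α o + b0 + (n + 1) * L ≤ α w + β w := not_lt.1 hw
      have aux : ∀ u u', G.Adj u u' → α u + β u < α o + b0 + (n + 1) * L →
          u ∉ Bg x ∧ u' ∉ Bg x := by
        intro u u' huu hu
        have e1 := hL.lipa _ _ huu
        have e2 := hL.lipb _ _ huu
        constructor <;>
          rintro ((⟨d1, d2, d3, d4⟩ | ⟨d1, d2, d3, d4⟩) | (⟨d1, d2, d3, d4⟩ | ⟨d1, d2, d3, d4⟩)) <;>
          linarith
      have hcw' : conn (ω ∪ E) o w := by
        refine hcw.mono fun e he' => ?_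
        obtain ⟨⟨e1 | e1, e2⟩, e3⟩ := he'
        · exact Or.inr e1
        · left
          have : e ∈ ins (P x) := by
            induction e using Sym2.ind with
            | _ u u' =>
              have hadj : G.Adj u u' := hF (hs e1)
              rw [mem_ins_mk] at e2 ⊢
              have : u ∉ Bg x ∧ u' ∉ Bg x := by
                rcases mem_touch_mk.1 e3 with h | h
                · exact aux u u' hadj h
                · exact (aux u' u hadj.symm h).symm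
              exact ⟨e2.1.resolve_right fun h => this.1 h.1, e2.2.resolve_right fun h => this.2 h.1⟩
          have h2 : e ∈ s ∩ ins (P x) := ⟨e1, this⟩
          rw [he] at h2; exact h2.1
      refine Set.disjoint_left.1 hd (fun hwb => ?_) (conn_union_base hEi (self_mem_ball _ _) hcw')
      linarith [(ball_lip hL.lipa hwb).1, (ball_lip hL.lipb hwb).1]
    simp only [rch] at hr'
    linarith
  have := Ex_mono hq (F := F) fun ω hω => ind_mono (far ω hω)
  rw [Ex_ind_not] at this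
  unfold LF
  linarith

end Vale.Agent.P151
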