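import Vale.Agent.P151.Frame
import Vale.Agent.P151.Renorm

/-! The finite-volume form of the main theorem. -/

namespace Vale.Agent.P151

open scoped Classical

variable {V : Type*} {G : SimpleGraph V} [G.LocallyFinite] {Γ : Set (G ≃g G)} {o : V}

lemma move_of {p δ ν : ℝ} (h0 : 0 ≤ p) (h1 : p ≤ 1) {m ρ D0 : ℕ}
    (orb : ∀ w, ∃ γ ∈ Γ, γ o ∈ ball G D0 w) {α β : V → ℝ} (hα : Adm G Γ o α) (hβ : Adm G Γ o β)
    (hν : (D0 : ℝ) + 1 ≤ ν) {Q : Finset V} (hQ : Q ⊆ ball G ρ o)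
    (hQ' : ∀ v ∈ Q, |α v| ≤ 141 * ν ∧ |β v| ≤ 141 * ν) {M : Set V}
    (hM : ∀ v ∈ M, 27 * ν ≤ α v ∧ α v ≤ 141 * ν ∧ β v ≤ -27 * ν ∧ -141 * ν ≤ β v ∧
      12 * ν - 1 ≤ α v + β v ∧ α v + β v ≤ 36 * ν + 1)
    (h : LF G p (ball G m o) Q M ≤ δ) : Move G α β p ν δ (D0 + m) (D0 + ρ) (mv α β ν) := by
  intro w
  obtain ⟨γ, hγ, hw⟩ := orb w
  obtain ⟨a1, a2⟩ := ball_lip hα.lip hw
  obtain ⟨b1, b2⟩ := ball_lip hβ.lip hw
  refine ⟨(ball G m o).image γ, Q.image γ, ?_, ?_, ?_, ?_⟩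
  · rw [image_ball]; exact fun v hv => ball_trans hw hv
  · intro v hv
    obtain ⟨z, hz, rfl⟩ := Finset.mem_image.1 hv
    exact ball_trans hw (ball_map γ (hQ hz))
  · intro v hv
    obtain ⟨z, hz, rfl⟩ := Finset.mem_image.1 hv
    obtain ⟨c1, c2⟩ := hQ' z hz
    rw [abs_le] at c1 c2
    refine ⟨?_, ?_, ?_, ?_⟩ <;> first | rw [hα.cov γ hγ] | rw [hβ.cov γ hγ]
    all_goals linarith [c1.1, c1.2, c2.1, c2.2]
  · refine le_trans (LF_mono h0 h1 subset_rfl subset_rfl ?_) ((LF_map γ p _ Q M).trans_le h)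
    rintro _ ⟨z, hz, rfl⟩
    obtain ⟨c1, c2, c3, c4, c5, c6⟩ := hM z hz
    have e1 := hα.cov γ hγ z
    have e2 := hβ.cov γ hγ z
    exact ⟨by linarith, by linarith, by linarith, by linarith, by linarith, by linarith⟩

lemma loc_of {p δ : ℝ} (hp : 0 < p) (h1 : p ≤ 1) (hδ : 0 < δ) {m D0 : ℕ} {ν0 : ℝ}
    (orb : ∀ w, ∃ γ ∈ Γ, γ o ∈ ball G D0 w) (hν : (D0 : ℝ) + 1 ≤ ν0)
    (h : Fr G Γ o p (δ / 2) m (140 * ν0)) :
    ∃ (p' ν : ℝ) (ρ : ℕ) (α β : V → ℝ), p / 2 ≤ p' ∧ p' < p ∧ ν0 ≤ ν ∧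
      Loc G α β p' ν δ (D0 + m) ρ := by
  obtain ⟨X, Y, u, ρ, Q, hX, hY, hu, hQ, hQ', r1, r2⟩ := h
  have cont : ∀ T : Set V, Continuous fun t => LF G t (ball G m o) Q T := fun T =>
    continuous_Ex _ _ (fun t _ => t) fun _ => continuous_id
  have ev : ∀ T : Set V, LF G p (ball G m o) Q T ≤ δ / 2 →
      ∀ᶠ t in nhdsWithin p (Set.Iio p), LF G t (ball G m o) Q T < δ := fun T hT =>
    nhdsWithin_le_nhds ((cont T).continuousAt.eventually_lt continuousAt_const (by linarith))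
  obtain ⟨p', ⟨⟨c1, c2⟩, c3⟩, c4⟩ := ((((ev _ r1).and (ev _ r2)).and
    (nhdsWithin_le_nhds (lt_mem_nhds (half_lt_self hp)))).and self_mem_nhdsWithin).exists
  have c4' : p' < p := c4
  have p0 : 0 ≤ p' := by linarith
  have p1 : p' ≤ 1 := by linarith
  obtain ⟨ν, hνu⟩ : ∃ ν, u = 140 * ν := ⟨u / 140, by ring⟩
  subst hνu
  have hA := hX.comb hY (a := 14 / 35) (b := -21 / 35) (by norm_num [abs_of_nonneg, abs_of_neg])
  have hB := hX.comb hY (a := -8 / 35) (b := 24 / 35) (by norm_num [abs_of_nonneg, abs_of_neg])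
  have d0 : (0 : ℝ) ≤ D0 := Nat.cast_nonneg _
  have hQa : ∀ v ∈ Q, |14 / 35 * X v + -21 / 35 * Y v| ≤ 141 * ν ∧
      |-8 / 35 * X v + 24 / 35 * Y v| ≤ 141 * ν := fun v hv => by
    obtain ⟨a, b, c, d⟩ := hQ' hv
    exact ⟨abs_le.2 ⟨by linarith, by linarith⟩, abs_le.2 ⟨by linarith, by linarith⟩⟩
  refine ⟨p', ν, D0 + ρ, _, _, c3.le, c4', by linarith, hA.lip, hB.lip,
    move_of p0 p1 orb hA hB (by linarith) hQ hQa ?_ c1.le,
    (move_of p0 p1 orb hB hA (by linarith) hQ (fun v hv => (hQa v hv).symm) ?_ c2.le).swap⟩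
  · rintro v ⟨a, b, c, d⟩
    exact ⟨by linarith, by linarith, by linarith, by linarith, by linarith, by linarith⟩
  · rintro v ⟨a, b, c, d⟩
    exact ⟨by linarith, by linarith, by linarith, by linarith, by linarith, by linarith⟩

theorem core {Δ : ℕ} (hΔ : ∀ v, G.degree v ≤ Δ) {x y : V → ℝ} (hx : Adm G Γ o x)
    (hy : Adm G Γ o y) {D0 D : ℕ} (orb : ∀ w, ∃ γ ∈ Γ, γ o ∈ ball G D0 w)
    (esc : ∀ a b : ℝ, |a| + |b| = 1 → ∀ w, ∃ v ∈ ball G D w,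
      a * x w + b * y w + 1 ≤ a * x v + b * y v)
    {p : ℝ} (h0 : 0 < p) (h1 : p < 1) {m0 : ℕ} {θ : ℝ} (hθ : θ < 1) (h : Perc G p o m0 θ) :
    ∃ p', 0 ≤ p' ∧ p' < p ∧ ∃ m, Perc G p' o m (1 / 2) := by
  obtain ⟨δ0, hδ0⟩ : ∃ δ0 : ℝ, δ0 = (1 / 512) ^ 4 / 10 := ⟨_, rfl⟩
  have d0 : 0 < δ0 := by rw [hδ0]; positivity
  have d1 : δ0 ≤ 1 / 2 := by rw [hδ0]; norm_num
  obtain ⟨K, hK⟩ := exists_pow_lt_of_lt_one d0 (by nlinarith : 1 - δ0 ^ 2 < 1)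
  obtain ⟨k, hk⟩ : ∃ k, k = 300 + 110 * K := ⟨_, rfl⟩
  have k1 : (1 : ℝ) ≤ k := by exact_mod_cast (by omega : 1 ≤ k)
  obtain ⟨δ, e1, e2, e3⟩ := exists_trOK hΔ (η := δ0 ^ 2 / k) (by positivity)
  have e4 : δ ≤ δ0 ^ 2 := e2.trans (div_le_self (by positivity) k1)
  have e5 : 2 * δ ≤ δ0 := by nlinarith
  have e6 : 0 < (δ / 2) ^ 32 / 2 := by positivity
  obtain ⟨m, hm⟩ := boost h0.le h1.le hθ h e6
  obtain ⟨r, hr⟩ := e3 (D0 + m) (p / 2) p (half_pos h0) h1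
  have fr := frame (Γ := Γ) h0.le h1.le (half_pos e1) (by linarith) hx hy (m := m)
    (n0 := 140 * (D0 + m + r + 1)) (by omega) (by omega) (by
      intro c
      obtain ⟨ρ, hρ⟩ := exit_dense hΔ h0 h1 e6 hm ((2 * c + 1) * D)
      refine ⟨ρ, fun a b hab => (hρ _ fun w => ?_).trans_eq (add_halves _)⟩
      have it : ∀ j : ℕ, ∃ v ∈ ball G (j * D) w, a * x w + b * y w + j ≤ a * x v + b * y v := by
        intro j
        induction j with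
        | zero => exact ⟨w, self_mem_ball _ _, by simp⟩
        | succ j ih =>
          obtain ⟨v, hv, hv'⟩ := ih
          obtain ⟨z, hz, hz'⟩ := esc a b hab v
          exact ⟨z, ball_trans' hv hz (by rw [add_mul, one_mul]), by push_cast; linarith⟩
      by_cases hw : (c : ℝ) < |a * x w + b * y w|
      · exact ⟨w, self_mem_ball _ _, hw⟩
      · obtain ⟨v, hv, hv'⟩ := it (2 * c + 1)
        refine ⟨v, hv, show (c : ℝ) < |a * x v + b * y v| from lt_abs.2 (Or.inl ?_)⟩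
        push_cast at hv'
        linarith [(abs_le.1 (not_lt.1 hw)).1])
  push_cast at fr
  have n1 : (0 : ℝ) ≤ m := Nat.cast_nonneg _
  have n2 : (0 : ℝ) ≤ r := Nat.cast_nonneg _
  have n3 : (0 : ℝ) ≤ D0 := Nat.cast_nonneg _
  obtain ⟨p', ν, ρ, α, β, c1, c2, c3, c4⟩ := loc_of h0 h1.le e1 orb (by linarith) fr
  refine ⟨p', by linarith, c2, D0 + m, fun n => ?_⟩
  exact renorm (by linarith) (by linarith) c4 (hr p' c1 c2.le) (by linarith)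
    (by push_cast; linarith) (by linarith) hk d0 (by rw [hδ0]; norm_num)
    (by rw [mul_div_cancel₀ _ (by positivity)]) e5 hK.le o n

end Vale.Agent.P151
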