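import Mathlib

/-! Finite product expectation toolkit. -/

namespace Vale.Agent.P151

open Finset
open scoped Classical

variable {ι : Type*}

noncomputable scoped instance (priority := 10000) decMemSet {α : Type*} (a : α) (s : Set α) :
    Decidable (a ∈ s) := Classical.propDecidable _

noncomputable scoped instance (priority := 10000) decEqSym2 {α : Type*} (a b : Sym2 α) :
    Decidable (a = b) := Classical.propDecidable _

/-- indicator of a proposition -/
noncomputable def ind (P : Prop) : ℝ := if P then 1 else 0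

lemma ind_nonneg (P : Prop) : 0 ≤ ind P := by unfold ind; split_ifs <;> norm_num
lemma ind_le_one (P : Prop) : ind P ≤ 1 := by unfold ind; split_ifs <;> norm_num
lemma ind_pos {P : Prop} (h : P) : ind P = 1 := by simp [ind, h]
lemma ind_neg {P : Prop} (h : ¬ P) : ind P = 0 := by simp [ind, h]
lemma ind_mono {P Q : Prop} (h : P → Q) : ind P ≤ ind Q := by
  by_cases hP : P
  · rw [ind_pos hP, ind_pos (h hP)]
  · rw [ind_neg hP]; exact ind_nonneg _
lemma ind_congr {P Q : Prop} (h : P ↔ Q) : ind P = ind Q := by rw [propext h]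
lemma ind_and (P Q : Prop) : ind (P ∧ Q) = ind P * ind Q := by
  by_cases hP : P <;> by_cases hQ : Q <;> simp [ind, hP, hQ]
lemma ind_not (P : Prop) : ind (¬ P) = 1 - ind P := by
  by_cases hP : P <;> simp [ind, hP]
lemma ind_or_le (P Q : Prop) : ind (P ∨ Q) ≤ ind P + ind Q := by
  by_cases hP : P <;> by_cases hQ : Q <;> simp [ind, hP, hQ]

/-- weight of a configuration -/
noncomputable def wt (q : ι → ℝ) (F s : Finset ι) : ℝ :=
  ∏ e ∈ F, if e ∈ s then q e else 1 - q e

/-- expectation under the product measure on subsets of `F` -/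
noncomputable def Ex (q : ι → ℝ) (F : Finset ι) (f : Set ι → ℝ) : ℝ :=
  ∑ s ∈ F.powerset, wt q F s * f (s : Set ι)

/-- parameters in the unit interval -/
def Par (q : ι → ℝ) : Prop := ∀ e, 0 ≤ q e ∧ q e ≤ 1

variable {q : ι → ℝ} {F : Finset ι}

lemma wt_nonneg (hq : Par q) (F s : Finset ι) : 0 ≤ wt q F s := by
  unfold wt
  refine Finset.prod_nonneg fun e _ => ?_
  split_ifs
  · exact (hq e).1
  · linarith [(hq e).2]

@[simp] lemma Ex_empty (q : ι → ℝ) (f : Set ι → ℝ) : Ex q ∅ f = f ∅ := by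
  simp [Ex, wt]

lemma Ex_insert (q : ι → ℝ) {e : ι} (he : e ∉ F) (f : Set ι → ℝ) :
    Ex q (insert e F) f = q e * Ex q F (fun s => f (insert e s)) + (1 - q e) * Ex q F f := by
  unfold Ex
  rw [Finset.sum_powerset_insert he, add_comm, Finset.mul_sum, Finset.mul_sum]
  congr 1
  · refine Finset.sum_congr rfl fun s hs => ?_
    have hs' := Finset.mem_powerset.1 hs
    have : wt q (insert e F) (insert e s) = q e * wt q F s := by
      unfold wt
      rw [Finset.prod_insert he]
      simp only [Finset.mem_insert, true_or, if_true]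
      congr 1
      refine Finset.prod_congr rfl fun x hx => ?_
      have : x ≠ e := fun h => he (h ▸ hx)
      simp [this]
    rw [this]; simp [mul_assoc]
  · refine Finset.sum_congr rfl fun s hs => ?_
    have hs' := Finset.mem_powerset.1 hs
    have : wt q (insert e F) s = (1 - q e) * wt q F s := by
      unfold wt
      rw [Finset.prod_insert he]
      have : e ∉ s := fun h => he (hs' h)
      simp [this]
    rw [this]; ring

lemma Ex_congr {f g : Set ι → ℝ} (h : ∀ s : Set ι, s ⊆ F → f s = g s) :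
    Ex q F f = Ex q F g := by
  unfold Ex
  refine Finset.sum_congr rfl fun s hs => ?_
  rw [h s (by exact_mod_cast Finset.mem_powerset.1 hs)]

lemma Ex_mono (hq : Par q) {f g : Set ι → ℝ} (h : ∀ s : Set ι, s ⊆ F → f s ≤ g s) :
    Ex q F f ≤ Ex q F g := by
  unfold Ex
  refine Finset.sum_le_sum fun s hs => ?_
  exact mul_le_mul_of_nonneg_left (h s (by exact_mod_cast Finset.mem_powerset.1 hs))
    (wt_nonneg hq _ _)

lemma Ex_const (q : ι → ℝ) (F : Finset ι) (c : ℝ) : Ex q F (fun _ => c) = c := by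
  induction F using Finset.induction_on with
  | empty => simp
  | insert e F he ih => rw [Ex_insert q he, ih]; ring

lemma Ex_add (f g : Set ι → ℝ) : Ex q F (fun s => f s + g s) = Ex q F f + Ex q F g := by
  unfold Ex; rw [← Finset.sum_add_distrib]; exact Finset.sum_congr rfl fun _ _ => by ring

lemma Ex_sub (f g : Set ι → ℝ) : Ex q F (fun s => f s - g s) = Ex q F f - Ex q F g := by
  unfold Ex; rw [← Finset.sum_sub_distrib]; exact Finset.sum_congr rfl fun _ _ => by ring

lemma Ex_const_mul (c : ℝ) (f : Set ι → ℝ) : Ex q F (fun s => c * f s) = c * Ex q F f := by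
  unfold Ex; rw [Finset.mul_sum]; exact Finset.sum_congr rfl fun _ _ => by ring

lemma Ex_mul_const (c : ℝ) (f : Set ι → ℝ) : Ex q F (fun s => f s * c) = Ex q F f * c := by
  unfold Ex; rw [Finset.sum_mul]; exact Finset.sum_congr rfl fun _ _ => by ring

lemma Ex_neg (f : Set ι → ℝ) : Ex q F (fun s => - f s) = - Ex q F f := by
  unfold Ex; rw [← Finset.sum_neg_distrib]; exact Finset.sum_congr rfl fun _ _ => by ring

lemma Ex_sum {κ : Type*} (I : Finset κ) (f : κ → Set ι → ℝ) :
    Ex q F (fun s => ∑ i ∈ I, f i s) = ∑ i ∈ I, Ex q F (f i) := by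
  unfold Ex; rw [Finset.sum_comm]; exact Finset.sum_congr rfl fun _ _ => by rw [Finset.mul_sum]

lemma Ex_nonneg (hq : Par q) {f : Set ι → ℝ} (h : ∀ s : Set ι, s ⊆ F → 0 ≤ f s) :
    0 ≤ Ex q F f := by
  have := Ex_mono (F := F) hq (f := fun _ => 0) h
  rwa [Ex_const] at this

lemma Ex_le_const (hq : Par q) {f : Set ι → ℝ} {c : ℝ} (h : ∀ s : Set ι, s ⊆ F → f s ≤ c) :
    Ex q F f ≤ c := by
  have := Ex_mono (F := F) hq (g := fun _ => c) h
  rwa [Ex_const] at this

lemma le_Ex_const (hq : Par q) {f : Set ι → ℝ} {c : ℝ} (h : ∀ s : Set ι, s ⊆ F → c ≤ f s) :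
    c ≤ Ex q F f := by
  have := Ex_mono (F := F) hq (f := fun _ => c) h
  rwa [Ex_const] at this

lemma Ex_ind_nonneg (hq : Par q) (P : Set ι → Prop) : 0 ≤ Ex q F (fun s => ind (P s)) :=
  Ex_nonneg hq fun _ _ => ind_nonneg _

lemma Ex_ind_le_one (hq : Par q) (P : Set ι → Prop) : Ex q F (fun s => ind (P s)) ≤ 1 :=
  Ex_le_const hq fun _ _ => ind_le_one _

lemma Ex_ind_not (P : Set ι → Prop) :
    Ex q F (fun s => ind (¬ P s)) = 1 - Ex q F (fun s => ind (P s)) := by
  simp_rw [ind_not]; rw [Ex_sub, Ex_const]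

lemma Ex_comm (q q' : ι → ℝ) (F F' : Finset ι) (f : Set ι → Set ι → ℝ) :
    Ex q F (fun s => Ex q' F' (fun t => f s t)) = Ex q' F' (fun t => Ex q F (fun s => f s t)) := by
  unfold Ex
  simp_rw [Finset.mul_sum]
  rw [Finset.sum_comm]
  exact Finset.sum_congr rfl fun _ _ => Finset.sum_congr rfl fun _ _ => by ring

/-- the empty configuration term -/
lemma wt_empty_mul_le (hq : Par q) {f : Set ι → ℝ} (h : ∀ s : Set ι, s ⊆ F → 0 ≤ f s) :
    wt q F ∅ * f ∅ ≤ Ex q F f := by
  unfold Ex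
  have := Finset.single_le_sum (s := F.powerset) (f := fun s => wt q F s * f (s : Set ι))
    (fun s hs => mul_nonneg (wt_nonneg hq _ _)
      (h s (by exact_mod_cast Finset.mem_powerset.1 hs))) (Finset.empty_mem_powerset F)
  simpa using this

lemma wt_empty_pos (hq : ∀ e, q e < 1) : 0 < wt q F ∅ := by
  unfold wt
  refine Finset.prod_pos fun e _ => ?_
  simp; exact hq e

/-- Harris inequality -/
lemma harris (hq : Par q) (F : Finset ι) : ∀ {f g : Set ι → ℝ}, Monotone f → Monotone g →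
    Ex q F f * Ex q F g ≤ Ex q F (fun s => f s * g s) := by
  induction F using Finset.induction_on with
  | empty => intro f g _ _; simp
  | insert e F he ih =>
    intro f g hf hg
    rw [Ex_insert q he, Ex_insert q he, Ex_insert q he]
    have hf' : Monotone fun s : Set ι => f (insert e s) :=
      fun a b hab => hf (Set.insert_subset_insert hab)
    have hg' : Monotone fun s : Set ι => g (insert e s) :=
      fun a b hab => hg (Set.insert_subset_insert hab)
    have h1 := ih hf' hg'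
    have h0 := ih hf hg
    have hf1 : Ex q F f ≤ Ex q F (fun s => f (insert e s)) :=
      Ex_mono hq fun s _ => hf (Set.subset_insert _ _)
    have hg1 : Ex q F g ≤ Ex q F (fun s => g (insert e s)) :=
      Ex_mono hq fun s _ => hg (Set.subset_insert _ _)
    have a := (hq e).1
    have b : 0 ≤ 1 - q e := by linarith [(hq e).2]
    have c := mul_nonneg (mul_nonneg a b) (mul_nonneg (sub_nonneg.2 hf1) (sub_nonneg.2 hg1))
    nlinarith [mul_le_mul_of_nonneg_left h1 a, mul_le_mul_of_nonneg_left h0 b]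

lemma harris_anti (hq : Par q) (F : Finset ι) {f g : Set ι → ℝ} (hf : Antitone f)
    (hg : Antitone g) : Ex q F f * Ex q F g ≤ Ex q F (fun s => f s * g s) := by
  have := harris hq F (f := fun s => - f s) (g := fun s => - g s) hf.neg hg.neg
  rw [Ex_neg, Ex_neg] at this
  simpa using this

lemma harris_mixed (hq : Par q) (F : Finset ι) {f g : Set ι → ℝ} (hf : Monotone f)
    (hg : Antitone g) : Ex q F (fun s => f s * g s) ≤ Ex q F f * Ex q F g := by
  have := harris hq F (f := f) (g := fun s => - g s) hf hg.neg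
  rw [Ex_neg] at this
  have h2 : Ex q F (fun s => f s * - g s) = - Ex q F (fun s => f s * g s) := by
    rw [← Ex_neg]; exact Ex_congr fun s _ => by ring
  linarith

lemma Ex_union (q : ι → ℝ) (A B : Finset ι) (hAB : Disjoint A B) (f : Set ι → ℝ) :
    Ex q (A ∪ B) f = Ex q A (fun s => Ex q B (fun t => f (s ∪ t))) := by
  induction A using Finset.induction_on generalizing f with
  | empty => simp
  | insert e A he ih =>
    have h1 : e ∉ B := fun h => (Finset.disjoint_left.1 hAB) (Finset.mem_insert_self _ _) h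
    have h2 : Disjoint A B := hAB.mono_left (Finset.subset_insert _ _)
    have h3 : e ∉ A ∪ B := by simp [he, h1]
    rw [Finset.insert_union, Ex_insert q h3, Ex_insert q he, ih h2, ih h2]
    simp_rw [Set.insert_union]

/-- split along a set of coordinates -/
lemma Ex_split (q : ι → ℝ) (F : Finset ι) (R : Set ι) (f : Set ι → ℝ) :
    Ex q F f = Ex q (F.filter (· ∈ R))
      (fun s => Ex q (F.filter (· ∉ R)) (fun t => f (s ∪ t))) := by
  rw [← Ex_union q _ _ (Finset.disjoint_filter_filter_not F F (· ∈ R)),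
    Finset.filter_union_filter_not_eq]

lemma Ex_restrict (q : ι → ℝ) (F : Finset ι) (R : Set ι) (f : Set ι → ℝ)
    (h : ∀ s : Set ι, s ⊆ F → f s = f (s ∩ R)) : Ex q F f = Ex q (F.filter (· ∈ R)) f := by
  rw [Ex_split q F R]
  refine Ex_congr fun s hs => ?_
  rw [← Ex_const q (F.filter (· ∉ R)) (f s)]
  refine Ex_congr fun t ht => ?_
  have hsF : s ⊆ F := fun x hx => (Finset.mem_filter.1 (hs hx)).1
  have htF : t ⊆ F := fun x hx => (Finset.mem_filter.1 (ht hx)).1
  rw [h _ (Set.union_subset hsF htF)]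
  congr 1
  ext x
  constructor
  · rintro ⟨h1 | h1, h2⟩
    · exact h1
    · exact absurd h2 (Finset.mem_filter.1 (ht h1)).2
  · intro hx; exact ⟨Or.inl hx, (Finset.mem_filter.1 (hs hx)).2⟩

lemma Ex_subset (q : ι → ℝ) {A F : Finset ι} (hA : A ⊆ F) (f : Set ι → ℝ)
    (h : ∀ s : Set ι, s ⊆ F → f s = f (s ∩ A)) : Ex q F f = Ex q A f := by
  rw [Ex_restrict q F (A : Set ι) f h]
  congr 1
  ext x; simp only [Finset.mem_filter, Finset.mem_coe]
  exact ⟨fun h => h.2, fun h => ⟨hA h, h⟩⟩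

/-- swap lemma for stopping sets -/
lemma Ex_swap (q : ι → ℝ) (F : Finset ι) (R : Set ι → Set ι)
    (hR : ∀ a b : Set ι, R ((a ∩ R a) ∪ (b \ R a)) = R a) (Φ : Set ι → Set ι → ℝ) :
    Ex q F (fun a => Ex q F (fun b => Φ a b)) =
      Ex q F (fun a => Ex q F (fun b =>
        Φ ((a ∩ R a) ∪ (b \ R a)) ((b ∩ R a) ∪ (a \ R a)))) := by
  unfold Ex
  simp_rw [Finset.mul_sum]
  rw [← Finset.sum_product', ← Finset.sum_product']
  let σ : Finset ι × Finset ι → Finset ι × Finset ι := fun x =>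
    (x.1.filter (· ∈ R x.1) ∪ x.2.filter (· ∉ R x.1),
      x.2.filter (· ∈ R x.1) ∪ x.1.filter (· ∉ R x.1))
  have c1 : ∀ x : Finset ι × Finset ι, ((σ x).1 : Set ι) = (↑x.1 ∩ R x.1) ∪ (↑x.2 \ R x.1) := by
    intro x; ext y; simp [σ]
  have c2 : ∀ x : Finset ι × Finset ι, ((σ x).2 : Set ι) = (↑x.2 ∩ R x.1) ∪ (↑x.1 \ R x.1) := by
    intro x; ext y; simp [σ]
  have hinv : ∀ x, σ (σ x) = x := by
    intro x
    have h := hR x.1 x.2
    rw [← c1] at h
    ext y
    · simp only [σ] at h ⊢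
      rw [h]; simp only [Finset.mem_union, Finset.mem_filter]; tauto
    · simp only [σ] at h ⊢
      rw [h]; simp only [Finset.mem_union, Finset.mem_filter]; tauto
  have hmem : ∀ x ∈ F.powerset ×ˢ F.powerset, σ x ∈ F.powerset ×ˢ F.powerset := by
    intro x hx
    simp only [Finset.mem_product, Finset.mem_powerset] at hx ⊢
    exact ⟨Finset.union_subset ((Finset.filter_subset _ _).trans hx.1)
      ((Finset.filter_subset _ _).trans hx.2),
      Finset.union_subset ((Finset.filter_subset _ _).trans hx.2)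
      ((Finset.filter_subset _ _).trans hx.1)⟩
  symm
  refine Finset.sum_nbij' σ σ hmem hmem (fun x _ => hinv x) (fun x _ => hinv x) ?_
  intro x _
  rw [c1, c2, ← mul_assoc, ← mul_assoc]
  congr 1
  unfold wt
  rw [← Finset.prod_mul_distrib, ← Finset.prod_mul_distrib]
  refine Finset.prod_congr rfl fun e _ => ?_
  by_cases h : e ∈ R x.1 <;> simp [σ, h, mul_comm]

/-- Markov property along a stopping set -/
lemma Ex_markov (q : ι → ℝ) (F : Finset ι) (R : Set ι → Set ι)
    (hR : ∀ a b : Set ι, R ((a ∩ R a) ∪ (b \ R a)) = R a) (Φ : Set ι → Set ι → ℝ)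
    (h1 : ∀ a b c : Set ι, Φ ((a ∩ R a) ∪ (b \ R a)) c = Φ a c) :
    Ex q F (fun a => Φ a (a \ R a)) = Ex q F (fun a => Ex q F (fun b => Φ a (b \ R a))) := by
  rw [Ex_swap q F R hR (fun a b => Φ a (b \ R a))]
  refine Ex_congr fun a _ => ?_
  rw [← Ex_const q F (Φ a (a \ R a))]
  refine Ex_congr fun b _ => ?_
  rw [hR, h1]
  congr 1
  ext x; simp only [Set.mem_sdiff, Set.mem_union, Set.mem_inter_iff]; tauto

/-- independence -/
lemma Ex_indep (q : ι → ℝ) (F : Finset ι) (R : Set ι) (f g : Set ι → ℝ)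
    (hf : ∀ s, f s = f (s ∩ R)) (hg : ∀ s, g s = g (s \ R)) :
    Ex q F (fun s => f s * g s) = Ex q F f * Ex q F g := by
  have := Ex_markov q F (fun _ => R) (fun _ _ => rfl) (fun a c => f a * g c) (by
    intro a b c
    rw [hf, hf a]
    congr 2
    ext x; simp only [Set.mem_sdiff, Set.mem_union, Set.mem_inter_iff]; tauto)
  simp_rw [← hg] at this
  rw [this]
  simp_rw [Ex_const_mul]
  rw [Ex_mul_const]

lemma Ex_subset_ind (q : ι → ℝ) {A F : Finset ι} (hA : A ⊆ F) :
    Ex q F (fun s => ind ((A : Set ι) ⊆ s)) = ∏ e ∈ A, q e := by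
  rw [Ex_subset q hA _ (fun s _ => ind_congr ⟨fun h x hx => ⟨h hx, hx⟩, fun h x hx => (h hx).1⟩)]
  clear hA
  induction A using Finset.induction_on with
  | empty => simp [ind]
  | insert e A he ih =>
    rw [Ex_insert q he, Finset.prod_insert he, ← ih]
    have h0 : Ex q A (fun s => ind (((insert e A : Finset ι) : Set ι) ⊆ s)) = 0 := by
      rw [← Ex_const q A 0]
      refine Ex_congr fun s hs => ind_neg fun h => he (hs (h (by simp)))
    rw [h0]
    have h1 : Ex q A (fun s => ind (((insert e A : Finset ι) : Set ι) ⊆ insert e s)) =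
        Ex q A (fun s => ind ((A : Set ι) ⊆ s)) := by
      refine Ex_congr fun s _ => ind_congr ?_
      rw [Finset.coe_insert]
      constructor
      · intro h x hx
        rcases h (Set.mem_insert_of_mem _ hx) with h | h
        · exact absurd (h ▸ hx) he
        · exact h
      · exact fun h => Set.insert_subset_insert h
    rw [h1]; ring

lemma Ex_disjoint_ind (q : ι → ℝ) {A F : Finset ι} (hA : A ⊆ F) :
    Ex q F (fun s => ind (Disjoint (A : Set ι) s)) = ∏ e ∈ A, (1 - q e) := by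
  rw [Ex_subset q hA _ (fun s _ => ind_congr (by
    simp only [Set.disjoint_left, Set.mem_inter_iff]; tauto))]
  clear hA
  induction A using Finset.induction_on with
  | empty => simp [ind]
  | insert e A he ih =>
    rw [Ex_insert q he, Finset.prod_insert he, ← ih]
    have h0 : Ex q A (fun s => ind (Disjoint ((insert e A : Finset ι) : Set ι) (insert e s))) = 0 := by
      rw [← Ex_const q A 0]
      refine Ex_congr fun s _ => ind_neg fun h => (Set.disjoint_left.1 h) (a := e) (by simp) (by simp)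
    rw [h0]
    have h1 : Ex q A (fun s => ind (Disjoint ((insert e A : Finset ι) : Set ι) s)) =
        Ex q A (fun s => ind (Disjoint (A : Set ι) s)) := by
      refine Ex_congr fun s hs => ind_congr ?_
      rw [Finset.coe_insert, Set.disjoint_insert_left]
      exact ⟨fun h => h.2, fun h => ⟨fun h' => he (hs h'), h⟩⟩
    rw [h1]; ring

lemma Ex_image (p : ℝ) {φ : ι → ι} (hφ : Function.Injective φ) (F : Finset ι) (f : Set ι → ℝ) :
    Ex (fun _ => p) (F.image φ) f = Ex (fun _ => p) F (fun s => f (φ '' s)) := by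
  induction F using Finset.induction_on generalizing f with
  | empty => simp
  | insert e F he ih =>
    have : φ e ∉ F.image φ := by
      intro h
      obtain ⟨x, hx, hxe⟩ := Finset.mem_image.1 h
      exact he (hφ hxe ▸ hx)
    rw [Finset.image_insert, Ex_insert _ this, Ex_insert _ he, ih, ih]
    simp_rw [Set.image_insert_eq]

lemma Ex_modify (q : ι → ℝ) (ξ Z A : Set ι) (G : Finset ι) (f : Set ι → ℝ) :
    Ex (fun e => if e ∈ Z then 0 else if e ∈ ξ then 1 else if e ∈ A then q e else 0) G f =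
      Ex q G (fun s => f (((ξ ∩ G) ∪ (s ∩ A)) \ Z)) := by
  induction G using Finset.induction_on generalizing f with
  | empty => simp
  | insert e G he ih =>
    rw [Ex_insert _ he, Ex_insert _ he, ih, ih]
    by_cases hZ : e ∈ Z
    · have a1 : ∀ s : Set ι, ((ξ ∩ ↑(insert e G : Finset ι)) ∪ (insert e s ∩ A)) \ Z =
          ((ξ ∩ G) ∪ (s ∩ A)) \ Z := by
        intro s; ext x; by_cases hx : x = e <;> simp [hx, hZ]
      have a2 : ∀ s : Set ι, ((ξ ∩ ↑(insert e G : Finset ι)) ∪ (s ∩ A)) \ Z =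
          ((ξ ∩ G) ∪ (s ∩ A)) \ Z := by
        intro s; ext x; by_cases hx : x = e <;> simp [hx, hZ]
      simp_rw [a1, a2]; simp [hZ]; ring
    · by_cases hξ : e ∈ ξ
      · have a1 : ∀ s : Set ι, ((ξ ∩ ↑(insert e G : Finset ι)) ∪ (insert e s ∩ A)) \ Z =
            insert e (((ξ ∩ G) ∪ (s ∩ A)) \ Z) := by
          intro s; ext x; by_cases hx : x = e <;> simp [hx, hZ, hξ]
        have a2 : ∀ s : Set ι, ((ξ ∩ ↑(insert e G : Finset ι)) ∪ (s ∩ A)) \ Z =
            insert e (((ξ ∩ G) ∪ (s ∩ A)) \ Z) := by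
          intro s; ext x; by_cases hx : x = e <;> simp [hx, hZ, hξ]
        simp_rw [a1, a2]; simp [hZ, hξ]; ring
      · have a2 : ∀ s : Set ι, ((ξ ∩ ↑(insert e G : Finset ι)) ∪ (s ∩ A)) \ Z =
            ((ξ ∩ G) ∪ (s ∩ A)) \ Z := by
          intro s; ext x; by_cases hx : x = e <;> simp [hx, hξ]
        by_cases hA : e ∈ A
        · have a1 : ∀ s : Set ι, ((ξ ∩ ↑G) ∪ (insert e s ∩ A)) \ Z =
              insert e (((ξ ∩ G) ∪ (s ∩ A)) \ Z) := by
            intro s; ext x; by_cases hx : x = e <;> simp [hx, hZ, hA]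
          simp_rw [a2, a1]; simp [hZ, hξ, hA]
        · have a1 : ∀ s : Set ι, ((ξ ∩ ↑G) ∪ (insert e s ∩ A)) \ Z =
              ((ξ ∩ G) ∪ (s ∩ A)) \ Z := by
            intro s; ext x; by_cases hx : x = e <;> simp [hx, hA]
          simp_rw [a2, a1]; simp [hZ, hξ, hA]; ring

lemma continuous_Ex (F : Finset ι) (f : Set ι → ℝ) (Q : ℝ → ι → ℝ)
    (hQ : ∀ e, Continuous fun t => Q t e) : Continuous fun t => Ex (Q t) F f := by
  unfold Ex wt
  refine continuous_finsetSum _ fun s _ => Continuous.mul ?_ continuous_const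
  refine continuous_finsetProd _ fun e _ => ?_
  split_ifs
  · exact hQ e
  · exact continuous_const.sub (hQ e)

/-- conditional expectation given the configuration on `R` -/
noncomputable def CE (q : ι → ℝ) (F : Finset ι) (R : Set ι) (f : Set ι → ℝ) (ω : Set ι) : ℝ :=
  Ex q (F.filter (· ∉ R)) (fun t => f ((ω ∩ R) ∪ t))

lemma CE_empty (f : Set ι → ℝ) (ω : Set ι) : CE q F ∅ f ω = Ex q F f := by
  unfold CE; simp

lemma CE_inter (R : Set ι) (f : Set ι → ℝ) (ω : Set ι) : CE q F R f (ω ∩ R) = CE q F R f ω := by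
  unfold CE; simp [Set.inter_assoc]

lemma CE_mono (hq : Par q) {R : Set ι} {f g : Set ι → ℝ} {ω : Set ι} (hω : ω ⊆ F)
    (h : ∀ s : Set ι, s ⊆ F → s ∩ R = ω ∩ R → f s ≤ g s) : CE q F R f ω ≤ CE q F R g ω := by
  unfold CE
  refine Ex_mono hq fun t ht => h _ ?_ ?_
  · exact Set.union_subset (Set.inter_subset_left.trans hω)
      fun x hx => (Finset.mem_filter.1 (ht hx)).1
  · ext x
    simp only [Set.mem_inter_iff, Set.mem_union]
    constructor
    · rintro ⟨h1 | h1, h2⟩
      · exact h1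
      · exact absurd h2 (Finset.mem_filter.1 (ht h1)).2
    · intro h; exact ⟨Or.inl h, h.2⟩

lemma CE_const (R : Set ι) (c : ℝ) (ω : Set ι) : CE q F R (fun _ => c) ω = c := Ex_const _ _ _

lemma CE_add (R : Set ι) (f g : Set ι → ℝ) (ω : Set ι) :
    CE q F R (fun s => f s + g s) ω = CE q F R f ω + CE q F R g ω := Ex_add _ _

lemma CE_const_mul (R : Set ι) (c : ℝ) (f : Set ι → ℝ) (ω : Set ι) :
    CE q F R (fun s => c * f s) ω = c * CE q F R f ω := Ex_const_mul _ _

lemma CE_ind_not (R : Set ι) (P : Set ι → Prop) (ω : Set ι) :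
    CE q F R (fun s => ind (¬ P s)) ω = 1 - CE q F R (fun s => ind (P s)) ω := Ex_ind_not _

lemma CE_tower {R₁ R₂ : Set ι} (h : R₁ ⊆ R₂) (f : Set ι → ℝ) (ω : Set ι) :
    CE q F R₁ (CE q F R₂ f) ω = CE q F R₁ f ω := by
  unfold CE
  rw [Ex_split q _ R₂ (fun t => f ((ω ∩ R₁) ∪ t)), Ex_restrict q _ R₂]
  · refine Ex_congr fun s hs => ?_
    have e1 : (F.filter (· ∉ R₁)).filter (· ∉ R₂) = F.filter (· ∉ R₂) := by
      ext x; simp only [Finset.mem_filter]
      exact ⟨fun a => ⟨a.1.1, a.2⟩, fun a => ⟨⟨a.1, fun b => a.2 (h b)⟩, a.2⟩⟩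
    rw [e1]
    refine Ex_congr fun t _ => ?_
    congr 1
    have hs' : s ⊆ R₂ := fun x hx => (Finset.mem_filter.1 (hs hx)).2
    ext x
    have := @h x
    have := @hs' x
    simp only [Set.mem_inter_iff, Set.mem_union]; tauto
  · intro s _
    refine Ex_congr fun t _ => ?_
    congr 2
    ext x
    simp only [Set.mem_inter_iff, Set.mem_union]; tauto

lemma Ex_CE (R : Set ι) (f : Set ι → ℝ) : Ex q F (CE q F R f) = Ex q F f := by
  rw [← CE_empty (ω := ∅), ← CE_empty (ω := ∅), CE_tower (Set.empty_subset _)]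

lemma CE_eq_of_dep {R₁ R₂ Z : Set ι} (h : R₁ ⊆ R₂) (hZ : Z ∩ R₂ ⊆ R₁) (f : Set ι → ℝ)
    (hf : ∀ s, f s = f (s ∩ Z)) (ω : Set ι) : CE q F R₂ f ω = CE q F R₁ f ω := by
  unfold CE
  have key : ∀ R : Set ι, Ex q (F.filter (· ∉ R)) (fun t => f ((ω ∩ R) ∪ t)) =
      Ex q ((F.filter (· ∉ R)).filter (· ∈ Z)) (fun t => f ((ω ∩ R ∩ Z) ∪ t)) := by
    intro R
    rw [Ex_restrict q _ Z]
    · refine Ex_congr fun t _ => ?_
      rw [hf, hf ((ω ∩ R ∩ Z) ∪ t)]; congr 1
      ext x; simp only [Set.mem_inter_iff, Set.mem_union]; tauto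
    · intro t _
      rw [hf, hf ((ω ∩ R) ∪ (t ∩ Z))]; congr 1
      ext x; simp only [Set.mem_inter_iff, Set.mem_union]; tauto
  rw [key, key]
  have e1 : (F.filter (· ∉ R₂)).filter (· ∈ Z) = (F.filter (· ∉ R₁)).filter (· ∈ Z) := by
    ext x; simp only [Finset.mem_filter]
    exact ⟨fun a => ⟨⟨a.1.1, fun b => a.1.2 (h b)⟩, a.2⟩,
      fun a => ⟨⟨a.1.1, fun b => a.1.2 (hZ ⟨a.2, b⟩)⟩, a.2⟩⟩
  have e2 : ω ∩ R₂ ∩ Z = ω ∩ R₁ ∩ Z := by
    ext x; simp only [Set.mem_inter_iff]
    exact ⟨fun a => ⟨⟨a.1.1, hZ ⟨a.2, a.1.2⟩⟩, a.2⟩, fun a => ⟨⟨a.1.1, h a.1.2⟩, a.2⟩⟩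
  rw [e1, e2]

end Vale.Agent.P151
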