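import Vale.Agent.P151.Local

/-! Construction of an adapted frame of coordinates. -/

namespace Vale.Agent.P151

open scoped Classical

variable {V : Type*} {G : SimpleGraph V}

/-- admissible coordinate -/
structure Adm (G : SimpleGraph V) (Γ : Set (G ≃g G)) (o : V) (f : V → ℝ) : Prop where
  lip : ∀ a b, G.Adj a b → f b ≤ f a + 1
  cov : ∀ γ ∈ Γ, ∀ v, f (γ v) = f v + f (γ o)
  zero : f o = 0

variable {Γ : Set (G ≃g G)} {o : V} {x y : V → ℝ}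

lemma Adm.comb (hx : Adm G Γ o x) (hy : Adm G Γ o y) {a b : ℝ} (h : |a| + |b| ≤ 1) :
    Adm G Γ o (fun v => a * x v + b * y v) := by
  refine ⟨fun u v huv => ?_, fun γ hγ v => by rw [hx.cov γ hγ, hy.cov γ hγ]; ring,
    by simp [hx.zero, hy.zero]⟩
  have a1 : |x v - x u| ≤ 1 := abs_le.2 ⟨by linarith [hx.lip _ _ huv.symm], by linarith [hx.lip _ _ huv]⟩
  have a2 : |y v - y u| ≤ 1 := abs_le.2 ⟨by linarith [hy.lip _ _ huv.symm], by linarith [hy.lip _ _ huv]⟩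
  have b1 : a * (x v - x u) ≤ |a| := (le_abs_self _).trans (by
    rw [abs_mul]; exact mul_le_of_le_one_right (abs_nonneg _) a1)
  have b2 : b * (y v - y u) ≤ |b| := (le_abs_self _).trans (by
    rw [abs_mul]; exact mul_le_of_le_one_right (abs_nonneg _) a2)
  linarith

lemma Adm.neg (hx : Adm G Γ o x) : Adm G Γ o (fun v => - x v) := by
  simpa using hx.comb hx (a := -1) (b := 0) (by simp)

lemma Adm.smul (hx : Adm G Γ o x) {a : ℝ} (h0 : 0 ≤ a) (h1 : a ≤ 1) :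
    Adm G Γ o (fun v => a * x v) := by
  simpa using hx.comb hx (a := a) (b := 0) (by simpa [abs_of_nonneg h0])

lemma Adm.abs_lip (hx : Adm G Γ o x) (a b : V) (h : G.Adj a b) : |x b| ≤ |x a| + 1 := by
  have := hx.lip _ _ h
  have := hx.lip _ _ h.symm
  rw [abs_le]; constructor <;> linarith [le_abs_self (x a), neg_abs_le (x a)]

lemma exists_step (P : ℕ → Prop) (h0 : P 0) {N : ℕ} (hN : ¬ P N) : ∃ s, P s ∧ ¬ P (s + 1) := by
  by_contra h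
  push Not at h
  exact hN (Nat.rec h0 h N)

variable [G.LocallyFinite]

lemma Adm.abs_le (hx : Adm G Γ o x) {k : ℕ} {v : V} (h : v ∈ ball G k o) : |x v| ≤ k := by
  have := ball_lip hx.lip h
  rw [hx.zero] at this
  exact _root_.abs_le.2 ⟨by linarith [this.2], by linarith [this.1]⟩

/-- the output of the frame construction -/
def Fr (G : SimpleGraph V) [G.LocallyFinite] (Γ : Set (G ≃g G)) (o : V) (p δ : ℝ) (m : ℕ)
    (n0 : ℝ) : Prop :=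
  ∃ (X Y : V → ℝ) (u : ℝ) (ρ : ℕ) (Q : Finset V), Adm G Γ o X ∧ Adm G Γ o Y ∧ n0 ≤ u ∧
    Q ⊆ ball G ρ o ∧ (Q : Set V) ⊆ rect X Y (-u - 1) (u + 1) (-u - 1) (u + 1) ∧
    LF G p (ball G m o) Q (rect X Y (u - 1) (u + 1) (-u - 1) 1) ≤ δ ∧
    LF G p (ball G m o) Q (rect X Y (-1) (u + 1) (u - 1) (u + 1)) ≤ δ

lemma frame2 {p δ : ℝ} (h0 : 0 ≤ p) (h1 : p ≤ 1) (hδ : 0 ≤ δ) (hδ1 : δ ≤ 1) {m ρ : ℕ} {n0 u : ℝ}
    (hx : Adm G Γ o x) (hy : Adm G Γ o y) (hu : n0 ≤ u) (hm : (m : ℝ) ≤ u) {Q : Finset V}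
    (hQ : Q ⊆ ball G ρ o) (hQ' : ∀ v ∈ Q, |x v| ≤ u + 1 ∧ |y v| ≤ u + 1)
    (r1 : LF G p (ball G m o) Q {v | u - 1 ≤ x v ∧ -1 ≤ y v} ≤ δ ^ 4)
    (r2 : LF G p (ball G m o) Q {v | u - 1 ≤ x v ∧ y v ≤ 1} ≤ δ ^ 4)
    (r3 : LF G p (ball G m o) Q {v | u - 1 ≤ |y v|} ≤ δ ^ 4) : Fr G Γ o p δ m n0 := by
  have h4 : δ ^ 4 ≤ δ := pow_le_of_le_one hδ hδ1 (by norm_num)
  let S : Set V := {v | -u - 1 ≤ x v ∧ x v ≤ u + 1 ∧ -u - 1 ≤ y v ∧ y v ≤ u + 1}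
  have hS : (Q : Set V) ⊆ S := fun v hv => by
    obtain ⟨a, b⟩ := hQ' v hv
    rw [abs_le] at a b
    exact ⟨by linarith [a.1], a.2, by linarith [b.1], b.2⟩
  have hL : (ball G m o : Set V) ⊆ S := fun v hv => by
    have a := abs_le.1 (hx.abs_le hv)
    have b := abs_le.1 (hy.abs_le hv)
    exact ⟨by linarith [a.1], by linarith [a.2], by linarith [b.1], by linarith [b.2]⟩
  have res : ∀ {T T' : Set V} {c : ℝ}, LF G p (ball G m o) Q T ≤ c → c ≤ δ →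
      (∀ v ∈ S, v ∈ T → v ∈ T') → LF G p (ball G m o) Q T' ≤ δ :=
    fun a b c => ((LF_restr h0 h1 hL hS c).trans a).trans b
  rcases LF_split h0 h1 (c := δ ^ 2) (T1 := {v | u - 1 ≤ y v}) (T2 := {v | u - 1 ≤ - y v})
    (by positivity) (r3.trans_eq (by ring)) (fun v (hv : u - 1 ≤ |y v|) => show u - 1 ≤ y v ∨ u - 1 ≤ - y v from le_abs.1 hv) with h | h
  · rcases LF_split h0 h1 (T1 := {v | u - 1 ≤ y v ∧ 0 ≤ x v}) (T2 := {v | u - 1 ≤ y v ∧ x v ≤ 0})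
      hδ h (fun v hv => (le_total 0 (x v)).imp (fun h => ⟨hv, h⟩) (fun h => ⟨hv, h⟩)) with h | h
    · exact ⟨x, y, u, ρ, Q, hx, hy, hu, hQ, hS,
        res r2 h4 fun v ⟨a, b, c, d⟩ ⟨e, f⟩ => ⟨by linarith, by linarith, by linarith, by linarith⟩,
        res h le_rfl fun v ⟨a, b, c, d⟩ ⟨e, f⟩ =>
          ⟨by linarith, by linarith, by linarith, by linarith⟩⟩
    · exact ⟨y, x, u, ρ, Q, hy, hx, hu, hQ, by rw [rect_swap]; exact hS,
        res h le_rfl fun v ⟨a, b, c, d⟩ ⟨e, f⟩ =>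
          ⟨by linarith, by linarith, by linarith, by linarith⟩,
        res r1 h4 fun v ⟨a, b, c, d⟩ ⟨e, f⟩ => ⟨by linarith, by linarith, by linarith, by linarith⟩⟩
  · rcases LF_split h0 h1 (T1 := {v | u - 1 ≤ - y v ∧ 0 ≤ x v})
      (T2 := {v | u - 1 ≤ - y v ∧ x v ≤ 0})
      hδ h (fun v hv => (le_total 0 (x v)).imp (fun h => ⟨hv, h⟩) (fun h => ⟨hv, h⟩)) with h | h
    · exact ⟨x, fun v => - y v, u, ρ, Q, hx, hy.neg, hu, hQ, fun v hv =>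
          let ⟨a, b, c, d⟩ := hS hv; ⟨a, b, by linarith, by linarith⟩,
        res r1 h4 fun v ⟨a, b, c, d⟩ ⟨e, f⟩ => ⟨by linarith, by linarith, by linarith, by linarith⟩,
        res h le_rfl fun v ⟨a, b, c, d⟩ ⟨e, f⟩ =>
          ⟨by linarith, by linarith, by linarith, by linarith⟩⟩
    · exact ⟨fun v => - y v, x, u, ρ, Q, hy.neg, hx, hu, hQ, fun v hv =>
          let ⟨a, b, c, d⟩ := hS hv; ⟨by linarith, by linarith, a, b⟩,
        res h le_rfl fun v ⟨a, b, c, d⟩ ⟨e, f⟩ =>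
          ⟨by linarith, by linarith, by linarith, by linarith⟩,
        res r2 h4 fun v ⟨a, b, c, d⟩ ⟨e, f⟩ => ⟨by linarith, by linarith, by linarith, by linarith⟩⟩

lemma frame3 {p δ : ℝ} (h0 : 0 ≤ p) (h1 : p ≤ 1) (hδ : 0 ≤ δ) (hδ1 : δ ≤ 1) {m ρ : ℕ}
    {n0 n l : ℝ} (hx : Adm G Γ o x) (hy : Adm G Γ o y) (hm : (m : ℝ) ≤ n0) (hnr : 0 < n)
    (hn : n0 ≤ n) (l1 : n0 ≤ l) {Q : Finset V}
    (hQ : Q ⊆ ball G ρ o) (hQ' : ∀ v ∈ Q, |x v| ≤ n + 1 ∧ |y v| ≤ l + 1)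
    (r1 : LF G p (ball G m o) Q {v | n < x v ∧ -1 ≤ y v} ≤ δ ^ 4)
    (r2 : LF G p (ball G m o) Q {v | n < x v ∧ y v ≤ 1} ≤ δ ^ 4)
    (r3 : LF G p (ball G m o) Q {v | l < |y v|} ≤ δ ^ 4) : Fr G Γ o p δ m n0 := by
  have m0 : (0 : ℝ) ≤ m := Nat.cast_nonneg m
  obtain ⟨u, hu⟩ : ∃ u, u = min (n : ℝ) (l + 1) := ⟨_, rfl⟩
  have u1 : u ≤ n := hu ▸ min_le_left _ _
  have u2 : u ≤ l + 1 := hu ▸ min_le_right _ _
  have u3 : n0 ≤ u := hu ▸ le_min hn (by linarith)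
  have hl : 0 < l + 1 := by linarith
  have u0 : 0 ≤ u := by linarith
  obtain ⟨a, ha⟩ : ∃ a, a = u / n := ⟨_, rfl⟩
  obtain ⟨b, hb⟩ : ∃ b, b = u / (l + 1) := ⟨_, rfl⟩
  have a0 : 0 ≤ a := by rw [ha]; positivity
  have b0 : 0 ≤ b := by rw [hb]; positivity
  have a1 : a ≤ 1 := by rw [ha, div_le_one hnr]; exact u1
  have b1 : b ≤ 1 := by rw [hb, div_le_one hl]; exact u2
  have a2 : a * n = u := by rw [ha]; field_simp
  have b2 : b * (l + 1) = u := by rw [hb]; field_simp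
  refine frame2 h0 h1 hδ hδ1 (hx.smul a0 a1) (hy.smul b0 b1) u3 (hm.trans u3) hQ ?_
    ((LF_mono h0 h1 subset_rfl subset_rfl ?_).trans r1)
    ((LF_mono h0 h1 subset_rfl subset_rfl ?_).trans r2)
    ((LF_mono h0 h1 subset_rfl subset_rfl ?_).trans r3)
  · intro v hv
    obtain ⟨v1, v2⟩ := hQ' v hv
    rw [abs_mul, abs_mul, abs_of_nonneg a0, abs_of_nonneg b0]
    constructor
    · linarith [mul_le_mul_of_nonneg_left v1 a0]
    · linarith [mul_le_mul_of_nonneg_left v2 b0]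
  · rintro v ⟨v1, v2⟩
    exact ⟨by linarith [mul_le_mul_of_nonneg_left v1.le a0],
      by linarith [mul_le_mul_of_nonneg_left v2 b0]⟩
  · rintro v ⟨v1, v2⟩
    exact ⟨by linarith [mul_le_mul_of_nonneg_left v1.le a0],
      by linarith [mul_le_mul_of_nonneg_left v2 b0]⟩
  · intro v hv
    simp only [Set.mem_ofPred_eq] at hv ⊢
    rw [abs_mul, abs_of_nonneg b0]; linarith [mul_le_mul_of_nonneg_left hv.le b0]

lemma frame1 {p δ : ℝ} (h0 : 0 ≤ p) (h1 : p ≤ 1) (hδ : 0 < δ) (hδ1 : δ < 1) {m n0 n ρ0 ρ : ℕ}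
    (hx : Adm G Γ o x) (hy : Adm G Γ o y) (hm : m ≤ n0) (hn0 : 0 < n0) (hn : n0 ≤ n)
    (hρ : ρ0 ≤ n) (hρ' : n ≤ ρ)
    (e0 : ∀ a b : ℝ, |a| + |b| = 1 →
      LF G p (ball G m o) (ball G ρ0 o) {v | (n0 : ℝ) < |a * x v + b * y v|} ≤ δ ^ 4)
    (e1 : LF G p (ball G m o) ((ball G ρ o).filter fun v => |x v| ≤ n + 1) {v | (n : ℝ) < x v} ≤
      δ ^ 16) : Fr G Γ o p δ m n0 := by
  set Λ := ball G m o with hΛ
  set Q0 := (ball G ρ o).filter fun v => |x v| ≤ n + 1 with hQ0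
  have hΛρ : (Λ : Set V) ⊆ ball G ρ o := ball_mono (by omega)
  have hQρ : Q0 ⊆ ball G ρ o := Finset.filter_subset _ _
  have hnr : (0 : ℝ) < n := by exact_mod_cast (by omega : 0 < n)
  have hmr : (m : ℝ) ≤ n0 := by exact_mod_cast hm
  have hnr' : (n0 : ℝ) ≤ n := by exact_mod_cast hn
  have p8 : δ ^ 8 < 1 := pow_lt_one₀ hδ.le hδ1 (by norm_num)
  have p16 : δ ^ 16 ≤ δ ^ 8 := pow_le_pow_of_le_one hδ.le hδ1.le (by norm_num)
  have p84 : δ ^ 8 ≤ δ ^ 4 := pow_le_pow_of_le_one hδ.le hδ1.le (by norm_num)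
  obtain ⟨s, s1, s2⟩ := exists_step
    (fun s => LF G p Λ Q0 {v | (n : ℝ) < x v ∧ -(ρ : ℝ) + s ≤ y v} ≤ δ ^ 8)
    (LF_res h0 h1 (e1.trans p16) hΛρ hQρ fun v hv h =>
      ⟨h, by simpa using (abs_le.1 (hy.abs_le hv)).1⟩) (N := 2 * ρ + 1)
    (not_le.2 (p8.trans_le (LF_eq_one h0 h1 hΛρ hQρ fun v hv h => by
      have := h.2
      push_cast at this
      linarith [(abs_le.1 (hy.abs_le hv)).2])))
  push_cast at s2
  rw [← add_assoc] at s2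
  obtain ⟨t, ht⟩ : ∃ t, t = -(ρ : ℝ) + s := ⟨_, rfl⟩
  rw [← ht] at s1 s2
  have s3 : LF G p Λ Q0 {v | (n : ℝ) < x v ∧ y v ≤ t + 1} ≤ δ ^ 8 :=
    (LF_split h0 h1 (T1 := {v | (n : ℝ) < x v ∧ t + 1 ≤ y v})
      (T2 := {v | (n : ℝ) < x v ∧ y v ≤ t + 1}) (by positivity)
      (e1.trans_eq (by ring))
      (fun v hv => (le_total (t + 1) (y v)).imp (fun h => ⟨hv, h⟩) (fun h => ⟨hv, h⟩))).resolve_left
      s2
  obtain ⟨c, hc⟩ : ∃ c, c = n + |t| := ⟨_, rfl⟩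
  have hcp : 0 < c := by rw [hc]; positivity
  have hab : |-t / c| + |n / c| = 1 := by
    rw [abs_div, abs_div, abs_neg, abs_of_pos hcp, abs_of_pos hnr, ← add_div, hc, add_comm,
      div_self (hc ▸ hcp.ne')]
  set z : V → ℝ := fun v => -t / c * x v + n / c * y v with hz
  have hzA : Adm G Γ o z := hx.comb hy hab.le
  have hzc : ∀ v, z v * c = n * y v - t * x v := fun v => by simp only [hz]; field_simp; ring
  let S : Set V := {v | |x v| ≤ n + 1}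
  have hΛS : (Λ : Set V) ⊆ S := fun v hv => (hx.abs_le hv).trans (by linarith)
  have hQS : (Q0 : Set V) ⊆ S := fun v hv => (Finset.mem_filter.1 hv).2
  have tx : ∀ v ∈ S, (n : ℝ) < x v → |t * (x v - n)| ≤ |t| := fun v hv h => by
    rw [abs_mul]
    refine mul_le_of_le_one_right (abs_nonneg _) (abs_le.2 ⟨by linarith, ?_⟩)
    linarith [(abs_le.1 (show |x v| ≤ n + 1 from hv)).2]
  have r1 : LF G p Λ Q0 {v | (n : ℝ) < x v ∧ -1 ≤ z v} ≤ δ ^ 8 :=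
    LF_res h0 h1 s1 hΛS hQS fun v hv h => ⟨h.1, by
      refine le_of_mul_le_mul_right ?_ hcp
      rw [hzc, hc]
      linarith [(abs_le.1 (tx v hv h.1)).2, mul_le_mul_of_nonneg_left h.2 hnr.le]⟩
  have r2 : LF G p Λ Q0 {v | (n : ℝ) < x v ∧ z v ≤ 1} ≤ δ ^ 8 :=
    LF_res h0 h1 s3 hΛS hQS fun v hv h => ⟨h.1, by
      refine le_of_mul_le_mul_right ?_ hcp
      rw [hzc, hc]
      linarith [(abs_le.1 (tx v hv h.1)).1, mul_le_mul_of_nonneg_left h.2 hnr.le]⟩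
  let good : ℝ → Prop := fun l =>
    LF G p Λ (Q0.filter fun v => |z v| ≤ l) {v | (n : ℝ) < x v ∧ -1 ≤ z v} ≤ δ ^ 4 ∧
    LF G p Λ (Q0.filter fun v => |z v| ≤ l) {v | (n : ℝ) < x v ∧ z v ≤ 1} ≤ δ ^ 4
  obtain ⟨l, l1, l2, l3⟩ : ∃ l : ℝ, n0 ≤ l ∧ good (l + 1) ∧
      LF G p Λ (Q0.filter fun v => |z v| ≤ l + 1) {v | l < |z v|} ≤ δ ^ 4 := by
    by_cases hg : good (n0 + 1)
    · refine ⟨n0, le_rfl, hg, le_trans ?_ ((LF_exit' h0 h1 hzA.abs_lip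
        (fun v hv => (hzA.abs_le hv).trans hmr)).trans (e0 _ _ hab))⟩
      refine LF_mono h0 h1 subset_rfl (Finset.filter_subset_filter _ fun v hv => ?_) subset_rfl
      have : (ρ0 : ℝ) ≤ n := by exact_mod_cast hρ
      exact Finset.mem_filter.2 ⟨ball_mono (by omega) hv, (hx.abs_le hv).trans (by linarith)⟩
    · obtain ⟨s, s1, s2⟩ := exists_step (fun s => ¬ good (n0 + 1 + s)) (by simpa using hg)
        (N := ρ) (not_not.2 (by
          have : Q0 ⊆ Q0.filter fun v => |z v| ≤ n0 + 1 + ρ := fun v hv =>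
            Finset.mem_filter.2 ⟨hv, (hzA.abs_le (hQρ hv)).trans (by linarith)⟩
          exact ⟨((LF_mono h0 h1 subset_rfl this subset_rfl).trans r1).trans p84,
            ((LF_mono h0 h1 subset_rfl this subset_rfl).trans r2).trans p84⟩))
      push_cast at s2
      rw [not_not, ← add_assoc] at s2
      have hs : (0 : ℝ) ≤ s := Nat.cast_nonneg s
      refine ⟨n0 + 1 + s, by linarith, s2, ?_⟩
      have ex := fun T => LF_exit h0 h1 (L := Λ) (Q := Q0) (T := T) hzA.abs_lip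
        (c := n0 + 1 + s) (fun v hv => (hzA.abs_le hv).trans (by linarith))
      by_contra hn
      have p4 : 0 ≤ δ ^ 4 := by positivity
      have e8 : δ ^ 8 = δ ^ 4 * δ ^ 4 := by ring
      rcases not_and_or.1 s1 with h | h
      · linarith [mul_lt_mul'' (not_le.1 h) (not_le.1 hn) p4 p4, ex {v | (n : ℝ) < x v ∧ -1 ≤ z v}]
      · linarith [mul_lt_mul'' (not_le.1 h) (not_le.1 hn) p4 p4, ex {v | (n : ℝ) < x v ∧ z v ≤ 1}]
  exact frame3 h0 h1 hδ.le hδ1.le hx hzA hmr hnr hnr' l1 ((Finset.filter_subset _ _).trans hQρ)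
    (fun v hv => ⟨hQS (Finset.mem_filter.1 hv).1, (Finset.mem_filter.1 hv).2⟩) l2.1 l2.2 l3

lemma frame {p δ : ℝ} (h0 : 0 ≤ p) (h1 : p ≤ 1) (hδ : 0 < δ) (hδ1 : δ < 1) {m n0 : ℕ}
    (hx : Adm G Γ o x) (hy : Adm G Γ o y) (hm : m ≤ n0) (hn0 : 0 < n0)
    (e : ∀ c : ℕ, ∃ ρ, ∀ a b : ℝ, |a| + |b| = 1 →
      LF G p (ball G m o) (ball G ρ o) {v | (c : ℝ) < |a * x v + b * y v|} ≤ δ ^ 32) :
    Fr G Γ o p δ m n0 := by
  obtain ⟨ρ0, e0⟩ := e n0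
  obtain ⟨ρ1, e1⟩ := e (n0 + ρ0)
  have p4 : δ ^ 32 ≤ δ ^ 4 := pow_le_pow_of_le_one hδ.le hδ1.le (by norm_num)
  have e2 := e1 1 0 (by simp)
  simp only [one_mul, zero_mul, add_zero] at e2
  have e3 := (LF_exit' h0 h1 hx.abs_lip (c := (n0 + ρ0 : ℕ)) (fun v hv => (hx.abs_le hv).trans
    (by exact_mod_cast (by omega)))).trans ((LF_mono h0 h1 subset_rfl
      (ball_mono (by omega : ρ1 ≤ ρ1 + n0 + ρ0)) subset_rfl).trans e2)
  rcases LF_split h0 h1 (c := δ ^ 16) (T1 := {v | ((n0 + ρ0 : ℕ) : ℝ) < x v})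
    (T2 := {v | ((n0 + ρ0 : ℕ) : ℝ) < - x v}) (by positivity) (e3.trans_eq (by ring))
    (fun v (hv : _ < |x v|) => show _ < x v ∨ _ < - x v from lt_abs.1 hv) with h | h
  · exact frame1 h0 h1 hδ hδ1 hx hy hm hn0 (by omega) (by omega) (by omega)
      (fun a b hab => (e0 a b hab).trans p4) h
  · refine frame1 h0 h1 hδ hδ1 hx.neg hy hm hn0 (n := n0 + ρ0) (ρ0 := ρ0) (ρ := ρ1 + n0 + ρ0)
      (by omega) (by omega) (by omega) (fun a b hab => ?_) (by simpa only [abs_neg] using h)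
    have := (e0 (-a) b (by rwa [abs_neg])).trans p4
    simpa only [neg_mul, mul_neg] using this

end Vale.Agent.P151
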