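import Vale.Agent.P151.Conn

/-! The centred functional and its monotonicity under edge deletion. -/

namespace Vale.Agent.P151

open scoped Classical

variable {V : Type*} {q : Sym2 V → ℝ} {F : Finset (Sym2 V)}

/-- mean of `f` of the cluster of `X` after deleting `S` -/
noncomputable def mm (q : Sym2 V → ℝ) (F : Finset (Sym2 V)) (X : Set V) (f : Set V → ℝ)
    (S : Set V) : ℝ :=
  Ex q F (fun ω => f (cl (ω \ touch S) X))

/-- centred functional -/
noncomputable def Th (q : Sym2 V → ℝ) (F : Finset (Sym2 V)) (X Y : Set V) (f : Set V → ℝ)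
    (ω : Set (Sym2 V)) : ℝ :=
  (f (cl ω X) - mm q F X f (cl ω Y)) * ind (Disjoint X (cl ω Y))

lemma mm_anti (hq : Par q) (X : Set V) {f : Set V → ℝ} (hf : Monotone f) :
    Antitone (mm q F X f) := by
  intro S T h
  refine Ex_mono hq fun ω _ => hf (cl_mono ?_ subset_rfl)
  exact Set.sdiff_subset_sdiff_right (touch_mono h)

lemma Th_zero (X Y : Set V) (f φ : Set V → ℝ) :
    Ex q F (fun ω => Th q F X Y f ω * φ (cl ω Y)) = 0 := by
  have h := markov_cl' q F Y
    (fun S c => (f (cl c X) - mm q F X f S) * (ind (Disjoint X S) * φ S))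
  have e1 : Ex q F (fun ω => Th q F X Y f ω * φ (cl ω Y)) =
      Ex q F (fun a => (f (cl (a \ touch (cl a Y)) X) - mm q F X f (cl a Y)) *
        (ind (Disjoint X (cl a Y)) * φ (cl a Y))) := by
    refine Ex_congr fun a _ => ?_
    unfold Th
    by_cases hd : Disjoint X (cl a Y)
    · rw [cl_sdiff_touch hd]; ring
    · rw [ind_neg hd]; ring
  rw [e1, h, ← Ex_const q F 0]
  refine Ex_congr fun a _ => ?_
  rw [Ex_mul_const, Ex_sub, Ex_const]
  simp [mm]

lemma cl_insert_edge {ω : Set (Sym2 V)} {Y : Set V} {r s : V} (hr : r ∈ cl ω Y) :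
    cl (insert s(r, s) ω) Y = cl ω (insert s Y) := by
  apply Set.Subset.antisymm
  · refine cl_subset_of_closed ((Set.subset_insert _ _).trans (subset_cl _ _)) ?_
    intro x y hx hxy
    rcases hxy with hxy | hxy
    · rcases Sym2.eq_iff.1 hxy with ⟨_, rfl⟩ | ⟨_, rfl⟩
      · exact subset_cl _ _ (Set.mem_insert _ _)
      · exact cl_mono subset_rfl (Set.subset_insert _ _) hr
    · exact cl_step hx hxy
  · refine cl_subset_of_closed ?_ fun x y hx hxy => cl_step hx (Or.inr hxy)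
    rintro x (rfl | hx)
    · exact cl_step (cl_mono (Set.subset_insert _ _) subset_rfl hr) (Or.inl rfl)
    · exact subset_cl _ _ hx

lemma cl_insert_edge_same {ω : Set (Sym2 V)} {Y : Set V} {r s : V}
    (h : r ∈ cl ω Y ↔ s ∈ cl ω Y) : cl (insert s(r, s) ω) Y = cl ω Y := by
  apply Set.Subset.antisymm
  · refine cl_subset_of_closed (subset_cl _ _) ?_
    intro x y hx hxy
    rcases hxy with hxy | hxy
    · rcases Sym2.eq_iff.1 hxy with ⟨rfl, rfl⟩ | ⟨rfl, rfl⟩
      · exact h.1 hx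
      · exact h.2 hx
    · exact cl_step hx hxy
  · exact cl_mono (Set.subset_insert _ _) subset_rfl

/-- the correction term when the new edge leaves the cluster of `Y` -/
noncomputable def Kterm (q : Sym2 V → ℝ) (F : Finset (Sym2 V)) (X Y : Set V) (f : Set V → ℝ)
    (r s : V) (ω : Set (Sym2 V)) : ℝ :=
  ind (Disjoint X (cl ω Y) ∧ r ∈ cl ω Y ∧ s ∉ cl ω Y) *
    (mm q F X f (cl ω Y) - (ind (Disjoint X (cl ω (insert s Y))) * mm q F X f (cl ω (insert s Y))
      + (1 - ind (Disjoint X (cl ω (insert s Y)))) * f (cl ω X)))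

lemma Kterm_nonneg (hq : Par q) (X Y : Set V) {f : Set V → ℝ} (hf : Monotone f) (r s : V)
    (Z : Set (Sym2 V)) : 0 ≤ Ex q F (fun ω => Kterm q F X Y f r s (ω \ Z)) := by
  have h1 := markov_cl q F Z Y Y subset_rfl
    (fun S _ c => ind (Disjoint X S ∧ r ∈ S ∧ s ∉ S) * f (cl c X))
  have h2 := markov_cl q F Z Y (insert s Y) (Set.subset_insert _ _)
    (fun S S' c => (ind (Disjoint X S ∧ r ∈ S ∧ s ∉ S) * ind (Disjoint X S')) * f (cl c X))
  simp_rw [Ex_const_mul] at h1 h2
  have e : Ex q F (fun ω => Kterm q F X Y f r s (ω \ Z)) =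
      Ex q F (fun a => ind (Disjoint X (cl (a \ Z) Y) ∧ r ∈ cl (a \ Z) Y ∧ s ∉ cl (a \ Z) Y) *
        f (cl (a \ touch (cl (a \ Z) Y)) X)) -
      Ex q F (fun a => (ind (Disjoint X (cl (a \ Z) Y) ∧ r ∈ cl (a \ Z) Y ∧ s ∉ cl (a \ Z) Y) *
        ind (Disjoint X (cl (a \ Z) (insert s Y)))) *
          f (cl (a \ touch (cl (a \ Z) (insert s Y))) X)) -
      Ex q F (fun a => ind (Disjoint X (cl (a \ Z) Y) ∧ r ∈ cl (a \ Z) Y ∧ s ∉ cl (a \ Z) Y) *
        ((1 - ind (Disjoint X (cl (a \ Z) (insert s Y)))) * f (cl (a \ Z) X))) := by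
    rw [h1, h2, ← Ex_sub, ← Ex_sub]
    refine Ex_congr fun a _ => ?_
    unfold Kterm mm; ring
  rw [e, ← Ex_sub, ← Ex_sub]
  refine Ex_nonneg hq fun a _ => ?_
  by_cases hE : Disjoint X (cl (a \ Z) Y) ∧ r ∈ cl (a \ Z) Y ∧ s ∉ cl (a \ Z) Y
  · rw [ind_pos hE]
    by_cases hD : Disjoint X (cl (a \ Z) (insert s Y))
    · rw [ind_pos hD]
      have : f (cl (a \ touch (cl (a \ Z) (insert s Y))) X) ≤ f (cl (a \ touch (cl (a \ Z) Y)) X) :=
        hf (cl_mono (Set.sdiff_subset_sdiff_right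
          (touch_mono (cl_mono subset_rfl (Set.subset_insert _ _)))) subset_rfl)
      linarith
    · rw [ind_neg hD]
      have : f (cl (a \ Z) X) ≤ f (cl (a \ touch (cl (a \ Z) Y)) X) := by
        rw [← cl_sdiff_touch hE.1]
        exact hf (cl_mono (Set.sdiff_subset_sdiff_left Set.sdiff_subset) subset_rfl)
      linarith
  · rw [ind_neg hE]; simp

lemma Th_insert_ge (X Y : Set V) {f : Set V → ℝ} (hf : Monotone f) (r s : V)
    (ω : Set (Sym2 V)) :
    Th q F X Y f ω + Kterm q F X Y f r s ω + Kterm q F X Y f s r ω ≤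
      Th q F X Y f (insert s(r, s) ω) := by
  have hm : f (cl ω X) ≤ f (cl (insert s(r, s) ω) X) :=
    hf (cl_mono (Set.subset_insert _ _) subset_rfl)
  have main : ∀ r s : V, f (cl ω X) ≤ f (cl (insert s(r, s) ω) X) → Disjoint X (cl ω Y) →
      r ∈ cl ω Y → s ∉ cl ω Y →
      Th q F X Y f ω + Kterm q F X Y f r s ω + Kterm q F X Y f s r ω ≤
        Th q F X Y f (insert s(r, s) ω) := by
    intro r s hm hd hr hs
    unfold Th Kterm
    rw [cl_insert_edge hr, ind_pos hd, ind_pos (⟨hd, hr, hs⟩ : _ ∧ _ ∧ _),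
      ind_neg (fun h : _ ∧ _ ∧ _ => hs h.2.1)]
    by_cases hD : Disjoint X (cl ω (insert s Y))
    · rw [ind_pos hD]; linarith
    · rw [ind_neg hD]; linarith
  by_cases hd : Disjoint X (cl ω Y)
  · by_cases hr : r ∈ cl ω Y <;> by_cases hs : s ∈ cl ω Y
    · unfold Th Kterm
      rw [cl_insert_edge_same (iff_of_true hr hs), ind_pos hd,
        ind_neg (fun h : _ ∧ _ ∧ ¬ _ => h.2.2 hs), ind_neg (fun h : _ ∧ _ ∧ ¬ _ => h.2.2 hr)]
      linarith
    · exact main r s hm hd hr hs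
    · have := main s r (by rwa [Sym2.eq_swap]) hd hs hr
      rw [Sym2.eq_swap] at this; linarith
    · unfold Th Kterm
      rw [cl_insert_edge_same (iff_of_false hr hs), ind_pos hd,
        ind_neg (fun h : _ ∧ _ ∧ _ => hr h.2.1), ind_neg (fun h : _ ∧ _ ∧ _ => hs h.2.1)]
      linarith
  · have hd' : ¬ Disjoint X (cl (insert s(r, s) ω) Y) := fun h =>
      hd (h.mono_right (cl_mono (Set.subset_insert _ _) subset_rfl))
    unfold Th Kterm
    rw [ind_neg hd, ind_neg hd', ind_neg (fun h : _ ∧ _ ∧ _ => hd h.1),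
      ind_neg (fun h : _ ∧ _ ∧ _ => hd h.1)]
    simp

lemma Th_delete_one (hq : Par q) (X Y : Set V) {f : Set V → ℝ} (hf : Monotone f)
    (Z : Set (Sym2 V)) (e : Sym2 V) :
    Ex q F (fun ω => Th q F X Y f (ω \ insert e Z)) ≤ Ex q F (fun ω => Th q F X Y f (ω \ Z)) := by
  by_cases heZ : e ∈ Z
  · rw [Set.insert_eq_of_mem heZ]
  by_cases heF : e ∈ F
  swap
  · refine le_of_eq (Ex_congr fun ω hω => ?_)
    congr 1
    ext x
    have : x ∈ ω → x ≠ e := fun hx h => heF (hω (h ▸ hx))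
    simp only [Set.mem_sdiff, Set.mem_insert_iff]; tauto
  have key : Ex q F (fun ω => Th q F X Y f (ω \ insert e Z)) ≤
      Ex q F (fun ω => Th q F X Y f (insert e (ω \ insert e Z))) := by
    induction e using Sym2.ind with
    | _ r s =>
      have a := Kterm_nonneg (F := F) hq X Y hf r s (insert s(r, s) Z)
      have b := Kterm_nonneg (F := F) hq X Y hf s r (insert s(r, s) Z)
      have c := Ex_mono (F := F) hq fun ω _ =>
        Th_insert_ge (q := q) (F := F) X Y hf r s (ω \ insert s(r, s) Z)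
      rw [Ex_add, Ex_add] at c
      linarith
  generalize hT : Th q F X Y f = Θ at key ⊢
  obtain ⟨F0, he0, rfl⟩ : ∃ F0 : Finset (Sym2 V), e ∉ F0 ∧ F = insert e F0 :=
    ⟨F.erase e, Finset.notMem_erase _ _, (Finset.insert_erase heF).symm⟩
  have s1 : ∀ ω : Set (Sym2 V), insert e ω \ insert e Z = ω \ insert e Z := by
    intro ω; ext x; simp only [Set.mem_sdiff, Set.mem_insert_iff]; tauto
  have s2 : ∀ ω : Set (Sym2 V), insert e ω \ Z = insert e (ω \ insert e Z) := by
    intro ω; ext x; simp only [Set.mem_sdiff, Set.mem_insert_iff]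
    by_cases hx : x = e
    · simp [hx, heZ]
    · simp [hx]
  have s3 : Ex q F0 (fun ω => Θ (ω \ Z)) = Ex q F0 (fun ω => Θ (ω \ insert e Z)) := by
    refine Ex_congr fun ω hω => ?_
    congr 1
    ext x
    have : x ∈ ω → x ≠ e := fun hx h => he0 (hω (h ▸ hx))
    simp only [Set.mem_sdiff, Set.mem_insert_iff]; tauto
  rw [Ex_insert q he0, Ex_insert q he0] at key ⊢
  simp_rw [s1, s2, s3] at key ⊢
  have := (hq e).1
  nlinarith

lemma Th_delete (hq : Par q) (X Y : Set V) {f : Set V → ℝ} (hf : Monotone f)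
    {Z Z' : Set (Sym2 V)} (h : Z ⊆ Z') :
    Ex q F (fun ω => Th q F X Y f (ω \ Z')) ≤ Ex q F (fun ω => Th q F X Y f (ω \ Z)) := by
  have key : ∀ G : Finset (Sym2 V), Ex q F (fun ω => Th q F X Y f (ω \ (Z ∪ G))) ≤
      Ex q F (fun ω => Th q F X Y f (ω \ Z)) := by
    intro G
    induction G using Finset.induction_on with
    | empty => simp
    | insert e G _ ih =>
      rw [Finset.coe_insert, Set.union_insert]
      exact (Th_delete_one hq X Y hf _ e).trans ih
  refine le_trans (le_of_eq (Ex_congr fun ω hω => ?_)) (key (F.filter (· ∈ Z')))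
  congr 1
  ext x
  have := @hω x
  have := @h x
  simp only [Set.mem_sdiff, Set.mem_union, Finset.coe_filter, Set.mem_ofPred_eq,
    Finset.mem_coe] at *
  tauto

end Vale.Agent.P151
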