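import Vale.Agent.P151.Glue1

/-! The gluing inequality. -/

namespace Vale.Agent.P151

open scoped Classical

variable {V : Type*} {q : Sym2 V → ℝ} {F : Finset (Sym2 V)}

/-- signed mass of a set -/
noncomputable def eta (o : V) (D : List (V × ℝ)) (C : Set V) : ℝ :=
  ind (o ∈ C) - (D.map fun p => p.2 * ind (p.1 ∈ C)).sum

lemma eta_cons (o : V) (p : V × ℝ) (D : List (V × ℝ)) (C : Set V) :
    eta o (p :: D) C = eta o D C - p.2 * ind (p.1 ∈ C) := by
  simp [eta]; ring

lemma ind_union {C C' : Set V} (h : Disjoint C C') (v : V) :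
    ind (v ∈ C ∪ C') = ind (v ∈ C) + ind (v ∈ C') := by
  have : v ∈ C → v ∉ C' := fun hv => Set.disjoint_left.1 h hv
  by_cases h1 : v ∈ C <;> by_cases h2 : v ∈ C' <;> simp_all [ind]

lemma eta_union (o : V) (D : List (V × ℝ)) {C C' : Set V} (h : Disjoint C C') :
    eta o D (C ∪ C') = eta o D C + eta o D C' := by
  induction D with
  | nil => simp only [eta, List.map_nil, List.sum_nil, sub_zero]; exact ind_union h o
  | cons p D ih => rw [eta_cons, eta_cons, eta_cons, ih, ind_union h]; ring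

lemma eta_step (o : V) (p : V × ℝ) (D : List (V × ℝ)) (ω : Set (Sym2 V)) (U : Set V) :
    eta o (p :: D) (cl ω U) = eta o D (cl ω (insert p.1 U)) - p.2 -
      (eta o D (cl ω {p.1}) - p.2) * ind (Disjoint (cl ω {p.1}) U) := by
  rw [eta_cons, Set.insert_eq, cl_union]
  by_cases h : p.1 ∈ cl ω U
  · have h1 : cl ω {p.1} ⊆ cl ω U := fun v hv => cl_conn h (mem_cl_singleton.1 hv)
    have h2 : ¬ Disjoint (cl ω {p.1}) U := by
      rw [disjoint_cl_comm, Set.disjoint_singleton_left]; exact fun h' => h' h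
    rw [Set.union_eq_right.2 h1, ind_pos h, ind_neg h2]; ring
  · have h2 : Disjoint ({p.1} : Set V) (cl ω U) := Set.disjoint_singleton_left.2 h
    rw [eta_union o D (disjoint_cl_cl h2), ind_neg h, ind_pos (disjoint_cl_comm.2 h2)]; ring

/-- balance conditions -/
def Bal (q : Sym2 V → ℝ) (F : Finset (Sym2 V)) (o : V) : Set V → List (V × ℝ) → Prop
  | _, [] => True
  | Z, p :: D => p.1 ∉ Z ∧
      Ex q F (fun ω => (eta o D (cl ω {p.1}) - p.2) * ind (Disjoint (cl ω {p.1}) Z)) = 0 ∧
      Bal q F o (insert p.1 Z) D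

/-- the one step statement -/
def QS (q : Sym2 V → ℝ) (F : Finset (Sym2 V)) (o : V) (D : List (V × ℝ)) : Prop :=
  ∀ (X Y U : Set V) (f : Set V → ℝ), Monotone f → X ⊆ U → Bal q F o (Y ∪ U) D →
    0 ≤ Ex q F (fun ω => Th q F X Y f ω * eta o D (cl (ω \ touch (cl ω Y)) U))

/-- the covariance statement -/
def BS (q : Sym2 V → ℝ) (F : Finset (Sym2 V)) (o : V) (D : List (V × ℝ)) : Prop :=
  ∀ (X Y : Set V) (f : Set V → ℝ) (c : ℝ), Monotone f → Bal q F o (Y ∪ X) D →
    Ex q F (fun ω => (eta o D (cl ω X) - c) * ind (Disjoint (cl ω X) Y)) = 0 →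
    0 ≤ Ex q F (fun ω => f (cl ω X) * ((eta o D (cl ω X) - c) * ind (Disjoint (cl ω X) Y)))

lemma BS_of_QS (hq : Par q) (hq1 : ∀ e, q e < 1) {o : V} {D : List (V × ℝ)}
    (h : QS q F o D) : BS q F o D := by
  intro X Y f c hf hB h0
  set g : Set V → ℝ := fun T => (eta o D T - c) * ind (Disjoint T Y) with hg
  set I : (Set V → ℝ) → ℝ := fun f => Ex q F (fun ω => f (cl ω X) * g (cl ω X)) with hI
  set P : (Set V → ℝ) → Set V → ℝ :=
    fun f T => Ex q F (fun ω => mm q F X f (cl (ω \ touch T) Y)) with hP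
  have Pmono : ∀ f, Monotone f → Monotone (P f) := by
    intro f hf T T' hT
    exact Ex_mono hq fun ω _ => mm_anti hq X hf
      (cl_mono (Set.sdiff_subset_sdiff_right (touch_mono hT)) subset_rfl)
  have step : ∀ f, Monotone f → I (P f) ≤ I f := by
    intro f hf
    have a1 := h X Y X f hf subset_rfl hB
    have a2 := Th_zero (q := q) (F := F) X Y f (fun _ => c)
    have a3 := markov_cl' q F X (fun T b => mm q F X f (cl b Y) * g T)
    simp_rw [Ex_mul_const] at a3
    have a4 : I f - I (P f) =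
        Ex q F (fun ω => Th q F X Y f ω * eta o D (cl (ω \ touch (cl ω Y)) X)) -
          Ex q F (fun ω => Th q F X Y f ω * c) := by
      simp only [hI, hP]
      rw [← a3, ← Ex_sub, ← Ex_sub]
      refine Ex_congr fun ω _ => ?_
      simp only [hg, Th]
      by_cases hd : Disjoint X (cl ω Y)
      · have hd' : Disjoint Y (cl ω X) := (disjoint_cl_comm.2 hd).symm
        rw [cl_sdiff_touch hd, cl_sdiff_touch hd', ind_pos hd, ind_pos hd'.symm]; ring
      · rw [ind_neg hd, ind_neg (fun h => hd (disjoint_cl_comm.1 h))]; ring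
    linarith
  set ε := wt q F ∅ with hε
  have hε0 : 0 < ε := wt_empty_pos hq1
  have hε1 : ε ≤ 1 := by
    have := wt_empty_mul_le (F := F) hq (f := fun _ => 1) (fun _ _ => zero_le_one)
    rw [Ex_const] at this; simpa using this
  set K := Ex q F (fun ω => |g (cl ω X)|) with hK
  have hK0 : 0 ≤ K := Ex_nonneg hq fun _ _ => abs_nonneg _
  have iter : ∀ n : ℕ, ∀ (f : Set V → ℝ) (a w : ℝ), Monotone f → 0 ≤ w →
      (∀ T, a ≤ f T ∧ f T ≤ a + w) → -((1 - ε) ^ n * w * K) ≤ I f := by
    intro n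
    induction n with
    | zero =>
      intro f a w _ hw hb
      have e1 : I f = Ex q F (fun ω => (f (cl ω X) - a) * g (cl ω X)) := by
        have : Ex q F (fun ω => a * g (cl ω X)) = 0 := by rw [Ex_const_mul, h0, mul_zero]
        simp only [hI]
        rw [← sub_zero (Ex q F (fun ω => f (cl ω X) * g (cl ω X))), ← this, ← Ex_sub]
        exact Ex_congr fun _ _ => by ring
      rw [e1, pow_zero, one_mul, hK, ← Ex_const_mul, ← Ex_neg]
      refine Ex_mono hq fun ω _ => ?_
      have := hb (cl ω X)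
      have b1 := neg_abs_le (g (cl ω X))
      have b2 := abs_nonneg (g (cl ω X))
      nlinarith
    | succ n ih =>
      intro f a w hf hw hb
      have hm : ∀ S, a ≤ mm q F X f S ∧ mm q F X f S ≤ a + w := fun S =>
        ⟨le_Ex_const hq fun _ _ => (hb _).1, Ex_le_const hq fun _ _ => (hb _).2⟩
      have := ih (P f) (a + ε * (mm q F X f Y - a)) ((1 - ε) * w) (Pmono f hf)
        (mul_nonneg (by linarith) hw) (by
          intro T
          have c1 := wt_empty_mul_le (F := F) hq
            (f := fun ω => mm q F X f (cl (ω \ touch T) Y) - a) (fun _ _ => sub_nonneg.2 (hm _).1)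
          have c2 := wt_empty_mul_le (F := F) hq
            (f := fun ω => a + w - mm q F X f (cl (ω \ touch T) Y))
            (fun _ _ => sub_nonneg.2 (hm _).2)
          rw [Ex_sub, Ex_const] at c1 c2
          simp only [Set.empty_sdiff, cl_empty] at c1 c2
          simp only [hP]
          constructor <;> nlinarith)
      have := step f hf
      rw [pow_succ]; nlinarith
  have hlim : Filter.Tendsto (fun n : ℕ => -((1 - ε) ^ n * (f Set.univ - f ∅) * K))
      Filter.atTop (nhds (-(0 * (f Set.univ - f ∅) * K))) :=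
    (((tendsto_pow_atTop_nhds_zero_of_lt_one (by linarith) (by linarith)).mul_const _).mul_const
      _).neg
  have := le_of_tendsto' hlim fun n => iter n f (f ∅) (f Set.univ - f ∅) hf
    (sub_nonneg.2 (hf (Set.empty_subset _)))
    (fun T => ⟨hf (Set.empty_subset _), by linarith [hf (Set.subset_univ T)]⟩)
  simpa using this

lemma QS_nil (hq : Par q) (o : V) : QS q F o [] := by
  intro X Y U f hf _ _
  have h := markov_cl' q F Y (fun S c =>
    ind (Disjoint X S) * ((f (cl c X) - mm q F X f S) * ind (o ∈ cl c U)))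
  have e1 : Ex q F (fun ω => Th q F X Y f ω * eta o [] (cl (ω \ touch (cl ω Y)) U)) =
      Ex q F (fun a => ind (Disjoint X (cl a Y)) *
        ((f (cl (a \ touch (cl a Y)) X) - mm q F X f (cl a Y)) *
          ind (o ∈ cl (a \ touch (cl a Y)) U))) := by
    refine Ex_congr fun a _ => ?_
    unfold Th eta
    by_cases hd : Disjoint X (cl a Y)
    · rw [cl_sdiff_touch hd]; simp; ring
    · rw [ind_neg hd]; ring
  rw [e1, h]
  refine Ex_nonneg hq fun a _ => ?_
  rw [Ex_const_mul]
  refine mul_nonneg (ind_nonneg _) ?_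
  have := harris hq F (f := fun b => f (cl (b \ touch (cl a Y)) X) - mm q F X f (cl a Y))
    (g := fun b => ind (o ∈ cl (b \ touch (cl a Y)) U))
    (fun b b' hb => sub_le_sub_right
      (hf (cl_mono (Set.sdiff_subset_sdiff_left hb) subset_rfl)) _)
    (fun b b' hb => ind_mono fun h => cl_mono (Set.sdiff_subset_sdiff_left hb) subset_rfl h)
  rw [Ex_sub, Ex_const] at this
  simpa [mm] using this

lemma QS_cons (hq : Par q) {o : V} {D : List (V × ℝ)} (h1 : QS q F o D) (h2 : BS q F o D)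
    (p : V × ℝ) : QS q F o (p :: D) := by
  intro X Y U f hf hXU hB
  obtain ⟨hd, h0, hB'⟩ := hB
  have hdY : p.1 ∉ Y := fun h => hd (Or.inl h)
  have hdU : p.1 ∉ U := fun h => hd (Or.inr h)
  set G : Set V → ℝ := fun T => (eta o D T - p.2) * ind (Disjoint T (Y ∪ U)) with hG
  have a1 := h1 X Y (insert p.1 U) f hf (hXU.trans (Set.subset_insert _ _))
    (by rwa [Set.union_insert])
  have a2 := Th_zero (q := q) (F := F) X Y f
    (fun S => p.2 + ind (p.1 ∈ S) * (eta o D {p.1} - p.2))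
  have a3 := h2 {p.1} (Y ∪ U) (fun T => - Ex q F (fun b => Th q F X Y f (b \ touch T))) p.2
    (fun T T' hT => neg_le_neg (Th_delete hq X Y hf (touch_mono hT)))
    (by rwa [Set.union_singleton]) h0
  have a4 := markov_cl' q F {p.1} (fun T b => Th q F X Y f b * G T)
  simp_rw [Ex_mul_const] at a4
  have a5 : Ex q F (fun ω => Th q F X Y f ω * G (cl ω {p.1})) ≤ 0 := by
    have e : Ex q F (fun ω => Th q F X Y f ω * G (cl ω {p.1})) =
        Ex q F (fun a => Th q F X Y f (a \ touch (cl a {p.1})) * G (cl a {p.1})) := by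
      refine Ex_congr fun a _ => ?_
      by_cases hD : Disjoint (cl a {p.1}) (Y ∪ U)
      · have b1 : Disjoint X (cl a {p.1}) :=
          (hD.mono_right (hXU.trans Set.subset_union_right)).symm
        have b2 : Disjoint Y (cl a {p.1}) := (hD.mono_right Set.subset_union_left).symm
        unfold Th
        rw [cl_sdiff_touch b1, cl_sdiff_touch b2]
      · simp only [hG]; rw [ind_neg hD]; ring
    rw [e, a4]
    have e2 : Ex q F (fun ω => -Ex q F (fun b => Th q F X Y f (b \ touch (cl ω {p.1}))) *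
        ((eta o D (cl ω {p.1}) - p.2) * ind (Disjoint (cl ω {p.1}) (Y ∪ U)))) =
        - Ex q F (fun a => Ex q F (fun b => Th q F X Y f (b \ touch (cl a {p.1}))) *
          G (cl a {p.1})) := by
      rw [← Ex_neg]; exact Ex_congr fun _ _ => by simp only [hG]; ring
    rw [e2] at a3; linarith
  have e : Ex q F (fun ω => Th q F X Y f ω * eta o (p :: D) (cl (ω \ touch (cl ω Y)) U)) =
      Ex q F (fun ω => Th q F X Y f ω * eta o D (cl (ω \ touch (cl ω Y)) (insert p.1 U))) -
      Ex q F (fun ω => Th q F X Y f ω *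
        (p.2 + ind (p.1 ∈ cl ω Y) * (eta o D {p.1} - p.2))) -
      Ex q F (fun ω => Th q F X Y f ω * G (cl ω {p.1})) := by
    rw [← Ex_sub, ← Ex_sub]
    refine Ex_congr fun ω _ => ?_
    rw [eta_step]
    simp only [hG]
    by_cases hS : p.1 ∈ cl ω Y
    · have b1 : cl (ω \ touch (cl ω Y)) {p.1} = {p.1} := by
        refine Set.Subset.antisymm (fun v hv => ?_) (subset_cl _ _)
        exact conn_sdiff_touch_eq hS (mem_cl_singleton.1 hv)
      have b2 : ¬ Disjoint (cl ω {p.1}) (Y ∪ U) := fun h =>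
        (Set.disjoint_singleton_left.1
          (disjoint_cl_comm.1 (h.mono_right Set.subset_union_left))) hS
      rw [b1, ind_pos hS, ind_neg b2, ind_pos (Set.disjoint_singleton_left.2 hdU)]; ring
    · have b0 : Disjoint ({p.1} : Set V) (cl ω Y) := Set.disjoint_singleton_left.2 hS
      rw [cl_sdiff_touch b0, ind_neg hS,
        ind_congr (Q := Disjoint (cl ω {p.1}) U) (P := Disjoint (cl ω {p.1}) (Y ∪ U))
          ⟨fun h => h.mono_right Set.subset_union_right,
            fun h => Set.disjoint_union_right.2 ⟨disjoint_cl_comm.2 b0, h⟩⟩]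
      ring
  rw [e]; linarith

lemma BS_all (hq : Par q) (hq1 : ∀ e, q e < 1) (o : V) (D : List (V × ℝ)) : BS q F o D := by
  have : QS q F o D := by
    induction D with
    | nil => exact QS_nil hq o
    | cons p D ih => exact QS_cons hq ih (BS_of_QS hq hq1 ih) p
  exact BS_of_QS hq hq1 this

lemma Bal_notMem {o : V} {D : List (V × ℝ)} {Z : Set V} (h : Bal q F o Z D) :
    ∀ p ∈ D, p.1 ∉ Z := by
  induction D generalizing Z with
  | nil => simp
  | cons p D ih =>
    intro p' hp'
    rcases List.mem_cons.1 hp' with rfl | hp'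
    · exact h.1
    · exact fun hz => ih h.2.2 p' hp' (Set.mem_insert_of_mem _ hz)

lemma eta_eq_zero {o : V} {D : List (V × ℝ)} {C : Set V} (ho : o ∉ C) (h : ∀ p ∈ D, p.1 ∉ C) :
    eta o D C = 0 := by
  induction D with
  | nil => simp [eta, ind, ho]
  | cons p D ih =>
    rw [eta_cons, ih fun p' hp' => h p' (List.mem_cons_of_mem _ hp'),
      ind_neg (h p List.mem_cons_self)]; ring

lemma coef_nonneg (hq : Par q) (hq1 : ∀ e, q e < 1) {o : V} {D : List (V × ℝ)} {X Y : Set V}
    {c : ℝ} (ho : o ∉ X) (hXY : Disjoint X Y) (hB : Bal q F o (Y ∪ X) D)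
    (h0 : Ex q F (fun ω => (eta o D (cl ω X) - c) * ind (Disjoint (cl ω X) Y)) = 0) : 0 ≤ c := by
  have a := BS_all hq hq1 o D X Y (fun T => ind (¬ T ⊆ X)) c
    (fun T T' hT => ind_mono fun h h' => h (hT.trans h')) hB h0
  have hz : eta o D X = 0 := eta_eq_zero ho fun p hp h => Bal_notMem hB p hp (Or.inr h)
  have e : Ex q F (fun ω => ind (¬ cl ω X ⊆ X) *
      ((eta o D (cl ω X) - c) * ind (Disjoint (cl ω X) Y))) =
      Ex q F (fun ω => (eta o D (cl ω X) - c) * ind (Disjoint (cl ω X) Y)) +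
        c * Ex q F (fun ω => ind (cl ω X ⊆ X)) := by
    rw [← Ex_const_mul, ← Ex_add]
    refine Ex_congr fun ω _ => ?_
    by_cases h : cl ω X ⊆ X
    · have : cl ω X = X := Set.Subset.antisymm h (subset_cl _ _)
      rw [this, hz, ind_pos hXY, ind_pos subset_rfl, ind_neg (fun h => h subset_rfl)]; ring
    · rw [ind_pos h, ind_neg h]; ring
  rw [e, h0, zero_add] at a
  have b := wt_empty_mul_le (F := F) hq (f := fun ω => ind (cl ω X ⊆ X))
    (fun _ _ => ind_nonneg _)
  rw [cl_empty, ind_pos subset_rfl, mul_one] at b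
  have := wt_empty_pos (F := F) hq1
  by_contra hc
  push Not at hc
  nlinarith

lemma exists_Bal (hq : Par q) (hq1 : ∀ e, q e < 1) (o : V) (L : List V) (hL : L.Nodup)
    (ho : o ∉ L) : ∀ Z : Set V, (∀ a ∈ L, a ∉ Z) →
    ∃ D : List (V × ℝ), D.map Prod.fst = L ∧ Bal q F o Z D ∧ ∀ p ∈ D, 0 ≤ p.2 := by
  induction L with
  | nil => intro Z _; exact ⟨[], rfl, trivial, by simp⟩
  | cons a L ih =>
    intro Z hZ
    rw [List.nodup_cons] at hL
    obtain ⟨D, hD, hB, hn⟩ := ih hL.2 (fun h => ho (List.mem_cons_of_mem _ h)) (insert a Z) (by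
      rintro b hb (rfl | h)
      · exact hL.1 hb
      · exact hZ b (List.mem_cons_of_mem _ hb) h)
    have haZ := hZ a List.mem_cons_self
    set N := Ex q F (fun ω => ind (Disjoint (cl ω {a}) Z)) with hN
    have hN0 : 0 < N := by
      have b := wt_empty_mul_le (F := F) hq (f := fun ω => ind (Disjoint (cl ω {a}) Z))
        (fun _ _ => ind_nonneg _)
      rw [cl_empty, ind_pos (Set.disjoint_singleton_left.2 haZ), mul_one] at b
      exact lt_of_lt_of_le (wt_empty_pos hq1) b
    set h := Ex q F (fun ω => eta o D (cl ω {a}) * ind (Disjoint (cl ω {a}) Z)) / N with hh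
    have h0 : Ex q F (fun ω => (eta o D (cl ω {a}) - h) * ind (Disjoint (cl ω {a}) Z)) = 0 := by
      simp_rw [sub_mul]
      rw [Ex_sub, Ex_const_mul, ← hN, hh, div_mul_cancel₀ _ hN0.ne', sub_self]
    refine ⟨(a, h) :: D, by simp [hD], ⟨haZ, h0, hB⟩, ?_⟩
    intro p hp
    rcases List.mem_cons.1 hp with rfl | hp
    · exact coef_nonneg hq hq1 (X := {a}) (Y := Z) (D := D) (o := o)
        (fun h => ho (by rw [Set.mem_singleton_iff.1 h]; exact List.mem_cons_self))
        (Set.disjoint_singleton_left.2 haZ) (by rwa [Set.union_singleton]) h0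
    · exact hn p hp

lemma Ex_eta_Bal {o : V} {D : List (V × ℝ)} {Z : Set V} (hB : Bal q F o Z D) :
    Ex q F (fun ω => eta o D (cl ω Z)) =
      Ex q F (fun ω => ind (o ∈ cl ω (Z ∪ {v | v ∈ D.map Prod.fst}))) - (D.map Prod.snd).sum := by
  induction D generalizing Z with
  | nil => simp [eta]
  | cons p D ih =>
    simp_rw [eta_step]
    rw [Ex_sub, Ex_sub, hB.2.1, ih hB.2.2, Ex_const]
    have : insert p.1 Z ∪ {v | v ∈ D.map Prod.fst} = Z ∪ {v | v ∈ (p :: D).map Prod.fst} := by
      ext v; simp only [List.map_cons, List.mem_cons, Set.mem_union, Set.mem_insert_iff,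
        Set.mem_ofPred_eq]; tauto
    rw [this]; simp; ring

lemma Ex_eta_le {o : V} {D : List (V × ℝ)} {B : Set V} {δ : ℝ} (hn : ∀ p ∈ D, 0 ≤ p.2)
    (h : ∀ p ∈ D, Ex q F (fun ω => ind (p.1 ∉ cl ω B)) ≤ δ) :
    Ex q F (fun ω => eta o D (cl ω B)) ≤
      Ex q F (fun ω => ind (o ∈ cl ω B)) - (1 - δ) * (D.map Prod.snd).sum := by
  induction D with
  | nil => simp [eta]
  | cons p D ih =>
    simp_rw [eta_cons]
    rw [Ex_sub, Ex_const_mul]
    have a := ih (fun p' hp' => hn p' (List.mem_cons_of_mem _ hp'))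
      (fun p' hp' => h p' (List.mem_cons_of_mem _ hp'))
    have b := h p List.mem_cons_self
    rw [Ex_ind_not] at b
    have c := hn p List.mem_cons_self
    simp only [List.map_cons, List.sum_cons]
    nlinarith

theorem glue_lt (hq : Par q) (hq1 : ∀ e, q e < 1) (o : V) (A : Finset V) (B : Set V) {δ : ℝ}
    (hδ : 0 ≤ δ) (h : ∀ a ∈ A, Ex q F (fun ω => ind (a ∉ cl ω B)) ≤ δ) :
    Ex q F (fun ω => ind (o ∈ cl ω A ∧ o ∉ cl ω B)) ≤ δ := by
  by_cases hoB : o ∈ B
  · exact Ex_le_const hq fun ω _ => by rw [ind_neg fun h => h.2 (subset_cl _ _ hoB)]; exact hδ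
  by_cases hoA : o ∈ A
  · exact le_trans (Ex_mono hq fun ω _ => ind_mono fun h => h.2) (h o hoA)
  obtain ⟨D, hD, hB, hn⟩ := exists_Bal (F := F) hq hq1 o (A.filter (· ∉ B)).toList
    (Finset.nodup_toList _) (by simp [hoA]) B (by simp)
  have a1 := Ex_eta_Bal hB
  have a2 := Ex_eta_le (q := q) (F := F) (o := o) (B := B) (δ := δ) hn (by
    intro p hp
    have : p.1 ∈ D.map Prod.fst := List.mem_map_of_mem hp
    rw [hD] at this
    exact h _ (Finset.mem_filter.1 (Finset.mem_toList.1 this)).1)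
  have a3 : 0 ≤ Ex q F (fun ω => eta o D (cl ω B)) := by
    refine coef_nonneg hq hq1 (F := F) (X := B) (Y := ∅) (D := D) (o := o) hoB (by simp) (by simpa) ?_
    simp only [Set.disjoint_empty, ind_pos, mul_one]
    rw [Ex_sub, Ex_const, sub_self]
  have a4 := Ex_ind_le_one (F := F) hq fun ω => o ∈ cl ω (B ∪ {v | v ∈ D.map Prod.fst})
  have a5 : Ex q F (fun ω => ind (o ∈ cl ω A ∧ o ∉ cl ω B)) ≤
      Ex q F (fun ω => ind (o ∈ cl ω (B ∪ {v | v ∈ D.map Prod.fst}))) -
        Ex q F (fun ω => ind (o ∈ cl ω B)) := by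
    rw [← Ex_sub]
    refine Ex_mono hq fun ω _ => ?_
    by_cases hb : o ∈ cl ω B
    · rw [ind_neg (fun h : _ ∧ ¬ _ => h.2 hb), ind_pos hb,
        ind_pos (cl_mono subset_rfl Set.subset_union_left hb)]; simp
    · rw [ind_neg hb, sub_zero]
      refine ind_mono fun h => cl_mono subset_rfl ?_ h.1
      intro a ha
      by_cases haB : a ∈ B
      · exact Or.inl haB
      · right; rw [hD]; simpa using ⟨ha, haB⟩
  have a6 : 0 ≤ (D.map Prod.snd).sum := List.sum_nonneg (by
    intro x hx; obtain ⟨p, hp, rfl⟩ := List.mem_map.1 hx; exact hn p hp)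
  nlinarith

theorem glue_le (hq : Par q) (o : V) (A : Finset V) (B : Set V) {δ : ℝ}
    (hδ : 0 ≤ δ) (h : ∀ a ∈ A, Ex q F (fun ω => ind (a ∉ cl ω B)) ≤ δ) :
    Ex q F (fun ω => ind (o ∈ cl ω A ∧ o ∉ cl ω B)) ≤ δ := by
  refine le_of_forall_pos_le_add fun ε hε => ?_
  have hc : ∀ f : Set (Sym2 V) → ℝ, Filter.Tendsto (fun t : ℝ => Ex (fun e => t * q e) F f)
      (nhdsWithin 1 (Set.Iio 1)) (nhds (Ex q F f)) := by
    intro f
    have := (continuous_Ex F f (fun t e => t * q e) (fun e => by fun_prop)).tendsto 1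
    simp only [one_mul] at this
    exact this.mono_left nhdsWithin_le_nhds
  refine le_of_tendsto (hc _) ?_
  have e1 : ∀ᶠ t : ℝ in nhdsWithin 1 (Set.Iio 1), ∀ a ∈ A,
      Ex (fun e => t * q e) F (fun ω => ind (a ∉ cl ω B)) ≤ δ + ε := by
    rw [Filter.eventually_all_finset]
    intro a ha
    exact ((hc _).eventually (gt_mem_nhds (lt_of_le_of_lt (h a ha) (by linarith)))).mono
      fun _ h => le_of_lt h
  have e2 : ∀ᶠ t : ℝ in nhdsWithin 1 (Set.Iio 1), t ∈ Set.Ioo (0 : ℝ) 1 :=
    Ioo_mem_nhdsLT (by norm_num)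
  filter_upwards [e1, e2] with t h1 h2
  refine glue_lt (fun e => ⟨mul_nonneg h2.1.le (hq e).1, ?_⟩) (fun e => ?_) o A B
    (by linarith) h1
  · nlinarith [(hq e).1, (hq e).2, h2.1, h2.2]
  · nlinarith [(hq e).1, (hq e).2, h2.1, h2.2]

/-- the gluing inequality with a base configuration and a region -/
theorem glue (hq : Par q) (ξ : Set (Sym2 V)) (hξ : ξ.Finite) (W : Set (Sym2 V)) (o : V)
    (A : Finset V) (B : Set V) {δ : ℝ} (hδ : 0 ≤ δ)
    (h : ∀ a ∈ A, Ex q F (fun ω => ind (a ∉ cl ((ξ ∪ ω) ∩ W) B)) ≤ δ) :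
    Ex q F (fun ω => ind (o ∈ cl ((ξ ∪ ω) ∩ W) A ∧ o ∉ cl ((ξ ∪ ω) ∩ W) B)) ≤ δ := by
  have key : ∀ f : Set (Sym2 V) → ℝ,
      Ex (fun e => if e ∈ Wᶜ then 0 else if e ∈ ξ then 1 else if e ∈ (F : Set (Sym2 V)) then q e
        else 0) (F ∪ hξ.toFinset) f = Ex q F (fun ω => f ((ξ ∪ ω) ∩ W)) := by
    intro f
    rw [Ex_modify, Ex_subset q (Finset.subset_union_left (s₁ := F))]
    · refine Ex_congr fun s hs => ?_
      congr 1
      ext x; have := @hs x
      simp only [Set.mem_sdiff, Set.mem_union, Set.mem_inter_iff, Finset.coe_union,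
        Set.Finite.coe_toFinset, Set.mem_compl_iff, not_not]
      tauto
    · intro s _; rw [Set.inter_assoc, Set.inter_self]
  have := glue_le (F := F ∪ hξ.toFinset) (q := fun e => if e ∈ Wᶜ then 0 else if e ∈ ξ then 1
    else if e ∈ (F : Set (Sym2 V)) then q e else 0) (fun e => by
      have := hq e
      dsimp only; split_ifs <;> simp [*]) o A B hδ (fun a ha => by rw [key]; exact h a ha)
  rwa [key] at this

end Vale.Agent.P151
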