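import Vale.Agent.P151.Main

/-! The lattices and Cayley graphs. -/

namespace Vale.Agent.P151

open scoped Classical

/-- translation automorphism -/
def shift (d : ℕ) (t : Fin d → ℤ) : lattice d ≃g lattice d where
  toEquiv := Equiv.addRight t
  map_rel_iff' := by intro a b; simp [lattice]

lemma shift_apply (d : ℕ) (t v : Fin d → ℤ) : shift d t v = v + t := rfl

lemma lattice_adj_single {d : ℕ} (x : Fin d → ℤ) (i : Fin d) :
    (lattice d).Adj x (x + Pi.single i 1) := by
  show ∑ j, |x j - (x + (Pi.single i 1 : Fin d → ℤ)) j| = 1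
  rw [Finset.sum_eq_single i] <;> simp +contextual

lemma lattice_fin (d : ℕ) (x : Fin d → ℤ) : ((lattice d).neighborSet x).Finite := by
  refine (Set.Finite.pi' fun i => Set.finite_Icc (x i - 1) (x i + 1)).subset fun y hy i => ?_
  have h : ∑ j, |x j - y j| = 1 := hy
  have := Finset.single_le_sum (f := fun j => |x j - y j|) (fun _ _ => abs_nonneg _)
    (Finset.mem_univ i)
  rw [h, abs_le] at this
  constructor <;> linarith [this.1, this.2]

lemma lattice_conn (d : ℕ) : (lattice d).Connected := by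
  have key : ∀ t : Fin d → ℤ, ∀ x, (lattice d).Reachable x (x + t) := by
    intro t
    induction t using Pi.single_induction with
    | zero => intro x; simp
    | add f g hf hg => intro x; rw [← add_assoc]; exact (hf x).trans (hg _)
    | single i z =>
      induction z using Int.induction_on with
      | zero => intro x; simp
      | succ n ih =>
        intro x; rw [Pi.single_add, ← add_assoc]
        exact (ih x).trans (lattice_adj_single _ i).reachable
      | pred n ih =>
        intro x
        refine (ih x).trans (SimpleGraph.Adj.reachable ?_)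
        have := (lattice_adj_single (x + Pi.single i (-(n : ℤ) - 1)) i).symm
        rwa [add_assoc, ← Pi.single_add, sub_add_cancel] at this
  exact ⟨fun x y => by simpa using key (y - x) x⟩

lemma pc_lt_one {V : Type*} {G : SimpleGraph V} [G.LocallyFinite] (hc : G.Connected)
    (s : ℕ × ℕ → V) (f g : V → ℝ) (hf : ∀ a b, G.Adj a b → f b + g b ≤ f a + g a + 1)
    (h1 : ∀ x, f (s x) = x.1) (h2 : ∀ x, g (s x) = x.2)
    (a1 : ∀ x, G.Adj (s x) (s (x.1 + 1, x.2))) (a2 : ∀ x, G.Adj (s x) (s (x.1, x.2 + 1))) :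
    pc G < 1 := by
  obtain ⟨p, hp⟩ : ∃ p : ℝ, p = 1 - (1 / 512) ^ 4 / 2 := ⟨_, rfl⟩
  have p0 : 0 ≤ p := by rw [hp]; norm_num
  have p1 : p < 1 := by rw [hp]; norm_num
  have hq : Par fun _ : Sym2 V => p := par_const p0 p1.le
  have hs : ∀ n, ∀ x : ℕ × ℕ, x.1 + x.2 = n → s x ∈ ball G n (s (0, 0)) := by
    intro n
    induction n with
    | zero => rintro ⟨i, j⟩ h; obtain ⟨rfl, rfl⟩ : i = 0 ∧ j = 0 := by omega
              exact self_mem_ball _ _
    | succ n ih =>
      rintro ⟨i, j⟩ h
      rcases i with _ | i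
      · rcases j with _ | j
        · omega
        · exact ball_adj (ih (0, j) (by omega)) (a2 (0, j))
      · exact ball_adj (ih (i, j) (by omega)) (a1 (i, j))
  have P : Perc G p (s (0, 0)) 0 (1 / 2) := by
    intro n
    refine ⟨n + 1, ?_⟩
    let E : ℕ × ℕ → Finset (Sym2 V) := fun x => {s(s x, s (x.1 + 1, x.2)), s(s x, s (x.1, x.2 + 1))}
    have main := peierls hq (edgesIn G (ball G (n + 1) (s (0, 0)))) (n + 1) (by omega)
      (fun x ω => conn ω (s (0, 0)) (s x)) (fun x ω => (E x : Set (Sym2 V)) ⊆ ω)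
      (fun _ _ => conn.refl _ _)
      (fun ω _ x _ a b => ⟨a.tail (b (by simp [E])), a.tail (b (by simp [E]))⟩) (by
        intro Γ hΓ
        have inj : ∀ x y, s x = s y → x.1 = y.1 ∧ x.2 = y.2 := fun x y h =>
          ⟨by exact_mod_cast (h1 x).symm.trans (h ▸ h1 y),
            by exact_mod_cast (h2 x).symm.trans (h ▸ h2 y)⟩
        have t := Ex_prod_not_subset p (edgesIn G (ball G (n + 1) (s (0, 0)))) Γ E (by
          intro x hx e he
          have := hΓ x hx
          rcases Finset.mem_insert.1 he with rfl | he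
          · exact mem_edgesIn.2 ⟨a1 x, mem_ins_mk.2 ⟨ball_mono (by omega) (hs _ x rfl),
              ball_mono (by simp only; omega) (hs _ (x.1 + 1, x.2) rfl)⟩⟩
          · rw [Finset.mem_singleton.1 he]
            exact mem_edgesIn.2 ⟨a2 x, mem_ins_mk.2 ⟨ball_mono (by omega) (hs _ x rfl),
              ball_mono (by simp only; omega) (hs _ (x.1, x.2 + 1) rfl)⟩⟩) (by
          intro x _ y _ hxy
          have hxy' : ¬ (x.1 = y.1 ∧ x.2 = y.2) := fun h => hxy (Prod.ext h.1 h.2)
          simp only [E, Finset.disjoint_left, Finset.mem_insert, Finset.mem_singleton]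
          rintro e (rfl | rfl) (h | h) <;> rcases Sym2.eq_iff.1 h with ⟨b1, b2⟩ | ⟨b1, b2⟩ <;>
            have c1 := inj _ _ b1 <;> have c2 := inj _ _ b2 <;> simp only at c1 c2 <;> omega)
        refine le_trans (Ex_mono hq fun ω _ => ?_) (t.trans_le ?_)
        · by_cases h : ∀ x ∈ Γ, conn ω (s (0, 0)) (s x) ∧ ¬ (E x : Set (Sym2 V)) ⊆ ω
          · rw [ind_pos h, Finset.prod_eq_one fun x hx => ind_pos (h x hx).2]
          · rw [ind_neg h]; exact Finset.prod_nonneg fun _ _ => ind_nonneg _
        · rw [← Finset.prod_const]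
          refine Finset.prod_le_prod (fun x _ => sub_nonneg.2 (pow_le_one₀ p0 p1.le)) fun x _ => ?_
          have := pow_le_pow_of_le_one p0 p1.le (Finset.card_le_two : (E x).card ≤ 2)
          rw [hp] at this ⊢
          norm_num at this ⊢
          linarith)
    have := Ex_mono hq (F := edgesIn G (ball G (n + 1) (s (0, 0)))) fun ω _ => ind_mono
      (P := ∃ x : ℕ × ℕ, x.1 + x.2 = n + 1 ∧ conn ω (s (0, 0)) (s x))
      (Q := ¬ Disjoint (ball G n (s (0, 0)) : Set V)ᶜ (cl ω (ball G 0 (s (0, 0))))) (by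
        rintro ⟨x, hx, hc⟩ hd
        refine Set.disjoint_left.1 hd (fun hb => ?_) ⟨_, self_mem_ball _ _, hc⟩
        have := (ball_lip (f := fun v => f v + g v) hf hb).1
        simp only [h1, h2] at this
        have h3 : (x.1 : ℝ) + x.2 = n + 1 := by exact_mod_cast hx
        simp at this; linarith)
    rw [Ex_ind_not] at this
    unfold LF
    linarith
  have := pos_of_perc hc _ (p := ⟨p, p0, p1.le⟩) P
  exact lt_of_le_of_lt (sInf_le this : pc G ≤ _) p1

theorem lattice_crit (d : ℕ) (hd : 2 ≤ d) :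
    pc (lattice d) < 1 ∧ perc (lattice d) (pc (lattice d)) (infCluster (Fin d → ℤ)) = 0 := by
  let _ : (lattice d).LocallyFinite := fun x => (lattice_fin d x).fintype
  let i0 : Fin d := ⟨0, by omega⟩
  let i1 : Fin d := ⟨1, by omega⟩
  have h01 : i0 ≠ i1 := by simp [i0, i1]
  have h := pc_lt_one (lattice_conn d)
    (fun x => Pi.single i0 (x.1 : ℤ) + Pi.single i1 (x.2 : ℤ)) (fun v => v i0) (fun v => v i1)
    (by
      intro a b hab
      have h : ∑ j, |a j - b j| = 1 := hab
      have := Finset.sum_le_sum_of_subset_of_nonneg (f := fun j => |a j - b j|)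
        (Finset.subset_univ {i0, i1}) fun _ _ _ => abs_nonneg _
      rw [h, Finset.sum_pair h01] at this
      have : b i0 + b i1 ≤ a i0 + a i1 + 1 := by
        linarith [neg_abs_le (a i0 - b i0), neg_abs_le (a i1 - b i1)]
      exact_mod_cast this)
    (fun x => by simp [h01]) (fun x => by simp [h01.symm])
    (fun x => by
      convert lattice_adj_single _ i0 using 1
      push_cast; rw [Pi.single_add]; abel)
    (fun x => by
      convert lattice_adj_single _ i1 using 1
      push_cast; rw [Pi.single_add]; abel)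
  refine ⟨h, crit_general (lattice_conn d) (fun v => (v i0, v i1)) {0}
    (fun v => ⟨0, by simp, shift d v, ⟨(v i0, v i1), fun w => by simp [shift_apply]⟩, by simp [shift_apply]⟩)
    (shift d (Pi.single i0 1)) (shift d (Pi.single i1 1)) (1, 0) (0, 1)
    (fun w => by simp [shift_apply, h01.symm]) (fun w => by simp [shift_apply, h01]) (by simp) h⟩

/-- left multiplication as an automorphism of a Cayley graph -/
def lmul {Γ : Type*} [Group Γ] (S : Set Γ) (g : Γ) :
    SimpleGraph.mulCayley S ≃g SimpleGraph.mulCayley S where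
  toEquiv := Equiv.mulLeft g
  map_rel_iff' := by intro a b; simp

lemma lmul_apply {Γ : Type*} [Group Γ] (S : Set Γ) (g v : Γ) : lmul S g v = g * v := rfl

theorem cayley_crit {Γ : Type*} [Group Γ] (S : Set Γ) (hS : S.Finite)
    (hgen : Subgroup.closure S = ⊤) (H : Subgroup Γ) (hH : H.FiniteIndex)
    (χ : H →* Multiplicative (ℤ × ℤ)) (hχ : Function.Surjective χ)
    (h : pc (SimpleGraph.mulCayley S) < 1) :
    perc (SimpleGraph.mulCayley S) (pc (SimpleGraph.mulCayley S)) (infCluster Γ) = 0 := by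
  have hfin : ∀ x, ((SimpleGraph.mulCayley S).neighborSet x).Finite := fun x => by
    refine ((hS.image (x * ·)).union (hS.image (x * ·⁻¹))).subset fun y hy => ?_
    obtain ⟨_, g, hg, h | h⟩ := (SimpleGraph.mulCayley_adj' S x y).1 hy
    · exact Or.inl ⟨g, hg, h⟩
    · exact Or.inr ⟨g, hg, by simp [h]⟩
  let _ : (SimpleGraph.mulCayley S).LocallyFinite := fun x => (hfin x).fintype
  have hc : (SimpleGraph.mulCayley S).Connected := by
    have key : ∀ t ∈ Subgroup.closure S, ∀ x, (SimpleGraph.mulCayley S).Reachable x (x * t) := by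
      intro t ht
      induction ht using Subgroup.closure_induction with
      | mem g hg =>
        intro x
        by_cases hx : x = x * g
        · rw [← hx]
        · exact SimpleGraph.Adj.reachable
            ((SimpleGraph.mulCayley_adj' S _ _).2 ⟨hx, g, hg, Or.inl rfl⟩)
      | one => intro x; simp
      | mul a b _ _ ha hb => intro x; rw [← mul_assoc]; exact (ha x).trans (hb _)
      | inv a _ ha => intro x; simpa using (ha (x * a⁻¹)).symm
    exact ⟨fun x y => by simpa using key (x⁻¹ * y) (hgen ▸ Subgroup.mem_top _) x⟩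
  let q : Γ → Γ := fun g => (QuotientGroup.mk g⁻¹ : Γ ⧸ H).out
  have hq : ∀ g, g * q g ∈ H := fun g => by
    have := QuotientGroup.eq.1 (QuotientGroup.out_eq' (QuotientGroup.mk g⁻¹ : Γ ⧸ H)).symm
    simpa using this
  have hq' : ∀ (a : H) (g : Γ), q (a * g) = q g := fun a g => by
    simp only [q]; congr 1
    exact QuotientGroup.eq.2 (by simp)
  let ψ : ℤ × ℤ → ℝ × ℝ := fun z => (z.1, z.2)
  let φ : Γ → ℝ × ℝ := fun g => ψ (χ ⟨g * q g, hq g⟩).toAdd
  have cov : ∀ (a : H) (w : Γ), φ (lmul S a w) = φ w + ψ (χ a).toAdd := fun a w => by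
    have : (⟨a * w * q (a * w), hq _⟩ : H) = a * ⟨w * q w, hq w⟩ :=
      Subtype.ext (by simp [hq', mul_assoc])
    simp only [φ, lmul_apply, this, map_mul, toAdd_mul, ψ]
    ext <;> simp [add_comm]
  have := Fintype.ofFinite (Γ ⧸ H)
  obtain ⟨a1, h1⟩ := hχ (Multiplicative.ofAdd (1, 0))
  obtain ⟨a2, h2⟩ := hχ (Multiplicative.ofAdd (0, 1))
  exact crit_general hc φ (Finset.univ.image fun c : Γ ⧸ H => c.out⁻¹)
    (fun v => ⟨(q v)⁻¹, Finset.mem_image_of_mem _ (Finset.mem_univ _),
      lmul S (⟨v * q v, hq v⟩ : H), ⟨_, cov _⟩, by simp [lmul_apply]⟩)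
    (lmul S a1) (lmul S a2) _ _ (cov a1) (cov a2) (by simp [h1, h2, ψ]) h

end Vale.Agent.P151
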