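import Vale.Agent.P151.Defs
import Vale.Agent.P151.Core

/-! Link between the product measure and finite expectations. -/

namespace Vale.Agent.P151

open scoped Classical
open MeasureTheory ProbabilityTheory

lemma meas_cyl {ι : Type*} (F s : Finset ι) : MeasurableSet {ω : Set ι | ∀ e ∈ F, e ∈ ω ↔ e ∈ s} := by
  have : {ω : Set ι | ∀ e ∈ F, e ∈ ω ↔ e ∈ s} =
      ⋂ e ∈ F, (fun ω : Set ι => e ∈ ω) ⁻¹' {P | P ↔ e ∈ s} := by
    ext; simp
  rw [this]
  exact Finset.measurableSet_biInter _ fun e _ => measurable_set_mem e .of_discrete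

lemma cyl_eq {ι : Type*} (F : Finset ι) (P : Set ι → Prop) : {ω : Set ι | P (ω ∩ F)} =
    ⋃ s ∈ F.powerset.filter (fun s : Finset ι => P s), {ω : Set ι | ∀ e ∈ F, e ∈ ω ↔ e ∈ s} := by
  ext ω
  simp only [Set.mem_ofPred_eq, Set.mem_iUnion, Finset.mem_filter, Finset.mem_powerset]
  constructor
  · intro h
    refine ⟨F.filter (· ∈ ω), ⟨Finset.filter_subset _ _, ?_⟩, fun e he => by simp [he]⟩
    convert h using 1
    ext e; simp [and_comm]
  · rintro ⟨s, ⟨h1, h2⟩, h3⟩
    convert h2 using 1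
    ext e
    exact ⟨fun h => (h3 e h.2).1 h.1, fun h => ⟨(h3 e (h1 h)).2 h, h1 h⟩⟩

lemma meas_dep {ι : Type*} (F : Finset ι) (P : Set ι → Prop) :
    MeasurableSet {ω : Set ι | P (ω ∩ F)} := by
  rw [cyl_eq]; exact Finset.measurableSet_biUnion _ fun s _ => meas_cyl F s

lemma ber_cyl {ι : Type*} {u : Set ι} (p : unitInterval) {F : Finset ι} (hF : (F : Set ι) ⊆ u)
    (s : Finset ι) :
    (setBernoulli u p).real {ω : Set ι | ∀ e ∈ F, e ∈ ω ↔ e ∈ s} = wt (fun _ => (p : ℝ)) F s := by
  have : (fun P : ι → Prop => {i | P i}) ⁻¹' {ω : Set ι | ∀ e ∈ F, e ∈ ω ↔ e ∈ s} =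
      Set.pi F (fun e => {P | P ↔ e ∈ s}) := by
    ext; simp
  rw [measureReal_def, setBernoulli_apply', this, Measure.infinitePi_pi _ fun _ _ => .of_discrete,
    ENNReal.toReal_prod]
  unfold wt
  refine Finset.prod_congr rfl fun e he => ?_
  have h : (e ∈ u) = True := eq_true (hF he)
  by_cases hs : e ∈ s <;> simp [h, hs, Set.indicator]

lemma ber_dep {ι : Type*} {u : Set ι} (p : unitInterval) {F : Finset ι} (hF : (F : Set ι) ⊆ u)
    (P : Set ι → Prop) : (setBernoulli u p).real {ω : Set ι | P (ω ∩ F)} =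
      Ex (fun _ => (p : ℝ)) F (fun s => ind (P s)) := by
  rw [cyl_eq, measureReal_biUnion_finset _ fun s _ => meas_cyl F s]
  · unfold Ex
    rw [Finset.sum_filter]
    refine Finset.sum_congr rfl fun s _ => ?_
    by_cases h : P s
    · rw [if_pos h, ber_cyl p hF]; simp [ind_pos h]
    · rw [if_neg h]; simp [ind_neg h]
  · intro s hs t ht hst
    refine Set.disjoint_left.2 fun ω h1 h2 => hst ?_
    have a := Finset.mem_powerset.1 (Finset.mem_filter.1 hs).1
    have b := Finset.mem_powerset.1 (Finset.mem_filter.1 ht).1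
    ext e
    exact ⟨fun h => (h2 e (a h)).1 ((h1 e (a h)).2 h), fun h => (h1 e (b h)).1 ((h2 e (b h)).2 h)⟩

variable {V : Type*} {G : SimpleGraph V}

lemma reach_iff {ω : Set (Sym2 V)} {x y : V} :
    (SimpleGraph.fromEdgeSet ω).Reachable x y ↔ conn ω x y := by
  rw [SimpleGraph.reachable_iff_reflTransGen]
  constructor
  · intro h
    induction h with
    | refl => exact conn.refl _ _
    | tail _ h ih => exact ih.tail ((SimpleGraph.fromEdgeSet_adj _).1 h).1
  · intro h
    induction h with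
    | refl => exact Relation.ReflTransGen.refl
    | tail _ h ih =>
      rename_i a b _
      by_cases hab : a = b
      · exact hab ▸ ih
      · exact ih.tail ((SimpleGraph.fromEdgeSet_adj _).2 ⟨h, hab⟩)

variable [G.LocallyFinite]

omit [G.LocallyFinite] in
lemma perc_event (p : unitInterval) (L Q : Finset V) (T : Set V) :
    (perc G p).real {ω | ¬ Disjoint T (cl (ω ∩ edgesIn G Q) L)} = 1 - LF G p L Q T := by
  unfold perc LF
  rw [ber_dep p (edgesIn_subset Q) (fun s => ¬ Disjoint T (cl s L)), Ex_ind_not]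

lemma perc_of_pos (hc : G.Connected) (o : V) {p : unitInterval} (h : 0 < perc G p (infCluster V)) :
    ∃ m θ, θ < 1 ∧ Perc G p o m θ := by
  have hb : ∀ v, ∃ k, v ∈ ball G k o := fun v => exists_ball_of_reachable (hc o v)
  have : Countable V := by
    rw [← Set.countable_univ_iff]
    exact (Set.countable_iUnion fun k => (ball G k o).countable_toSet).mono
      fun v _ => Set.mem_iUnion.2 (hb v)
  have : IsProbabilityMeasure (perc G p) := by unfold perc; infer_instance
  let A : ℕ → Set (Set (Sym2 V)) := fun m =>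
    {ω | ω ⊆ G.edgeSet ∧ ∃ x ∈ ball G m o, {y | conn ω x y}.Infinite}
  have h1 : perc G p (⋃ m, A m) ≠ 0 := by
    intro h0
    refine h.ne' ?_
    unfold perc at h0 ⊢
    rw [setBernoulli_apply_eq_apply_subsets]
    refine measure_mono_null ?_ h0
    rintro ω ⟨⟨x, hx⟩, hω⟩
    obtain ⟨k, hk⟩ := hb x
    exact Set.mem_iUnion.2 ⟨k, hω, x, hk, by simpa only [reach_iff] using hx⟩
  obtain ⟨m, hm⟩ := exists_measure_pos_of_not_measure_iUnion_null h1
  refine ⟨m, 1 - (perc G p).real (A m), ?_, fun N => ⟨N + 1, ?_⟩⟩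
  · have : 0 < (perc G p).real (A m) := ENNReal.toReal_pos hm.ne' (measure_ne_top _ _)
    linarith
  · have := measureReal_mono (μ := perc G p) (s₁ := A m) (s₂ := {ω | ¬ Disjoint
        (ball G N o : Set V)ᶜ (cl (ω ∩ edgesIn G (ball G (N + 1) o)) (ball G m o))}) (by
      rintro ω ⟨hω, x, hx, hi⟩ hd
      obtain ⟨y, hy, hy'⟩ := hi.exists_notMem_finset (ball G N o)
      obtain ⟨w, hw, hcw⟩ := conn_exit (S := ball G N o) hy hy'
      refine Set.disjoint_left.1 hd hw ⟨x, hx, hcw.mono fun e he => ⟨he.1, ?_⟩⟩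
      refine mem_edgesIn.2 ⟨hω he.1, ?_⟩
      induction e using Sym2.ind with
      | _ a b =>
        have hadj : G.Adj a b := hω he.1
        rcases mem_touch_mk.1 he.2 with h | h
        · exact mem_ins_mk.2 ⟨ball_mono (by omega) h, ball_adj h hadj⟩
        · exact mem_ins_mk.2 ⟨ball_adj h hadj.symm, ball_mono (by omega) h⟩)
    rw [perc_event] at this
    linarith

lemma pos_of_perc (hc : G.Connected) (o : V) {p : unitInterval} {m : ℕ}
    (h : Perc G p o m (1 / 2)) : 0 < perc G p (infCluster V) := by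
  have hb : ∀ v, ∃ k, v ∈ ball G k o := fun v => exists_ball_of_reachable (hc o v)
  have : IsProbabilityMeasure (perc G p) := by unfold perc; infer_instance
  let C : ℕ → Set (Set (Sym2 V)) := fun N => ⋃ D, {ω | ¬ Disjoint
    (ball G N o : Set V)ᶜ (cl (ω ∩ edgesIn G (ball G D o)) (ball G m o))}
  have hm : ∀ N, MeasurableSet (C N) := fun N => MeasurableSet.iUnion fun D =>
    meas_dep _ (fun s => ¬ Disjoint (ball G N o : Set V)ᶜ (cl s (ball G m o)))
  have ha : Antitone C := fun N N' hN => Set.iUnion_mono fun D ω h h' =>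
    h (h'.mono_left (Set.compl_subset_compl.2 (ball_mono hN)))
  have h2 : ENNReal.ofReal (1 / 2) ≤ perc G p (⋂ N, C N) := by
    rw [ha.measure_iInter (fun N => (hm N).nullMeasurableSet) ⟨0, measure_ne_top _ _⟩]
    refine le_iInf fun N => ?_
    obtain ⟨D, hD⟩ := h N
    refine le_trans ?_ (measure_mono (Set.subset_iUnion _ D))
    rw [ENNReal.ofReal_le_iff_le_toReal (measure_ne_top _ _), ← measureReal_def, perc_event]
    linarith
  refine lt_of_lt_of_le (lt_of_lt_of_le (by simp) h2) (measure_mono fun ω hω => ?_)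
  by_contra hn
  simp only [infCluster, Set.mem_ofPred_eq, not_exists, Set.not_infinite, reach_iff] at hn
  have hf : (cl ω (ball G m o)).Finite :=
    ((ball G m o).finite_toSet.biUnion fun x _ => hn x).subset
      fun v ⟨x, hx, h⟩ => Set.mem_biUnion hx h
  choose k hk using hb
  obtain ⟨D, hD⟩ := Set.mem_iUnion.1 (Set.mem_iInter.1 hω (hf.toFinset.sup k))
  refine hD (Set.disjoint_left.2 fun v hv hv' => hv (ball_mono ?_ (hk v)))
  exact Finset.le_sup (hf.mem_toFinset.2 (cl_mono Set.inter_subset_left subset_rfl hv'))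

lemma not_perc_zero (o : V) (m : ℕ) {θ : ℝ} (hθ : θ < 1) : ¬ Perc G 0 o m θ := by
  intro h
  obtain ⟨D, hD⟩ := h m
  have : ∀ (F : Finset (Sym2 V)) (f : Set (Sym2 V) → ℝ), Ex (fun _ => 0) F f = f ∅ := by
    intro F f
    induction F using Finset.induction_on with
    | empty => simp
    | insert e F he ih => rw [Ex_insert _ he, ih]; simp
  unfold LF at hD
  rw [this, cl_empty, ind_pos disjoint_compl_left] at hD
  linarith

theorem crit_of_core (hc : G.Connected) (o : V)
    (H : ∀ p : ℝ, 0 < p → p < 1 → ∀ m0 θ, θ < 1 → Perc G p o m0 θ →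
      ∃ p', 0 ≤ p' ∧ p' < p ∧ ∃ m, Perc G p' o m (1 / 2)) (h : pc G < 1) :
    perc G (pc G) (infCluster V) = 0 := by
  by_contra hn
  obtain ⟨m, θ, h1, h2⟩ := perc_of_pos hc o (pos_iff_ne_zero.2 hn)
  rcases (pc G).2.1.eq_or_lt with h0 | h0
  · exact not_perc_zero o m h1 (h0 ▸ h2)
  · obtain ⟨p', a, b, m', c⟩ := H _ h0 h m θ h1 h2
    have := pos_of_perc hc o (p := ⟨p', a, b.le.trans (pc G).2.2⟩) c
    exact absurd (show (pc G : ℝ) ≤ p' from (sInf_le this : pc G ≤ _)) (not_le.2 b)

end Vale.Agent.P151
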