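import Vale.Agent.P151.Steer

/-! Local estimates: boosting, exit from strips. -/

namespace Vale.Agent.P151

open scoped Classical

variable {V : Type*} {G : SimpleGraph V}

section LF
variable {p : ℝ} (h0 : 0 ≤ p) (h1 : p ≤ 1) {L Q Q1 Q2 : Finset V} {T T1 T2 : Set V}
include h0 h1

lemma LF_nonneg : 0 ≤ LF G p L Q T := Ex_ind_nonneg (par_const h0 h1) _

lemma LF_le_one : LF G p L Q T ≤ 1 := Ex_ind_le_one (par_const h0 h1) _

lemma LF_mul_le (h : ∀ ω : Set (Sym2 V), ω ⊆ G.edgeSet → ∀ v ∈ T, v ∈ cl (ω ∩ ins (Q : Set V)) L →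
      (∃ w ∈ T1, w ∈ cl (ω ∩ ins (Q1 : Set V)) L) ∨ ∃ w ∈ T2, w ∈ cl (ω ∩ ins (Q2 : Set V)) L) :
    LF G p L Q1 T1 * LF G p L Q2 T2 ≤ LF G p L Q T := by
  have hF := edgesIn_subset (G := G) (Q ∪ (Q1 ∪ Q2))
  rw [← LF_eq p L Q T hF (edgesIn_mono Finset.subset_union_left),
    ← LF_eq p L Q1 T1 hF (edgesIn_mono (Finset.subset_union_left.trans Finset.subset_union_right)),
    ← LF_eq p L Q2 T2 hF (edgesIn_mono (Finset.subset_union_right.trans Finset.subset_union_right))]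
  have anti : ∀ (R : Finset V) (U : Set V), Antitone fun ω : Set (Sym2 V) =>
      ind (Disjoint U (cl (ω ∩ ins (R : Set V)) L)) := fun R U a b hab =>
    ind_mono fun h => h.mono_right (cl_mono (Set.inter_subset_inter_left _ hab) subset_rfl)
  refine (harris_anti (par_const h0 h1) _ (anti _ _) (anti _ _)).trans
    (Ex_mono (par_const h0 h1) fun ω hω => ?_)
  rw [← ind_and]
  refine ind_mono fun ⟨a, b⟩ => Set.disjoint_left.2 fun v hv hc => ?_
  rcases h ω (hω.trans hF) v hv hc with ⟨w, hw, hc⟩ | ⟨w, hw, hc⟩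
  · exact Set.disjoint_left.1 a hw hc
  · exact Set.disjoint_left.1 b hw hc

lemma LF_le_of (h : ∀ ω : Set (Sym2 V), ω ⊆ G.edgeSet → ∀ v ∈ T, v ∈ cl (ω ∩ ins (Q : Set V)) L →
      ∃ w ∈ T1, w ∈ cl (ω ∩ ins (Q1 : Set V)) L) : LF G p L Q1 T1 ≤ LF G p L Q T := by
  have := LF_mul_le h0 h1 (G := G) (L := L) (Q := Q) (Q1 := Q1) (Q2 := ∅) (T := T) (T1 := T1)
    (T2 := ∅) fun ω hω v hv hc => Or.inl (h ω hω v hv hc)
  have e : LF G p L ∅ ∅ = 1 := by
    unfold LF; rw [← Ex_const (fun _ => p) (edgesIn G ∅) 1]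
    exact Ex_congr fun _ _ => ind_pos (by simp)
  rwa [e, mul_one] at this

omit h0 h1 in
lemma mem_of_cl {ω : Set (Sym2 V)} {S : Set V} (hL : (L : Set V) ⊆ S) (hQ : (Q : Set V) ⊆ S)
    {v : V} (h : v ∈ cl (ω ∩ ins (Q : Set V)) L) : v ∈ S := by
  obtain ⟨a, ha, hc⟩ := h
  rcases conn_ins_cases hc with h | h
  · exact h ▸ hL ha
  · exact hQ h

lemma LF_restr {S : Set V} (hL : (L : Set V) ⊆ S) (hQ : (Q : Set V) ⊆ S)
    (h : ∀ v ∈ S, v ∈ T → v ∈ T1) : LF G p L Q T1 ≤ LF G p L Q T :=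
  LF_le_of h0 h1 fun _ _ v hv hc => ⟨v, h v (mem_of_cl hL hQ hc) hv, hc⟩

lemma LF_eq_one {S : Set V} (hL : (L : Set V) ⊆ S) (hQ : (Q : Set V) ⊆ S)
    (h : ∀ v ∈ S, v ∉ T) : 1 ≤ LF G p L Q T := by
  have := LF_restr h0 h1 (G := G) (T := T) (T1 := ∅) hL hQ h
  refine le_trans (le_of_eq ?_) this
  unfold LF; rw [← Ex_const (fun _ => p) (edgesIn G Q) 1]
  exact Ex_congr fun _ _ => (ind_pos (by simp)).symm

lemma LF_res {S : Set V} {c : ℝ} (hT : LF G p L Q T ≤ c) (hL : (L : Set V) ⊆ S)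
    (hQ : (Q : Set V) ⊆ S) (h : ∀ v ∈ S, v ∈ T → v ∈ T1) : LF G p L Q T1 ≤ c :=
  (LF_restr h0 h1 hL hQ h).trans hT

lemma LF_split {c : ℝ} (hc : 0 ≤ c) (hT : LF G p L Q T ≤ c ^ 2) (h : ∀ v ∈ T, v ∈ T1 ∨ v ∈ T2) :
    LF G p L Q T1 ≤ c ∨ LF G p L Q T2 ≤ c := by
  have := LF_mul_le h0 h1 (G := G) (L := L) (Q := Q) (Q1 := Q) (Q2 := Q) (T := T) (T1 := T1)
    (T2 := T2) fun ω _ v hv hc => (h v hv).imp (fun h => ⟨v, h, hc⟩) (fun h => ⟨v, h, hc⟩)
  by_contra hn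
  push Not at hn
  nlinarith [mul_lt_mul'' hn.1 hn.2 hc hc]

omit h0 h1 in
lemma path_exit {f : V → ℝ} (hf : ∀ a b, G.Adj a b → f b ≤ f a + 1) {c : ℝ}
    (hL : ∀ v ∈ L, f v ≤ c) {ω : Set (Sym2 V)} (hω : ω ⊆ G.edgeSet) {v : V}
    (h : v ∈ cl (ω ∩ ins (Q : Set V)) L) :
    (f v ≤ c ∧ v ∈ cl (ω ∩ ins ((Q.filter fun v => f v ≤ c : Finset V) : Set V)) L) ∨
      ∃ w ∈ {w | c < f w},
        w ∈ cl (ω ∩ ins ((Q.filter fun v => f v ≤ c + 1 : Finset V) : Set V)) L := by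
  obtain ⟨a, ha, hc⟩ := h
  induction hc with
  | refl => exact Or.inl ⟨hL a ha, subset_cl _ _ ha⟩
  | tail _ h2 ih =>
    rename_i x y _
    rcases ih with ⟨i1, i2⟩ | ih
    · obtain ⟨e1, e2⟩ := h2
      rw [mem_ins_mk] at e2
      by_cases hy : f y ≤ c
      · exact Or.inl ⟨hy, cl_step i2 ⟨e1, mem_ins_mk.2
          ⟨Finset.mem_filter.2 ⟨e2.1, i1⟩, Finset.mem_filter.2 ⟨e2.2, hy⟩⟩⟩⟩
      · refine Or.inr ⟨y, not_le.1 hy, cl_step (cl_mono (Set.inter_subset_inter_right _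
          (ins_mono fun z hz => ?_)) subset_rfl i2) ⟨e1, mem_ins_mk.2
          ⟨Finset.mem_filter.2 ⟨e2.1, by linarith⟩,
            Finset.mem_filter.2 ⟨e2.2, by linarith [hf _ _ (hω e1)]⟩⟩⟩⟩
        obtain ⟨z1, z2⟩ := Finset.mem_filter.1 hz
        exact Finset.mem_filter.2 ⟨z1, by linarith⟩
    · exact Or.inr ih

lemma LF_exit {f : V → ℝ} (hf : ∀ a b, G.Adj a b → f b ≤ f a + 1) {c : ℝ}
    (hL : ∀ v ∈ L, f v ≤ c) :
    LF G p L (Q.filter fun v => f v ≤ c) T * LF G p L (Q.filter fun v => f v ≤ c + 1)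
      {w | c < f w} ≤ LF G p L Q T :=
  LF_mul_le h0 h1 fun _ hω v hv hc => (path_exit hf hL hω hc).imp (fun h => ⟨v, hv, h.2⟩) id

lemma LF_exit' {f : V → ℝ} (hf : ∀ a b, G.Adj a b → f b ≤ f a + 1) {c : ℝ}
    (hL : ∀ v ∈ L, f v ≤ c) :
    LF G p L (Q.filter fun v => f v ≤ c + 1) {w | c < f w} ≤ LF G p L Q {w | c < f w} :=
  LF_le_of h0 h1 fun _ hω _ hv hc =>
    (path_exit hf hL hω hc).resolve_left fun h => absurd h.1 (not_le.2 hv)

end LF

variable [G.LocallyFinite]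

/-- `ball m o` reaches every distance with failure probability at most `δ` -/
def Perc (G : SimpleGraph V) [G.LocallyFinite] (p : ℝ) (o : V) (m : ℕ) (δ : ℝ) : Prop :=
  ∀ N, ∃ D, LF G p (ball G m o) (ball G D o) (ball G N o : Set V)ᶜ ≤ δ

lemma boost_step {p : ℝ} (h0 : 0 ≤ p) (h1 : p ≤ 1) (o : V) (m N N' D : ℕ) (hN : N + 1 ≤ D)
    (hN' : N ≤ N') :
    1 - LF G p (ball G m o) (ball G D o) (ball G N' o : Set V)ᶜ ≤
      (1 - LF G p (ball G m o) (ball G (N + 1) o) (ball G N o : Set V)ᶜ) *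
        (1 - LF G p (ball G (m + N + 1) o) (ball G D o) (ball G N' o : Set V)ᶜ) := by
  have hq : Par (fun _ : Sym2 V => p) := par_const h0 h1
  have hF := edgesIn_subset (G := G) (ball G D o)
  rw [← LF_eq p _ (ball G (N + 1) o) _ hF (edgesIn_mono (ball_mono hN)), ← Ex_ind_not]
  unfold LF
  rw [← Ex_ind_not, ← Ex_ind_not]
  set R := ins (ball G (N + 1) o : Set V) with hR
  have hRi : R ⊆ ins (ball G (m + N + 1) o : Set V) := ins_mono (ball_mono (by omega))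
  have e : ∀ s : Set (Sym2 V), cl s (ball G (m + N + 1) o) = cl (s \ R) (ball G (m + N + 1) o) := by
    intro s
    refine Set.Subset.antisymm ?_ (cl_mono Set.sdiff_subset subset_rfl)
    rintro v ⟨a, ha, hc⟩
    exact conn_union_base hRi ha (hc.mono (by
      intro e he; by_cases h : e ∈ R
      · exact Or.inr h
      · exact Or.inl ⟨he, h⟩))
  rw [← Ex_indep _ _ R _ _ (fun s => by rw [Set.inter_assoc, Set.inter_self])
    (fun s => by rw [← e])]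
  refine Ex_mono hq fun s hs => ?_
  rw [← ind_and]
  refine ind_mono fun h => ⟨fun h' => h ?_, fun h' => h ?_⟩
  · rw [Set.disjoint_left] at h' ⊢
    rintro v hv ⟨a, ha, hc⟩
    obtain ⟨w, hw, hcw⟩ := conn_exit (S := ball G N o) hc (fun h => hv (ball_mono hN' h))
    refine h' hw ⟨a, ha, hcw.mono fun e he => ⟨he.1, ?_⟩⟩
    induction e using Sym2.ind with
    | _ x y =>
      have hadj : G.Adj x y := hF (hs he.1)
      rcases mem_touch_mk.1 he.2 with h | h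
      · exact mem_ins_mk.2 ⟨ball_mono (by omega) h, ball_adj h hadj⟩
      · exact mem_ins_mk.2 ⟨ball_adj h hadj.symm, ball_mono (by omega) h⟩
  · exact h'.mono_right (cl_mono subset_rfl (ball_mono (by omega)))

lemma boost {p : ℝ} (h0 : 0 ≤ p) (h1 : p ≤ 1) {o : V} {m0 : ℕ} {θ : ℝ} (hθ : θ < 1)
    (h : Perc G p o m0 θ) {δ : ℝ} (hδ : 0 < δ) : ∃ m, Perc G p o m δ := by
  by_contra hn
  simp only [Perc, not_exists, not_forall, not_le] at hn
  have hδ1 : δ ≤ 1 := by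
    obtain ⟨N, hN⟩ := hn 0
    exact (hN 0).le.trans (LF_le_one h0 h1)
  have key : ∀ k : ℕ, ∃ N, ∀ D,
      1 - LF G p (ball G m0 o) (ball G D o) (ball G N o : Set V)ᶜ ≤ (1 - δ) ^ k := by
    intro k
    induction k with
    | zero => exact ⟨0, fun D => by linarith [LF_nonneg h0 h1 (G := G) (L := ball G m0 o) (Q := ball G D o) (T := (ball G 0 o : Set V)ᶜ)]⟩
    | succ k ih =>
      obtain ⟨N, hN⟩ := ih
      obtain ⟨N', hN'⟩ := hn (m0 + N + 1)
      refine ⟨N + N', fun D => ?_⟩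
      have a1 := boost_step (G := G) h0 h1 o m0 N (N + N') (D + N + 1) (by omega) (by omega)
      have a2 : LF G p (ball G m0 o) (ball G (D + N + 1) o) (ball G (N + N') o : Set V)ᶜ ≤
          LF G p (ball G m0 o) (ball G D o) (ball G (N + N') o : Set V)ᶜ :=
        LF_mono h0 h1 subset_rfl (ball_mono (by omega)) subset_rfl
      have a3 : LF G p (ball G (m0 + N + 1) o) (ball G (D + N + 1) o) (ball G N' o : Set V)ᶜ ≤
          LF G p (ball G (m0 + N + 1) o) (ball G (D + N + 1) o) (ball G (N + N') o : Set V)ᶜ :=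
        LF_mono h0 h1 subset_rfl subset_rfl (Set.compl_subset_compl.2 (ball_mono (by omega)))
      have a4 := hN' (D + N + 1)
      have a5 := hN (N + 1)
      have a6 := mul_le_mul a5 (by linarith : 1 - LF G p (ball G (m0 + N + 1) o)
        (ball G (D + N + 1) o) (ball G (N + N') o : Set V)ᶜ ≤ 1 - δ)
        (sub_nonneg.2 (LF_le_one h0 h1)) (pow_nonneg (sub_nonneg.2 hδ1) _)
      rw [pow_succ]; linarith
  obtain ⟨k, hk⟩ := exists_pow_lt_of_lt_one (sub_pos.2 hθ) (by linarith : 1 - δ < 1)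
  obtain ⟨N, hN⟩ := key k
  obtain ⟨D, hD⟩ := h N
  linarith [hN D]

lemma exists_trOK {Δ : ℕ} (hΔ : ∀ v, G.degree v ≤ Δ) {η : ℝ} (hη : 0 < η) :
    ∃ δ, 0 < δ ∧ δ ≤ η ∧ ∀ (m : ℕ) (p0 p1 : ℝ), 0 < p0 → p1 < 1 →
      ∃ r, ∀ p, p0 ≤ p → p ≤ p1 → TrOK G p δ η m r := by
  refine ⟨min η (η ^ 2 / (16 * (4 / η + 1))), by positivity, min_le_left _ _, ?_⟩
  intro m p0 p1 hp0 hp1
  obtain ⟨N, hN⟩ := exists_nat_ge (4 / η / p0 ^ (((Δ + 1) ^ (2 * m) + 1) ^ 2))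
  obtain ⟨R, hR⟩ := exists_nat_ge (4 / (η * (1 - p1) ^ (Δ * (N * (Δ + 1) ^ (4 * m)))))
  have hp1' : 0 < 1 - p1 := sub_pos.2 hp1
  have hRpos : (0 : ℝ) < R := lt_of_lt_of_le (by positivity) hR
  refine ⟨m + R, fun p a b => trOK_of hΔ (by linarith) (by linarith) (N := N) (δ' := η / 4)
    (lam := 4 / η) (by exact_mod_cast hRpos) (by positivity) (by positivity) (by positivity) ?_ ?_⟩
  · rw [div_le_iff₀ (by positivity)] at hN
    exact hN.trans (by gcongr)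
  · unfold loss
    have a1 : 1 / ((1 - p) ^ (Δ * (N * (Δ + 1) ^ (4 * m))) * R) ≤ η / 4 := by
      have : 1 / ((1 - p) ^ (Δ * (N * (Δ + 1) ^ (4 * m))) * R) ≤
          1 / ((1 - p1) ^ (Δ * (N * (Δ + 1) ^ (4 * m))) * R) := by gcongr
      refine this.trans ?_
      rw [div_le_iff₀ (by positivity)] at hR ⊢
      linarith
    have a2 : Real.exp (-(4 / η)) ≤ η / 4 := by
      rw [Real.exp_neg, inv_le_comm₀ (Real.exp_pos _) (by positivity), inv_div]
      linarith [Real.add_one_le_exp (4 / η)]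
    have a3 : (4 / η + 1) * (min η (η ^ 2 / (16 * (4 / η + 1))) / (η / 4)) ≤ η / 4 := by
      calc _ ≤ (4 / η + 1) * (η ^ 2 / (16 * (4 / η + 1)) / (η / 4)) := by
            gcongr; exact min_le_right _ _
        _ = η / 4 := by field_simp; ring
    linarith

lemma fail_eq_LF (p : ℝ) {o : V} {m : ℕ} {Q : Finset V} (hQ : ball G m o ⊆ Q)
    {F : Finset (Sym2 V)} (hF : (F : Set (Sym2 V)) ⊆ G.edgeSet) (hQF : edgesIn G Q ⊆ F)
    (T : Set V) : fail p F (edgesIn G (ball G m o)) o Q T = LF G p (ball G m o) Q T := by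
  rw [← LF_eq p _ Q T hF hQF]
  refine Ex_congr fun s _ => ind_congr ?_
  rw [Set.disjoint_left]
  constructor
  · rintro h v hv ⟨u, hu, hc⟩
    refine h ⟨v, hv, (hc.symm.mono ?_).trans ((conn_ball hu).symm.mono ?_)⟩
    · exact Set.inter_subset_inter_left _ Set.subset_union_right
    · exact fun e he => ⟨Or.inl (mem_edgesIn.2 he), ins_mono hQ he.2⟩
  · rintro h ⟨v, hv, hc⟩
    refine h hv (conn_union_base (E := edgesIn G (ball G m o)) (fun e he => (mem_edgesIn.1 he).2)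
      (self_mem_ball _ _) (hc.symm.mono ?_))
    rintro e ⟨e1 | e1, e2⟩
    · exact Or.inr e1
    · exact Or.inl ⟨e1, e2⟩

lemma exit_dense {Δ : ℕ} (hΔ : ∀ v, G.degree v ≤ Δ) {p : ℝ} (h0 : 0 < p) (h1 : p < 1) {o : V}
    {m : ℕ} {ε η : ℝ} (hη : 0 < η) (h : Perc G p o m ε) (m' : ℕ) :
    ∃ ρ, ∀ B : Set V, (∀ w, ∃ v ∈ ball G m' w, v ∈ B) →
      LF G p (ball G m o) (ball G ρ o) B ≤ ε + η := by
  obtain ⟨δ, hδ, _, hδ'⟩ := exists_trOK hΔ hη
  obtain ⟨r, hr⟩ := hδ' m' p p h0 h1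
  obtain ⟨D, hD⟩ := h (m + r)
  refine ⟨D + m + 2 * m', fun B hB => ?_⟩
  have hF := edgesIn_subset (G := G) (ball G (D + m + 2 * m') o)
  have hn : ∀ v ∈ ball G m o, v ∉ near G (ball G (m + r) o : Set V)ᶜ r :=
    fun v hv ⟨z, hz, hz'⟩ => hz (ball_trans hv (ball_symm hz'))
  have t := hr p le_rfl le_rfl (edgesIn G (ball G (D + m + 2 * m') o)) (edgesIn G (ball G m o)) o
    (D + m) (ball G (D + m) o) (ball G (D + m + 2 * m') o) (ball G (m + r) o : Set V)ᶜ B hF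
    (edgesIn_subset _) (Finset.finite_toSet _) (ball_mono (by omega)) (hn o (self_mem_ball _ _))
    (fun u hu _ => hu) (fun e he v hv => hn v ((mem_edgesIn.1 he).2 v hv)) (fun u _ h => h)
    (fun u v huv _ _ hu hv => mem_edgesIn.2 ⟨huv, mem_ins_mk.2 ⟨hu, hv⟩⟩) (by
      intro w _ _
      obtain ⟨v, hv, hvB⟩ := hB w
      refine ⟨{v}, ∅, B, by simpa, by simp, edgesIn_mono (Finset.empty_subset _), subset_rfl, ?_⟩
      refine le_trans (Ex_le_const (par_const h0.le h1.le) fun s _ => le_of_eq (ind_neg fun h => ?_))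
        hδ.le
      exact Set.disjoint_left.1 h hvB (subset_cl _ _ (by simp)))
  rw [fail_eq_LF p (ball_mono (by omega)) hF subset_rfl,
    fail_eq_LF p (ball_mono (by omega)) hF (edgesIn_mono (ball_mono (by omega)))] at t
  refine t.trans (add_le_add_left (le_trans ?_ hD) _)
  exact LF_mono h0.le h1.le subset_rfl (ball_mono (by omega)) Set.subset_union_left

end Vale.Agent.P151
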