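import Vale.Agent.P151.Link

/-! The main theorem for graphs with a rank two covariant projection. -/

namespace Vale.Agent.P151

open scoped Classical

variable {V : Type*} {G : SimpleGraph V} [G.LocallyFinite]

lemma esc_of {Γ : Set (G ≃g G)} {o : V} {x y : V → ℝ} (hx : Adm G Γ o x) (hy : Adm G Γ o y)
    {D0 D1 : ℕ} (orb : ∀ w, ∃ γ ∈ Γ, γ o ∈ ball G D0 w) {κ : ℝ} (hκ : 0 < κ)
    (h : ∀ a b : ℝ, |a| + |b| = 1 → ∃ g ∈ Γ, g o ∈ ball G D1 o ∧ κ ≤ a * x (g o) + b * y (g o)) :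
    ∃ D, ∀ a b : ℝ, |a| + |b| = 1 → ∀ w, ∃ v ∈ ball G D w,
      a * x w + b * y w + 1 ≤ a * x v + b * y v := by
  obtain ⟨n, hn⟩ := exists_nat_ge ((D0 + 1) / κ)
  rw [div_le_iff₀ hκ] at hn
  refine ⟨D0 + n * D1, fun a b hab w => ?_⟩
  obtain ⟨g, hg, g1, g2⟩ := h a b hab
  have hf := hx.comb hy hab.le
  have it : ∀ j : ℕ, ∃ z ∈ ball G (j * D1) o, j * κ ≤ a * x z + b * y z := by
    intro j
    induction j with
    | zero => exact ⟨o, self_mem_ball _ _, by simp [hx.zero, hy.zero]⟩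
    | succ j ih =>
      obtain ⟨z, hz, hz'⟩ := ih
      refine ⟨g z, ball_trans' g1 (ball_map g hz) (by rw [add_mul, one_mul, add_comm]), ?_⟩
      have := hf.cov g hg z
      push_cast; linarith
  obtain ⟨z, hz, hz'⟩ := it n
  obtain ⟨γ, hγ, hw⟩ := orb w
  refine ⟨γ z, ball_trans hw (ball_map γ hz), ?_⟩
  linarith [hf.cov γ hγ z, (ball_lip hf.lip hw).2]

theorem crit_general (hc : G.Connected) (φ : V → ℝ × ℝ) (R : Finset V)
    (hR : ∀ v, ∃ r ∈ R, ∃ γ : G ≃g G, (∃ c, ∀ w, φ (γ w) = φ w + c) ∧ γ r = v)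
    (γ1 γ2 : G ≃g G) (c1 c2 : ℝ × ℝ) (h1 : ∀ w, φ (γ1 w) = φ w + c1)
    (h2 : ∀ w, φ (γ2 w) = φ w + c2) (hdet : c1.1 * c2.2 - c1.2 * c2.1 ≠ 0) (h : pc G < 1) :
    perc G (pc G) (infCluster V) = 0 := by
  obtain ⟨o⟩ := hc.nonempty
  let Γ : Set (G ≃g G) := {γ | ∃ c, ∀ w, φ (γ w) = φ w + c}
  have hΔ : ∀ v, G.degree v ≤ R.sup fun r => G.degree r := by
    intro v
    obtain ⟨r, hr, γ, _, rfl⟩ := hR v
    rw [γ.degree_eq]
    exact Finset.le_sup (f := fun r => G.degree r) hr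
  obtain ⟨C, hC⟩ : ∃ C : ℝ, C = 1 + ∑ r ∈ R, ∑ w ∈ G.neighborFinset r, ‖φ w - φ r‖ := ⟨_, rfl⟩
  have C0 : 0 < C := by rw [hC]; positivity
  have lip : ∀ a b, G.Adj a b → ‖φ b - φ a‖ ≤ C := by
    intro a b hab
    obtain ⟨r, hr, γ, ⟨c, hγ⟩, rfl⟩ := hR a
    obtain ⟨w, rfl⟩ := γ.surjective b
    rw [hγ, hγ, add_sub_add_right_eq_sub, hC]
    have a1 := Finset.single_le_sum (f := fun w => ‖φ w - φ r‖) (fun _ _ => norm_nonneg _)
      ((G.mem_neighborFinset r w).2 (γ.map_adj_iff.1 hab))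
    have a2 := Finset.single_le_sum (f := fun r => ∑ w ∈ G.neighborFinset r, ‖φ w - φ r‖)
      (fun _ _ => Finset.sum_nonneg fun _ _ => norm_nonneg _) hr
    linarith
  have hx : Adm G Γ o fun v => ((φ v).1 - (φ o).1) / C := by
    refine ⟨fun a b hab => ?_, fun γ ⟨c, hγ⟩ v => by simp only [hγ, Prod.fst_add]; ring, by simp⟩
    have := (le_abs_self _).trans ((norm_fst_le (φ b - φ a)).trans (lip a b hab))
    rw [div_add_one C0.ne', div_le_div_iff_of_pos_right C0]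
    simp only [Prod.fst_sub] at this; linarith
  have hy : Adm G Γ o fun v => ((φ v).2 - (φ o).2) / C := by
    refine ⟨fun a b hab => ?_, fun γ ⟨c, hγ⟩ v => by simp only [hγ, Prod.snd_add]; ring, by simp⟩
    have := (le_abs_self _).trans ((norm_snd_le (φ b - φ a)).trans (lip a b hab))
    rw [div_add_one C0.ne', div_le_div_iff_of_pos_right C0]
    simp only [Prod.snd_sub] at this; linarith
  choose k hk using fun u v => exists_ball_of_reachable (hc u v)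
  have orb : ∀ w, ∃ γ ∈ Γ, γ o ∈ ball G (R.sup fun r => k r o) w := by
    intro w
    obtain ⟨r, hr, γ, hγ, rfl⟩ := hR w
    exact ⟨γ, hγ, ball_mono (Finset.le_sup (f := fun r => k r o) hr) (ball_map γ (hk r o))⟩
  obtain ⟨S, hS⟩ : ∃ S, S = 1 + |c1.1| + |c1.2| + |c2.1| + |c2.2| := ⟨_, rfl⟩
  have S0 : 0 < S := by rw [hS]; positivity
  have d0 := abs_pos.2 hdet
  have gen : ∀ (γ : G ≃g G) (c : ℝ × ℝ), (∀ w, φ (γ w) = φ w + c) → ∀ D1, k o (γ o) ≤ D1 →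
      ∀ a b κ : ℝ, κ ≤ |a * c.1 + b * c.2| → ∃ g ∈ Γ, g o ∈ ball G D1 o ∧
        κ / C ≤ a * (((φ (g o)).1 - (φ o).1) / C) + b * (((φ (g o)).2 - (φ o).2) / C) := by
    intro γ c hγ D1 hD a b κ hκ
    rcases le_abs.1 hκ with hκ | hκ
    · refine ⟨γ, ⟨c, hγ⟩, ball_mono hD (hk _ _), ?_⟩
      rw [hγ, ← mul_div_assoc, ← mul_div_assoc, ← add_div, div_le_div_iff_of_pos_right C0]
      simpa using hκ
    · have e : ∀ w, φ (γ.symm w) = φ w + -c := fun w => by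
        have := hγ (γ.symm w)
        rw [RelIso.apply_symm_apply] at this
        rw [this]; simp
      refine ⟨γ.symm, ⟨-c, e⟩, ball_mono hD ?_, ?_⟩
      · simpa using ball_map γ.symm (ball_symm (hk o (γ o)))
      · rw [e, ← mul_div_assoc, ← mul_div_assoc, ← add_div, div_le_div_iff_of_pos_right C0]
        simp only [Prod.fst_add, Prod.snd_add, Prod.fst_neg, Prod.snd_neg]
        linarith
  obtain ⟨D, esc⟩ := esc_of hx hy orb (D1 := k o (γ1 o) + k o (γ2 o))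
    (κ := |c1.1 * c2.2 - c1.2 * c2.1| / S / C) (by positivity) (by
      intro a b hab
      by_cases a1 : |c1.1 * c2.2 - c1.2 * c2.1| / S ≤ |a * c1.1 + b * c1.2|
      · exact gen γ1 c1 h1 _ (by omega) a b _ a1
      by_cases a2 : |c1.1 * c2.2 - c1.2 * c2.1| / S ≤ |a * c2.1 + b * c2.2|
      · exact gen γ2 c2 h2 _ (by omega) a b _ a2
      exfalso
      obtain ⟨κ, hκ⟩ : ∃ κ, κ = |c1.1 * c2.2 - c1.2 * c2.1| / S := ⟨_, rfl⟩
      have k0 : 0 < κ := by rw [hκ]; positivity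
      have k1 : κ * S = |c1.1 * c2.2 - c1.2 * c2.1| := by rw [hκ]; field_simp
      rw [← hκ, not_le] at a1 a2
      have e1 : |a| * |c1.1 * c2.2 - c1.2 * c2.1| ≤ κ * |c2.2| + κ * |c1.2| := by
        rw [← abs_mul, show a * (c1.1 * c2.2 - c1.2 * c2.1) =
          (a * c1.1 + b * c1.2) * c2.2 - (a * c2.1 + b * c2.2) * c1.2 by ring]
        refine (abs_sub _ _).trans ?_
        rw [abs_mul, abs_mul]; gcongr
      have e2 : |b| * |c1.1 * c2.2 - c1.2 * c2.1| ≤ κ * |c1.1| + κ * |c2.1| := by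
        rw [← abs_mul, show b * (c1.1 * c2.2 - c1.2 * c2.1) =
          (a * c2.1 + b * c2.2) * c1.1 - (a * c1.1 + b * c1.2) * c2.1 by ring]
        refine (abs_sub _ _).trans ?_
        rw [abs_mul, abs_mul]; gcongr
      have e3 : (|a| + |b|) * |c1.1 * c2.2 - c1.2 * c2.1| = κ * S := by rw [hab, k1, one_mul]
      rw [hS] at e3
      linarith)
  exact crit_of_core hc o (fun p p0 p1 m0 θ hθ hp => core hΔ hx hy orb esc p0 p1 hθ hp) h

end Vale.Agent.P151
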