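import Vale.Agent.P151.Transfer

/-! Steering a connection along a tube. -/

namespace Vale.Agent.P151

open scoped Classical

variable {V : Type*}

/-- probability that `o` is not joined to `T` inside `S`, with base configuration `ξ` -/
noncomputable def fail (p : ℝ) (F : Finset (Sym2 V)) (ξ : Set (Sym2 V)) (o : V) (S T : Set V) :
    ℝ := Ex (fun _ => p) F (fun ω => ind (o ∉ cl ((ξ ∪ ω) ∩ ins S) T))

lemma fail_mono {p : ℝ} (h0 : 0 ≤ p) (h1 : p ≤ 1) {F : Finset (Sym2 V)} {ξ : Set (Sym2 V)}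
    {o : V} {S S' T T' : Set V} (hS : S ⊆ S') (hT : T ⊆ T') :
    fail p F ξ o S' T' ≤ fail p F ξ o S T :=
  Ex_mono (par_const h0 h1) fun _ _ => ind_mono fun h h' =>
    h (cl_mono (Set.inter_subset_inter_right _ (ins_mono hS)) hT h')

variable (G : SimpleGraph V) [G.LocallyFinite]

/-- the transfer property -/
def TrOK (p δ η : ℝ) (m r : ℕ) : Prop :=
  ∀ (F : Finset (Sym2 V)) (ξ : Set (Sym2 V)) (o : V) (D : ℕ) (S S' T B : Set V),
    (F : Set (Sym2 V)) ⊆ G.edgeSet → ξ ⊆ G.edgeSet → ξ.Finite → S ⊆ S' →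
    o ∉ near G T r → (∀ u ∈ S, u ∈ near G T r → u ∈ ball G D o) →
    (∀ e ∈ ξ, ∀ v ∈ e, v ∉ near G T r) →
    (∀ u ∈ near G T r, u ∈ ball G (D + 2 * m) o → u ∈ S') →
    (∀ u v, G.Adj u v → u ∈ near G T r → v ∈ near G T r →
      u ∈ ball G (D + 2 * m) o → v ∈ ball G (D + 2 * m) o → s(u, v) ∈ F) →
    (∀ w ∈ near G T r, w ∈ ball G (D + m) o → ∃ (L Q : Finset V) (B' : Set V),
      L ⊆ ball G m w ∧ (Q : Set V) ⊆ S' ∧ edgesIn G Q ⊆ F ∧ B' ⊆ B ∧ LF G p L Q B' ≤ δ) →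
    fail p F ξ o S' B ≤ fail p F ξ o S (T ∪ B) + η

/-- target of the move that raises `α` and lowers `β` -/
def mv (α β : V → ℝ) (ν : ℝ) (w : V) : Set V :=
  {v | α w + 26 * ν ≤ α v ∧ α v ≤ α w + 142 * ν ∧ β v + 26 * ν ≤ β w ∧ β w ≤ β v + 142 * ν ∧
    α w + β w + 10 * ν ≤ α v + β v ∧ α v + β v ≤ α w + β w + 38 * ν}

/-- rectangle in the coordinates -/
def rect (α β : V → ℝ) (a b c d : ℝ) : Set V := {v | a ≤ α v ∧ α v ≤ b ∧ c ≤ β v ∧ β v ≤ d}

/-- a move is available from every vertex -/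
def Move (α β : V → ℝ) (p ν δ : ℝ) (m ρ : ℕ) (T : V → Set V) : Prop :=
  ∀ w, ∃ L Q : Finset V, L ⊆ ball G m w ∧ Q ⊆ ball G ρ w ∧
    (Q : Set V) ⊆ rect α β (α w - 142 * ν) (α w + 142 * ν) (β w - 142 * ν) (β w + 142 * ν) ∧
    LF G p L Q (T w) ≤ δ

/-- local data -/
structure Loc (α β : V → ℝ) (p ν δ : ℝ) (m ρ : ℕ) : Prop where
  lipa : ∀ a b, G.Adj a b → α b ≤ α a + 1
  lipb : ∀ a b, G.Adj a b → β b ≤ β a + 1
  dn : Move G α β p ν δ m ρ (mv α β ν)
  up : Move G α β p ν δ m ρ (mv β α ν)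

variable {G}

lemma rect_swap (α β : V → ℝ) (a b c d : ℝ) : rect β α c d a b = rect α β a b c d := by
  ext v; simp only [rect, Set.mem_ofPred_eq]; tauto

lemma Move.swap {α β : V → ℝ} {p ν δ : ℝ} {m ρ : ℕ} {T : V → Set V}
    (h : Move G α β p ν δ m ρ T) : Move G β α p ν δ m ρ T := by
  intro w
  obtain ⟨L, Q, h1, h2, h3, h4⟩ := h w
  exact ⟨L, Q, h1, h2, by rwa [rect_swap], h4⟩

lemma Loc.swap {α β : V → ℝ} {p ν δ : ℝ} {m ρ : ℕ} (h : Loc G α β p ν δ m ρ) :
    Loc G β α p ν δ m ρ := ⟨h.lipb, h.lipa, h.up.swap, h.dn.swap⟩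

lemma trOK_of {Δ : ℕ} (hΔ : ∀ v, G.degree v ≤ Δ) {p : ℝ} (h0 : 0 ≤ p) (h1 : p < 1) {m R N : ℕ}
    {δ' δ lam η : ℝ} (hR : 0 < R) (hδ' : 0 < δ') (hδ : 0 ≤ δ) (hlam : 0 ≤ lam)
    (hN : lam ≤ N * p ^ (((Δ + 1) ^ (2 * m) + 1) ^ 2)) (hη : loss p δ' δ lam Δ m N R ≤ η) :
    TrOK G p δ η m (m + R) := by
  intro F ξ o D S S' T B a1 a2 a3 a4 a5 a6 a7 a8 a9 a10
  exact (transfer hΔ h0 h1 a1 a2 a3 hR hδ' hδ hlam hN a4 a5 a6 a7 a8 a9 a10).trans
    (add_le_add_right hη _)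

/-- the moving target -/
def tgt (α β : V → ℝ) (ν Y h c lo hi : ℝ) : Set V :=
  {v | β v ≤ Y + h ∧ Y ≤ β v + h ∧
    ((β v ≤ Y + 144 * ν ∧ Y ≤ β v + 144 * ν) ∨
      (2 * (β v - Y) + (α v + β v) ≤ c ∧ 2 * (Y - β v) + (α v + β v) ≤ c)) ∧
    lo ≤ α v + β v ∧ α v + β v ≤ hi}

theorem steer {p ν δ η : ℝ} {m ρ r : ℕ} (h0 : 0 ≤ p) (h1 : p ≤ 1) {α β : V → ℝ}
    (hL : Loc G α β p ν δ m ρ) (hT : TrOK G p δ η m r) (hr : (r : ℝ) ≤ ν)
    {F : Finset (Sym2 V)} (hF : (F : Set (Sym2 V)) ⊆ G.edgeSet) {ξ : Set (Sym2 V)}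
    (hξE : ξ ⊆ G.edgeSet) (hξf : ξ.Finite) {o : V} (S : ℕ → Set V) (D k : ℕ)
    {Y h lo hi Φ : ℝ} {A X M : Set V} (hh : 144 * ν ≤ h) (hΦ : 2 * h + hi ≤ Φ + 288 * ν)
    (hk : Φ < lo + 8 * ν * k)
    (hA : rect α β (lo - Y - h - 144 * ν) (Φ - Y + h + 144 * ν) (Y - h - 144 * ν)
      (Y + h + 144 * ν) ⊆ A)
    (hX : ∀ v ∈ X, β v ≤ Y + h ∧ Y ≤ β v + h ∧ lo ≤ α v + β v ∧ α v + β v ≤ hi)
    (hM : ∀ v, β v ≤ Y + 144 * ν → Y ≤ β v + 144 * ν → Φ ≤ α v + β v →
      α v + β v ≤ Φ + 40 * ν → v ∈ M)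
    (hmono : Monotone S) (hin : ∀ D', D ≤ D' → ∀ u ∈ S D', u ∈ A → u ∈ ball G D' o)
    (hout : ∀ D', ∀ u ∈ A, u ∈ ball G D' o → u ∈ S D')
    (hfresh : ∀ u v, G.Adj u v → u ∈ A → v ∈ A → u ∈ ball G (D + k * (ρ + 2 * m)) o →
      v ∈ ball G (D + k * (ρ + 2 * m)) o → s(u, v) ∈ F)
    (hξ : ∀ e ∈ ξ, ∀ v ∈ e, v ∈ A → α v + β v < lo - 2 * ν)
    (ho : o ∈ A → α o + β o < lo - 2 * ν) :
    fail p F ξ o (S (D + k * (ρ + 2 * m))) M ≤ fail p F ξ o (S D) X + k * η := by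
  have hν : 0 ≤ ν := le_trans (Nat.cast_nonneg r) hr
  set T : ℕ → Set V := fun i => tgt α β ν Y h (2 * h + hi) (lo + 8 * ν * i) Φ with hTd
  have hnear : ∀ (i : ℕ) (w : V), w ∈ near G (T i) r → ∃ z ∈ T i,
      α w ≤ α z + ν ∧ α z ≤ α w + ν ∧ β w ≤ β z + ν ∧ β z ≤ β w + ν := by
    rintro i w ⟨z, hz, hw⟩
    have a := ball_lip hL.lipa hw
    have b := ball_lip hL.lipb hw
    exact ⟨z, hz, by linarith [a.1], by linarith [a.2], by linarith [b.1], by linarith [b.2]⟩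
  have hlo : ∀ i : ℕ, lo ≤ lo + 8 * ν * i := fun i => by
    have : 0 ≤ 8 * ν * i := by positivity
    linarith
  have hnA : ∀ (i : ℕ) (w : V), w ∈ near G (T i) r → w ∈ A ∧ lo - 2 * ν ≤ α w + β w := by
    intro i w hw
    obtain ⟨z, ⟨z1, z2, _, z4, z5⟩, b1, b2, b3, b4⟩ := hnear i w hw
    have := hlo i
    exact ⟨hA ⟨by linarith, by linarith, by linarith, by linarith⟩, by linarith⟩
  have key : ∀ i ≤ k, fail p F ξ o (S (D + i * (ρ + 2 * m))) (T i ∪ M) ≤
      fail p F ξ o (S D) (T 0 ∪ M) + i * η := by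
    intro i
    induction i with
    | zero => intro _; simp
    | succ i ih =>
      intro hi'
      have e1 : D + (i + 1) * (ρ + 2 * m) = D + i * (ρ + 2 * m) + (ρ + 2 * m) := by ring
      have e2 : D + (i + 1) * (ρ + 2 * m) ≤ D + k * (ρ + 2 * m) := by gcongr
      have t := hT F ξ o (D + i * (ρ + 2 * m)) (S (D + i * (ρ + 2 * m)))
        (S (D + (i + 1) * (ρ + 2 * m))) (T i) (T (i + 1) ∪ M) hF hξE hξf (hmono (by omega))
        (fun h => by have := hnA i o h; linarith [ho this.1, this.2])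
        (fun u hu h => hin _ (by omega) u hu (hnA i u h).1)
        (fun e he v hv h => by have := hnA i v h; linarith [hξ e he v hv this.1, this.2])
        (fun u hu h => hout _ u (hnA i u hu).1 (ball_mono (by omega) h))
        (fun u v huv hu hv h h' => hfresh u v huv (hnA i u hu).1 (hnA i v hv).1
          (ball_mono (by omega) h) (ball_mono (by omega) h')) (by
          intro w hw hwb
          obtain ⟨z, ⟨z1, z2, z3, z4, z5⟩, b1, b2, b3, b4⟩ := hnear i w hw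
          have hlo' := hlo i
          have gen : ∀ T' : V → Set V, Move G α β p ν δ m ρ T' → T' w ⊆ T (i + 1) ∪ M →
              ∃ (L Q : Finset V) (B' : Set V), L ⊆ ball G m w ∧
                (Q : Set V) ⊆ S (D + (i + 1) * (ρ + 2 * m)) ∧ edgesIn G Q ⊆ F ∧
                B' ⊆ T (i + 1) ∪ M ∧ LF G p L Q B' ≤ δ := by
            intro T' hm hs
            obtain ⟨L, Q, q1, q2, q3, q4⟩ := hm w
            have hQA : ∀ v ∈ Q, v ∈ A ∧ v ∈ ball G (D + (i + 1) * (ρ + 2 * m)) o := by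
              intro v hv
              obtain ⟨c1, c2, c3, c4⟩ := q3 hv
              exact ⟨hA ⟨by linarith, by linarith, by linarith, by linarith⟩,
                ball_trans' hwb (q2 hv) (by omega)⟩
            refine ⟨L, Q, T' w, q1, fun v hv => hout _ v (hQA v hv).1 (hQA v hv).2, ?_, hs, q4⟩
            intro e he
            induction e using Sym2.ind with
            | _ x y =>
              obtain ⟨d1, d2⟩ := mem_edgesIn.1 he
              rw [mem_ins_mk] at d2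
              exact hfresh x y d1 (hQA x d2.1).1 (hQA y d2.2).1 (ball_mono e2 (hQA x d2.1).2)
                (ball_mono e2 (hQA y d2.2).2)
          have fin : ∀ v, β v ≤ Y + h → Y ≤ β v + h →
              ((β v ≤ Y + 144 * ν ∧ Y ≤ β v + 144 * ν) ∨
                (2 * (β v - Y) + (α v + β v) ≤ 2 * h + hi ∧
                  2 * (Y - β v) + (α v + β v) ≤ 2 * h + hi)) →
              α z + β z + 8 * ν ≤ α v + β v → α v + β v ≤ α z + β z + 40 * ν →
              v ∈ T (i + 1) ∪ M := by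
            intro v c1 c2 c3 c4 c5
            by_cases hv : α v + β v ≤ Φ
            · left
              refine ⟨c1, c2, c3, ?_, hv⟩
              push_cast; linarith
            · right
              rcases c3 with c3 | c3
              · exact hM v c3.1 c3.2 (by linarith) (by linarith)
              · exact hM v (by linarith [c3.1]) (by linarith [c3.2]) (by linarith) (by linarith)
          by_cases hz : Y ≤ β z
          · refine gen _ hL.dn ?_
            rintro v ⟨c1, c2, c3, c4, c5, c6⟩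
            refine fin v (by linarith) (by linarith) ?_ (by linarith) (by linarith)
            rcases z3 with z3 | z3
            · exact Or.inl ⟨by linarith [z3.1], by linarith⟩
            · by_cases hv : β v ≤ Y
              · exact Or.inl ⟨by linarith, by linarith⟩
              · exact Or.inr ⟨by linarith [z3.1], by linarith [z3.1]⟩
          · refine gen _ hL.up ?_
            rintro v ⟨c1, c2, c3, c4, c5, c6⟩
            refine fin v (by linarith) (by linarith) ?_ (by linarith) (by linarith)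
            rcases z3 with z3 | z3
            · exact Or.inl ⟨by linarith, by linarith [z3.2]⟩
            · by_cases hv : Y ≤ β v
              · exact Or.inl ⟨by linarith, by linarith⟩
              · exact Or.inr ⟨by linarith [z3.2], by linarith [z3.2]⟩)
      have t2 : fail p F ξ o (S (D + i * (ρ + 2 * m))) (T i ∪ (T (i + 1) ∪ M)) ≤
          fail p F ξ o (S (D + i * (ρ + 2 * m))) (T i ∪ M) :=
        fail_mono h0 h1 subset_rfl (Set.union_subset_union_right _ Set.subset_union_right)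
      have := ih (by omega)
      push_cast; linarith
  have a1 := key k le_rfl
  have a2 : fail p F ξ o (S (D + k * (ρ + 2 * m))) M ≤
      fail p F ξ o (S (D + k * (ρ + 2 * m))) (T k ∪ M) := by
    refine fail_mono h0 h1 subset_rfl (Set.union_subset ?_ subset_rfl)
    rintro v ⟨_, _, _, c4, c5⟩
    exfalso; linarith
  have a3 : fail p F ξ o (S D) (T 0 ∪ M) ≤ fail p F ξ o (S D) X := by
    refine fail_mono h0 h1 subset_rfl fun v hv => Or.inl ?_
    obtain ⟨c1, c2, c3, c4⟩ := hX v hv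
    exact ⟨c1, c2, Or.inr ⟨by linarith, by linarith⟩, by simpa using c3, by linarith⟩
  linarith

end Vale.Agent.P151
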