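import Vale.Agent.P151.Steer

/-! One step of the renormalised exploration in one direction. -/

namespace Vale.Agent.P151

open scoped Classical

variable {V : Type*} {G : SimpleGraph V} [G.LocallyFinite]

/-- conditional failure probability given the configuration inside `P` -/
noncomputable def cf (p : ℝ) (F : Finset (Sym2 V)) (E : Set (Sym2 V)) (o : V) (P S T : Set V)
    (ω : Set (Sym2 V)) : ℝ :=
  CE (fun _ => p) F (ins P) (fun s => ind (o ∉ cl ((E ∪ s) ∩ ins S) T)) ω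

lemma cf_eq_fail (p : ℝ) (F : Finset (Sym2 V)) (E : Set (Sym2 V)) (o : V) (P S T : Set V)
    (ω : Set (Sym2 V)) :
    cf p F E o P S T ω = fail p (F.filter (· ∉ ins P)) (E ∪ (ω ∩ ins P)) o S T := by
  unfold cf CE fail; simp_rw [Set.union_assoc]

omit [G.LocallyFinite] in
lemma crossing {α β : V → ℝ} (lipa : ∀ a b, G.Adj a b → α b ≤ α a + 1)
    (lipb : ∀ a b, G.Adj a b → β b ≤ β a + 1) {a1 a2 b1 b2 u2 w1 w2 f : ℝ} {Pp S M : Set V}
    {c : Set (Sym2 V)} (hc : c ⊆ G.edgeSet) {o : V} (ho : o ∉ rect α β a1 a2 b1 b2)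
    (hU : ∀ v ∈ Pp, v ∈ rect α β a1 a2 b1 b2 → α v ≤ u2 ∧ w1 ≤ β v ∧ β v ≤ w2)
    (h1 : a1 ≤ f) (h2 : u2 + 1 ≤ a2) (h3 : b1 + 1 ≤ w1) (h4 : w2 + 1 ≤ b2) (hS : S ⊆ Pp)
    (hM : ∀ v ∈ M, v ∈ rect α β a1 a2 b1 b2 ∧ f ≤ α v) (h : o ∈ cl (c ∩ ins S) M) :
    o ∈ cl (c ∩ ins (Pp \ {v | v ∈ rect α β a1 a2 b1 b2 ∧ f + 1 < α v}))
      (rect α β f (f + 1) w1 w2) := by
  obtain ⟨v, hv, hcv⟩ := h
  obtain ⟨w, hw, hcw⟩ := conn_exit (S := {v | ¬ (v ∈ rect α β a1 a2 b1 b2 ∧ f ≤ α v)}) hcv.symm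
    (fun h => h (hM v hv))
  have hw' : w ∈ rect α β a1 a2 b1 b2 ∧ f ≤ α w := not_not.1 hw
  have aux : ∀ x y, G.Adj x y → x ∈ Pp → y ∈ Pp → ¬ (x ∈ rect α β a1 a2 b1 b2 ∧ f ≤ α x) →
      s(x, y) ∈ ins (Pp \ {v | v ∈ rect α β a1 a2 b1 b2 ∧ f + 1 < α v}) := by
    intro x y hxy hx hy hn
    refine mem_ins_mk.2 ⟨⟨hx, fun h => hn ⟨h.1, by linarith [h.2]⟩⟩, ⟨hy, fun h => hn ?_⟩⟩
    obtain ⟨d1, d2, d3⟩ := hU y hy h.1
    have e1 := lipa _ _ hxy
    have e2 := lipa _ _ hxy.symm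
    have e3 := lipb _ _ hxy
    have e4 := lipb _ _ hxy.symm
    have := h.2
    exact ⟨⟨by linarith, by linarith, by linarith, by linarith⟩, by linarith⟩
  have hcw' : conn (c ∩ ins (Pp \ {v | v ∈ rect α β a1 a2 b1 b2 ∧ f + 1 < α v})) o w := by
    refine hcw.mono fun e he => ⟨he.1.1, ?_⟩
    induction e using Sym2.ind with
    | _ x y =>
      obtain ⟨⟨e1, e2⟩, e3⟩ := he
      rw [mem_ins_mk] at e2
      rcases mem_touch_mk.1 e3 with e3 | e3
      · exact aux x y (hc e1) (hS e2.1) (hS e2.2) e3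
      · rw [Sym2.eq_swap]; exact aux y x (G.adj_symm (hc e1)) (hS e2.2) (hS e2.1) e3
  rcases conn_ins_cases hcw' with h | h
  · exact absurd (h ▸ hw'.1) ho
  · obtain ⟨d1, d2, d3⟩ := hU w h.1 hw'.1
    exact ⟨w, ⟨hw'.2, not_lt.1 fun h' => h.2 ⟨hw'.1, h'⟩, d2, d3⟩, hcw'.symm⟩

theorem step {p ν δ η δ0 : ℝ} {m ρ r K k D : ℕ} (h0 : 0 ≤ p) (h1 : p ≤ 1) {α β : V → ℝ}
    (hL : Loc G α β p ν δ m ρ) (hT : TrOK G p δ η m r) (hr : (r : ℝ) ≤ ν) (hν : 1 ≤ ν)
    (hk : k = 300 + 110 * K) (hδ0 : 0 < δ0) (hδ1 : δ0 ≤ 1) (hη : k * η ≤ δ0 ^ 2)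
    (hK : (1 - δ0 ^ 2) ^ K ≤ δ0) {F : Finset (Sym2 V)} (hF : (F : Set (Sym2 V)) ⊆ G.edgeSet)
    {E : Set (Sym2 V)} (hEE : E ⊆ G.edgeSet) (hEf : E.Finite) {o : V}
    (hFb : ∀ u v, G.Adj u v → u ∈ ball G (D + k * (ρ + 2 * m) + k * (ρ + 2 * m)) o →
      v ∈ ball G (D + k * (ρ + 2 * m) + k * (ρ + 2 * m)) o → s(u, v) ∈ F)
    {a b L : ℝ} (hLd : L = (2200 + 850 * K) * ν) {P Big : Set V}
    (hP : ∀ v ∈ P, v ∉ rect α β (a - 800 * ν) (a + L + 800 * ν) (b - 800 * ν) (b + 800 * ν))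
    (hE : ∀ e ∈ E, ∀ v ∈ e,
      v ∉ rect α β (a - 800 * ν) (a + L + 800 * ν) (b - 800 * ν) (b + 800 * ν))
    (ho : o ∉ rect α β (a - 800 * ν) (a + L + 800 * ν) (b - 800 * ν) (b + 800 * ν))
    (hA : rect α β (a - 750 * ν) (a + L - 900 * ν) (b - 350 * ν) (b + 350 * ν) ⊆ Big)
    (hU : ∀ v ∈ Big, v ∈ rect α β (a + 801 * ν) (a + L + 800 * ν) (b - 800 * ν) (b + 800 * ν) →
      α v ≤ a + L - 900 * ν ∧ b - 350 * ν ≤ β v ∧ β v ≤ b + 350 * ν)
    {ω : Set (Sym2 V)} (hω : ω ⊆ F)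
    (hreach : cf p F E o P (P ∪ (Big ∩ ball G D o))
      (rect α β (a - 200 * ν) (a + 200 * ν) (b - 200 * ν) (b + 200 * ν)) ω ≤ δ0) :
    CE (fun _ => p) F (ins P) (fun s => ind (δ0 <
      cf p F E o (P ∪ (Big ∩ ball G (D + k * (ρ + 2 * m)) o))
        (P ∪ (Big ∩ ball G (D + k * (ρ + 2 * m)) o) ∪
          (rect α β (a + 801 * ν) (a + L + 500 * ν) (b - 500 * ν) (b + 500 * ν) ∩
            ball G (D + k * (ρ + 2 * m) + k * (ρ + 2 * m)) o))
        (rect α β (a + L - 200 * ν) (a + L + 200 * ν) (b - 200 * ν) (b + 200 * ν)) s)) ω ≤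
      5 * δ0 := by
  have hq : Par (fun _ : Sym2 V => p) := par_const h0 h1
  have hKν : 0 ≤ (K : ℝ) * ν := by positivity
  have hkr : (k : ℝ) = 300 + 110 * K := by rw [hk]; push_cast; ring
  set D2 := D + k * (ρ + 2 * m) with hD2
  set D3 := D2 + k * (ρ + 2 * m) with hD3
  set Pp := P ∪ (Big ∩ ball G D2 o) with hPp
  set W := rect α β (a + 801 * ν) (a + L + 500 * ν) (b - 500 * ν) (b + 500 * ν) with hW
  set My := rect α β (a + L - 200 * ν) (a + L + 200 * ν) (b - 200 * ν) (b + 200 * ν) with hMy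
  set Rp := rect α β (a + 801 * ν) (a + L + 800 * ν) (b - 800 * ν) (b + 800 * ν) with hRp
  have hRp' : Rp ⊆ rect α β (a - 800 * ν) (a + L + 800 * ν) (b - 800 * ν) (b + 800 * ν) :=
    fun v ⟨c1, c2, c3, c4⟩ => ⟨by linarith, c2, c3, c4⟩
  set f : ℕ → ℝ := fun j => a + 810 * ν + 850 * ν * j with hf
  have hfmono : ∀ {i j : ℕ}, i ≤ j → f i ≤ f j := by
    intro i j hij
    have : (i : ℝ) ≤ j := by exact_mod_cast hij
    simp only [hf]; nlinarith
  have hf0 : ∀ j, a + 810 * ν ≤ f j := fun j => by simpa [hf] using hfmono (Nat.zero_le j)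
  have hfK : f K = a + L - 1390 * ν := by simp only [hf, hLd]; ring
  set S : ℕ → Set V := fun j => Pp \ {v | v ∈ Rp ∧ f j + 1 < α v} with hS
  set face : ℕ → Set V := fun j => rect α β (f j) (f j + 1) (b - 350 * ν) (b + 350 * ν) with hface
  set H : ℕ → Set (Sym2 V) → Prop := fun j s => o ∈ cl ((E ∪ s) ∩ ins (S j)) (face j) with hH
  have hUp : ∀ v ∈ Pp, v ∈ Rp → α v ≤ a + L - 900 * ν ∧ b - 350 * ν ≤ β v ∧ β v ≤ b + 350 * ν := by
    rintro v (hv | hv) h
    · exact absurd (hRp' h) (hP v hv)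
    · exact hU v hv.1 h
  have cross : ∀ (j : ℕ) (s : Set (Sym2 V)) (S' M : Set V), s ⊆ F → S' ⊆ Pp →
      (∀ v ∈ M, v ∈ Rp ∧ f j ≤ α v) → o ∈ cl ((E ∪ s) ∩ ins S') M → H j s := by
    intro j s S' M hs hS' hM h
    exact crossing hL.lipa hL.lipb (Set.union_subset hEE (hs.trans hF)) (fun h => ho (hRp' h)) hUp
      (by linarith [hf0 j]) (by linarith) (by linarith) (by linarith) hS' hM h
  have fin : ∀ (s : Set (Sym2 V)) (Q : Set V), s ⊆ F →
      E ∪ (s ∩ ins Q) ⊆ G.edgeSet ∧ (E ∪ (s ∩ ins Q)).Finite := fun s Q hs =>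
    ⟨Set.union_subset hEE (Set.inter_subset_left.trans (hs.trans hF)),
      hEf.union (F.finite_toSet.subset (Set.inter_subset_left.trans hs))⟩
  have hFf : ∀ Q : Set V, ((F.filter (· ∉ ins Q) : Finset (Sym2 V)) : Set (Sym2 V)) ⊆ G.edgeSet :=
    fun Q e he => hF (Finset.mem_filter.1 he).1
  -- phase one
  have ph1 : CE (fun _ => p) F (ins P) (fun s => ind (¬ H K s)) ω ≤ δ0 + k * η := by
    have hAR : rect α β (a - 750 * ν) (a + L - 900 * ν) (b - 350 * ν) (b + 350 * ν) ⊆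
        rect α β (a - 800 * ν) (a + L + 800 * ν) (b - 800 * ν) (b + 800 * ν) :=
      fun v ⟨c1, c2, c3, c4⟩ => ⟨by linarith, by linarith, by linarith, by linarith⟩
    have t := steer h0 h1 hL hT hr (hFf P) (fin ω P hω).1 (fin ω P hω).2 (o := o)
      (fun D' => P ∪ (Big ∩ ball G D' o)) D k (Y := b) (h := 200 * ν) (lo := a + b - 400 * ν)
      (hi := a + b + 400 * ν) (Φ := b + f K + 144 * ν)
      (A := rect α β (a - 750 * ν) (a + L - 900 * ν) (b - 350 * ν) (b + 350 * ν))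
      (X := rect α β (a - 200 * ν) (a + 200 * ν) (b - 200 * ν) (b + 200 * ν))
      (M := {v | v ∈ Rp ∧ f K ≤ α v}) (by linarith) (by linarith [hf0 K])
      (by rw [hfK, hkr, hLd]; nlinarith)
      (fun v ⟨c1, c2, c3, c4⟩ => ⟨by linarith, by linarith, by linarith, by linarith⟩)
      (fun v ⟨c1, c2, c3, c4⟩ => ⟨by linarith, by linarith, by linarith, by linarith⟩)
      (fun v c1 c2 c3 c4 => ⟨⟨by linarith [hf0 K], by linarith, by linarith, by linarith⟩,
        by linarith⟩)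
      (fun D1 D2 h => Set.union_subset_union_right _
        (Set.inter_subset_inter_right _ (ball_mono h)))
      (by
        rintro D' _ u (hu | hu) h
        · exact absurd (hAR h) (hP u hu)
        · exact hu.2)
      (fun D' u hu h => Or.inr ⟨hA hu, h⟩)
      (fun u v huv hu _ h h' => Finset.mem_filter.2
        ⟨hFb u v huv (ball_mono (by omega) h) (ball_mono (by omega) h'),
          fun hh => hP u (mem_ins_mk.1 hh).1 (hAR hu)⟩)
      (by
        rintro e (he | he) v hv h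
        · exact absurd (hAR h) (hE e he v hv)
        · exact absurd (hAR h) (hP v (he.2 v hv)))
      (fun h => absurd (hAR h) ho)
    rw [← cf_eq_fail, ← cf_eq_fail] at t
    refine le_trans ?_ (t.trans (add_le_add_left hreach _))
    exact CE_mono hq hω fun s hs _ => ind_mono fun h h' =>
      h (cross K s Pp _ hs subset_rfl (fun v hv => hv) h')
  -- phase two
  have ph2 : ∀ j, j + 1 ≤ K → ∀ s : Set (Sym2 V), s ⊆ F →
      cf p F E o (S j) (Pp ∪ (W ∩ ball G D3 o)) My s ≤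
        CE (fun _ => p) F (ins (S j)) (fun s => ind (¬ H (j + 1) s)) s + k * η := by
    intro j hj s hs
    have e1 : f (j + 1) = f j + 850 * ν := by simp only [hf]; push_cast; ring
    have e2 := hfmono hj
    have e3 := hf0 j
    have hAR : rect α β (f j + 6 * ν) (a + L + 500 * ν) (b - 500 * ν) (b + 500 * ν) ⊆ Rp :=
      fun v ⟨c1, c2, c3, c4⟩ => ⟨by linarith, by linarith, by linarith, by linarith⟩
    have hAS : ∀ v ∈ S j,
        v ∉ rect α β (f j + 6 * ν) (a + L + 500 * ν) (b - 500 * ν) (b + 500 * ν) :=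
      fun v hv h => hv.2 ⟨hAR h, by linarith [h.1]⟩
    have t := steer h0 h1 hL hT hr (hFf (S j)) (fin s (S j) hs).1 (fin s (S j) hs).2 (o := o)
      (fun D' => Pp ∪ (W ∩ ball G D' o)) D2 k (Y := b) (h := 350 * ν)
      (lo := f (j + 1) + b - 350 * ν) (hi := f (j + 1) + b + 351 * ν) (Φ := a + L + b)
      (A := rect α β (f j + 6 * ν) (a + L + 500 * ν) (b - 500 * ν) (b + 500 * ν))
      (X := face (j + 1)) (M := My) (by linarith) (by linarith)
      (by rw [hkr]; nlinarith)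
      (fun v ⟨c1, c2, c3, c4⟩ => ⟨by linarith, by linarith, by linarith, by linarith⟩)
      (fun v ⟨c1, c2, c3, c4⟩ => ⟨by linarith, by linarith, by linarith, by linarith⟩)
      (fun v c1 c2 c3 c4 => ⟨by linarith, by linarith, by linarith, by linarith⟩)
      (fun D1 D2 h => Set.union_subset_union_right _
        (Set.inter_subset_inter_right _ (ball_mono h)))
      (by
        rintro D' hD' u ((hu | hu) | hu) h
        · exact absurd (hRp' (hAR h)) (hP u hu)
        · exact ball_mono hD' hu.2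
        · exact hu.2)
      (fun D' u ⟨c1, c2, c3, c4⟩ h => Or.inr ⟨⟨by linarith, c2, c3, c4⟩, h⟩)
      (fun u v huv hu _ h h' => Finset.mem_filter.2
        ⟨hFb u v huv h h', fun hh => hAS u (mem_ins_mk.1 hh).1 hu⟩)
      (by
        rintro e (he | he) v hv h
        · exact absurd (hRp' (hAR h)) (hE e he v hv)
        · exact absurd h (hAS v (he.2 v hv)))
      (fun h => absurd (hRp' (hAR h)) ho)
    rw [← cf_eq_fail, ← cf_eq_fail] at t
    refine t.trans (add_le_add_left ?_ _)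
    exact CE_mono hq hs fun s' _ _ => ind_mono fun h h' => h
      (cl_mono (Set.inter_subset_inter_right _
        (ins_mono (Set.sdiff_subset.trans Set.subset_union_left))) subset_rfl h')
  set Z := cf p F E o Pp (Pp ∪ (W ∩ ball G D3 o)) My with hZ
  have hδ2 : 0 ≤ 1 - δ0 ^ 2 := by nlinarith
  have back : ∀ i ≤ K, ∀ s : Set (Sym2 V), s ⊆ F →
      CE (fun _ => p) F (ins (S (K - i))) (fun s => ind (δ0 < Z s ∧ H K s)) s ≤
        2 * δ0 + (1 - δ0 ^ 2) ^ i := by
    intro i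
    induction i with
    | zero =>
      intro _ s hs
      refine le_trans (CE_mono hq hs (g := fun _ => 1) fun _ _ _ => ind_le_one _) ?_
      rw [CE_const]; linarith
    | succ i ih =>
      intro hi s hs
      obtain ⟨j, hj⟩ : ∃ j, K - (i + 1) = j := ⟨_, rfl⟩
      have hj' : K - i = j + 1 := by omega
      rw [hj]
      have ih' := ih (by omega)
      rw [hj'] at ih'
      have hpow : 0 ≤ (1 - δ0 ^ 2) ^ i := pow_nonneg hδ2 _
      by_cases hY : CE (fun _ => p) F (ins (S j)) (fun s => ind (¬ H (j + 1) s)) s ≤ δ0 ^ 2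
      · have b1 : CE (fun _ => p) F (ins (S j)) (fun s => ind (δ0 < Z s ∧ H K s)) s ≤
            CE (fun _ => p) F (ins (S j)) (fun s => (1 / δ0) * Z s) s := by
          refine CE_mono hq hs fun s' _ _ => ?_
          have : 0 ≤ Z s' := by
            simp only [hZ, cf, CE]; exact Ex_ind_nonneg hq _
          by_cases hb : δ0 < Z s' ∧ H K s'
          · rw [ind_pos hb, one_div, ← div_eq_inv_mul, le_div_iff₀ hδ0]; linarith [hb.1]
          · rw [ind_neg hb]; positivity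
        rw [CE_const_mul] at b1
        have b2 : CE (fun _ => p) F (ins (S j)) Z s =
            cf p F E o (S j) (Pp ∪ (W ∩ ball G D3 o)) My s :=
          CE_tower (ins_mono Set.sdiff_subset) _ _
        have b3 := ph2 j (by omega) s hs
        have b4 : (1 / δ0) * CE (fun _ => p) F (ins (S j)) Z s ≤ 2 * δ0 := by
          rw [one_div, ← div_eq_inv_mul, div_le_iff₀ hδ0]; nlinarith
        have := pow_nonneg hδ2 (i + 1)
        linarith
      · have hSS : S j ⊆ S (j + 1) := fun v hv =>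
          ⟨hv.1, fun h => hv.2 ⟨h.1, by linarith [h.2, hfmono (Nat.le_succ j)]⟩⟩
        rw [← CE_tower (ins_mono hSS)]
        have b1 : CE (fun _ => p) F (ins (S j)) (CE (fun _ => p) F (ins (S (j + 1)))
            (fun s => ind (δ0 < Z s ∧ H K s))) s ≤
            CE (fun _ => p) F (ins (S j))
              (fun s => (2 * δ0 + (1 - δ0 ^ 2) ^ i) * ind (H (j + 1) s)) s := by
          refine CE_mono hq hs fun s' hs' _ => ?_
          by_cases hh : H (j + 1) s'
          · rw [ind_pos hh, mul_one]; exact ih' s' hs'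
          · rw [ind_neg hh, mul_zero, ← CE_const (q := fun _ => p) (F := F) (ins (S (j + 1))) 0 s']
            refine CE_mono hq hs' fun s'' hs'' he => le_of_eq (ind_neg fun h => hh ?_)
            have c1 := cross (j + 1) s'' (S K) (face K) hs'' Set.sdiff_subset
              (fun v ⟨c1, c2, c3, c4⟩ => ⟨⟨by linarith [hf0 K], by linarith, by linarith,
                by linarith⟩, c1.trans' (hfmono (by omega))⟩) h.2
            simp only [hH] at c1 ⊢
            rwa [Set.union_inter_distrib_right, he, ← Set.union_inter_distrib_right] at c1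
        rw [CE_const_mul] at b1
        rw [CE_ind_not] at hY
        push Not at hY
        have b2 : (2 * δ0 + (1 - δ0 ^ 2) ^ i) *
            CE (fun _ => p) F (ins (S j)) (fun s => ind (H (j + 1) s)) s ≤
            (2 * δ0 + (1 - δ0 ^ 2) ^ i) * (1 - δ0 ^ 2) :=
          mul_le_mul_of_nonneg_left (by linarith) (by positivity)
        rw [pow_succ]
        nlinarith [sq_nonneg δ0]
  have hPS : P ⊆ S (K - K) := fun v hv => ⟨Or.inl hv, fun h => hP v hv (hRp' h.1)⟩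
  have c1 : CE (fun _ => p) F (ins P) (fun s => ind (δ0 < Z s ∧ H K s)) ω ≤
      2 * δ0 + (1 - δ0 ^ 2) ^ K := by
    rw [← CE_tower (ins_mono hPS), ← CE_const (q := fun _ => p) (F := F) (ins P)
      (2 * δ0 + (1 - δ0 ^ 2) ^ K) ω]
    exact CE_mono hq hω fun s hs _ => back K le_rfl s hs
  have c2 : CE (fun _ => p) F (ins P) (fun s => ind (δ0 < Z s)) ω ≤
      CE (fun _ => p) F (ins P) (fun s => ind (¬ H K s) + ind (δ0 < Z s ∧ H K s)) ω := by
    refine CE_mono hq hω fun s _ _ => le_trans (ind_mono ?_) (ind_or_le _ _)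
    tauto
  rw [CE_add] at c2
  nlinarith

end Vale.Agent.P151
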