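import Vale.Agent.P151.Ball
import Vale.Agent.P151.Glue2

/-! Transfer of a connection from one target to the next with a small additive loss. -/

namespace Vale.Agent.P151

open scoped Classical

lemma Ex_prod_not_subset {ι κ : Type*} (p : ℝ) (F : Finset ι) (J : Finset κ) (E : κ → Finset ι)
    (hE : ∀ u ∈ J, E u ⊆ F) (hdis : ∀ u ∈ J, ∀ v ∈ J, u ≠ v → Disjoint (E u) (E v)) :
    Ex (fun _ => p) F (fun s => ∏ u ∈ J, ind (¬ (E u : Set ι) ⊆ s)) =
      ∏ u ∈ J, (1 - p ^ (E u).card) := by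
  induction J using Finset.induction_on with
  | empty => simp [Ex_const]
  | insert a J ha ih =>
    simp_rw [Finset.prod_insert ha]
    rw [Ex_indep _ F (E a), ih (fun u hu => hE u (Finset.mem_insert_of_mem hu))
      (fun u hu v hv => hdis u (Finset.mem_insert_of_mem hu) v (Finset.mem_insert_of_mem hv)),
      Ex_ind_not, Ex_subset_ind _ (hE a (Finset.mem_insert_self _ _)), Finset.prod_const]
    · intro s
      exact ind_congr (not_congr ⟨fun h x hx => ⟨h hx, hx⟩, fun h x hx => (h hx).1⟩)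
    · intro s
      refine Finset.prod_congr rfl fun u hu => ind_congr (not_congr
        ⟨fun h x hx => ⟨h hx, fun hx' => ?_⟩, fun h x hx => (h hx).1⟩)
      exact Finset.disjoint_left.1 (hdis u (Finset.mem_insert_of_mem hu) a
        (Finset.mem_insert_self _ _) (fun h => ha (h ▸ hu))) hx hx'

lemma seeds {ι κ : Type*} {p : ℝ} (h0 : 0 ≤ p) (h1 : p ≤ 1) (F : Finset ι) (I : Finset κ)
    (E : κ → Finset ι) (hE : ∀ u ∈ I, E u ⊆ F)
    (hdis : ∀ u ∈ I, ∀ v ∈ I, u ≠ v → Disjoint (E u) (E v)) (good : κ → Set ι → Prop)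
    {β lam s : ℝ} (hβ : 0 ≤ β) (hlam : 0 ≤ lam) (hs : ∀ u ∈ I, s ≤ p ^ (E u).card)
    (hl : lam ≤ I.card * s)
    (hbad : ∀ u ∈ I, Ex (fun _ => p) F (fun ξ => ind ((E u : Set ι) ⊆ ξ ∧ ¬ good u ξ)) ≤
      β * p ^ (E u).card) :
    Ex (fun _ => p) F (fun ξ => ind (∀ u ∈ I, ¬ good u ξ)) ≤ Real.exp (-lam) + (lam + 1) * β := by
  have hq : Par (fun _ : ι => p) := par_const h0 h1
  have hI : lam ≤ ∑ u ∈ I, p ^ (E u).card := by
    have := Finset.card_nsmul_le_sum I (fun u => p ^ (E u).card) s hs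
    rw [nsmul_eq_mul] at this; linarith
  obtain ⟨J, hJ, hmin⟩ := Finset.exists_min_image
    (I.powerset.filter fun J => lam ≤ ∑ u ∈ J, p ^ (E u).card) Finset.card
    ⟨I, by simp [hI]⟩
  rw [Finset.mem_filter, Finset.mem_powerset] at hJ
  have hJ2 : ∑ u ∈ J, p ^ (E u).card ≤ lam + 1 := by
    rcases J.eq_empty_or_nonempty with rfl | ⟨a, ha⟩
    · simp; linarith
    · have : ¬ lam ≤ ∑ u ∈ J.erase a, p ^ (E u).card := by
        intro h
        have := hmin (J.erase a) (by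
          rw [Finset.mem_filter, Finset.mem_powerset]
          exact ⟨(Finset.erase_subset _ _).trans hJ.1, h⟩)
        have h2 := Finset.card_erase_lt_of_mem ha
        omega
      rw [← Finset.add_sum_erase J _ ha]
      have := pow_le_one₀ h0 h1 (n := (E a).card)
      linarith
  have a1 : Ex (fun _ => p) F (fun ξ => ind (∀ u ∈ I, ¬ good u ξ)) ≤
      Ex (fun _ => p) F (fun ξ => (∏ u ∈ J, ind (¬ (E u : Set ι) ⊆ ξ)) +
        ∑ u ∈ J, ind ((E u : Set ι) ⊆ ξ ∧ ¬ good u ξ)) := by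
    refine Ex_mono hq fun ξ _ => ?_
    have b1 : 0 ≤ ∏ u ∈ J, ind (¬ (E u : Set ι) ⊆ ξ) := Finset.prod_nonneg fun _ _ => ind_nonneg _
    have b2 : 0 ≤ ∑ u ∈ J, ind ((E u : Set ι) ⊆ ξ ∧ ¬ good u ξ) :=
      Finset.sum_nonneg fun _ _ => ind_nonneg _
    by_cases hg : ∀ u ∈ I, ¬ good u ξ
    · rw [ind_pos hg]
      by_cases ho : ∃ u ∈ J, (E u : Set ι) ⊆ ξ
      · obtain ⟨u, hu, hu'⟩ := ho
        have := Finset.single_le_sum (f := fun u => ind ((E u : Set ι) ⊆ ξ ∧ ¬ good u ξ))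
          (fun _ _ => ind_nonneg _) hu
        rw [ind_pos ⟨hu', hg u (hJ.1 hu)⟩] at this
        linarith
      · push Not at ho
        rw [Finset.prod_eq_one fun u hu => ind_pos (ho u hu)]
        linarith
    · rw [ind_neg hg]; linarith
  rw [Ex_add, Ex_sum, Ex_prod_not_subset p F J E (fun u hu => hE u (hJ.1 hu))
    (fun u hu v hv => hdis u (hJ.1 hu) v (hJ.1 hv))] at a1
  have a2 : ∏ u ∈ J, (1 - p ^ (E u).card) ≤ Real.exp (-lam) := by
    calc ∏ u ∈ J, (1 - p ^ (E u).card) ≤ ∏ u ∈ J, Real.exp (-(p ^ (E u).card)) :=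
          Finset.prod_le_prod (fun u _ => sub_nonneg.2 (pow_le_one₀ h0 h1))
            (fun u _ => Real.one_sub_le_exp_neg _)
      _ = Real.exp (-∑ u ∈ J, p ^ (E u).card) := by
          rw [← Real.exp_sum, Finset.sum_neg_distrib]
      _ ≤ _ := Real.exp_le_exp.2 (by linarith [hJ.2])
  have a3 : ∑ u ∈ J, Ex (fun _ => p) F (fun ξ => ind ((E u : Set ι) ⊆ ξ ∧ ¬ good u ξ)) ≤
      β * ∑ u ∈ J, p ^ (E u).card := by
    rw [Finset.mul_sum]; exact Finset.sum_le_sum fun u hu => hbad u (hJ.1 hu)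
  nlinarith

lemma Ex_split' {ι : Type*} (q : ι → ℝ) (F : Finset ι) (R : Set ι) (f : Set ι → ℝ) :
    Ex q F f = Ex q (F.filter (· ∉ R))
      (fun t => Ex q (F.filter (· ∈ R)) (fun s => f (s ∪ t))) := by
  rw [Ex_split q F R, Ex_comm]

variable {V : Type*} {G : SimpleGraph V} [G.LocallyFinite]

lemma conn_ins_cases {ω : Set (Sym2 V)} {S : Set V} {a b : V} (h : conn (ω ∩ ins S) a b) :
    b = a ∨ b ∈ S := by
  induction h with
  | refl => exact Or.inl rfl
  | tail _ h2 _ => exact Or.inr (mem_ins_mk.1 h2.2).2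

/-- contact points of the cluster of `o` with `I` from outside -/
noncomputable def contact (G : SimpleGraph V) [G.LocallyFinite] (o : V) (D : ℕ)
    (ξ : Set (Sym2 V)) (S I : Set V) (ω : Set (Sym2 V)) : Finset V :=
  (ball G D o).filter fun u => u ∈ I ∧ u ∈ cl (((ξ ∪ ω) ∩ ins S) \ ins I) {o}

lemma contact_union {o : V} {D : ℕ} {ξ : Set (Sym2 V)} {S I : Set V} {s t : Set (Sym2 V)}
    (hs : s ⊆ ins I) : contact G o D ξ S I (s ∪ t) = contact G o D ξ S I t := by
  unfold contact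
  have : ((ξ ∪ (s ∪ t)) ∩ ins S) \ ins I = ((ξ ∪ t) ∩ ins S) \ ins I := by
    ext e; have := @hs e
    simp only [Set.mem_sdiff, Set.mem_union, Set.mem_inter_iff]; tauto
  rw [this]

lemma contact_nonempty {o : V} {D : ℕ} {ξ : Set (Sym2 V)} {S I : Set V} {ω : Set (Sym2 V)}
    (ho : o ∉ I) (hS : ∀ u ∈ S, u ∈ I → u ∈ ball G D o)
    (h : o ∈ cl ((ξ ∪ ω) ∩ ins S) I) : (contact G o D ξ S I ω).Nonempty := by
  obtain ⟨v, hv, hc⟩ := h
  obtain ⟨w, hw, hc'⟩ := conn_exit (S := Iᶜ) hc.symm (fun h => h hv)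
  have hwI : w ∈ I := not_not.1 hw
  have hwS : w ∈ S := by
    rcases conn_ins_cases (hc'.mono Set.inter_subset_left) with h | h
    · exact absurd (h ▸ hwI) ho
    · exact h
  refine ⟨w, Finset.mem_filter.2 ⟨hS w hwS hwI, hwI, mem_cl_singleton.2 (hc'.mono ?_)⟩⟩
  rintro e ⟨h1, x, hx, hxe⟩
  exact ⟨h1, fun h => hx (h x hxe)⟩

lemma shell_bound {Δ : ℕ} (hΔ : ∀ v, G.degree v ≤ Δ) {p : ℝ} (h0 : 0 ≤ p) (h1 : p ≤ 1)
    {F : Finset (Sym2 V)} (hF : (F : Set (Sym2 V)) ⊆ G.edgeSet) {ξ : Set (Sym2 V)}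
    (hξE : ξ ⊆ G.edgeSet) {o : V} {D : ℕ} {S T : Set V} {j : ℕ} (N : ℕ)
    (ho : o ∉ near G T (j + 1)) (hS : ∀ u ∈ S, u ∈ near G T (j + 1) → u ∈ ball G D o)
    (hξ : ∀ e ∈ ξ, ∀ v ∈ e, v ∉ near G T (j + 1)) :
    (1 - p) ^ (Δ * N) * Ex (fun _ => p) F (fun ω =>
        ind ((contact G o D ξ S (near G T (j + 1)) ω).Nonempty ∧
          (contact G o D ξ S (near G T (j + 1)) ω).card < N)) ≤
      Ex (fun _ => p) F (fun ω => ind (o ∈ cl ((ξ ∪ ω) ∩ ins S) (near G T (j + 1))) -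
        ind (o ∈ cl ((ξ ∪ ω) ∩ ins S) (near G T j))) := by
  have hq : Par (fun _ : Sym2 V => p) := par_const h0 h1
  set I := near G T (j + 1) with hI
  rw [Ex_split' _ F (ins I), Ex_split' _ F (ins I), ← Ex_const_mul]
  refine Ex_mono hq fun t ht => ?_
  set K := contact G o D ξ S I t with hK
  have e1 : Ex (fun _ => p) (F.filter (· ∈ ins I)) (fun s =>
      ind ((contact G o D ξ S I (s ∪ t)).Nonempty ∧ (contact G o D ξ S I (s ∪ t)).card < N)) =
      ind (K.Nonempty ∧ K.card < N) := by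
    rw [← Ex_const (fun _ => p) (F.filter (· ∈ ins I)) (ind (K.Nonempty ∧ K.card < N))]
    refine Ex_congr fun s hs => ?_
    rw [contact_union fun e he => (Finset.mem_filter.1 (hs he)).2]
  rw [e1]
  have hmono : ∀ s : Set (Sym2 V), ind (o ∈ cl ((ξ ∪ s) ∩ ins S) (near G T j)) ≤
      ind (o ∈ cl ((ξ ∪ s) ∩ ins S) I) := fun s =>
    ind_mono fun h => cl_mono subset_rfl (near_mono T (Nat.le_succ j)) h
  by_cases hP : K.Nonempty ∧ K.card < N
  swap
  · rw [ind_neg hP, mul_zero]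
    exact Ex_nonneg hq fun s _ => sub_nonneg.2 (hmono _)
  rw [ind_pos hP, mul_one]
  set X := (F.filter (· ∈ ins I)).filter (· ∈ touch (K : Set V)) with hX
  have hXc : X.card ≤ Δ * N := by
    calc X.card ≤ (K.biUnion fun v => G.incidenceFinset v).card := by
          refine Finset.card_le_card fun e he => ?_
          obtain ⟨h1, v, hv, hve⟩ := Finset.mem_filter.1 he
          exact Finset.mem_biUnion.2 ⟨v, hv, by
            rw [SimpleGraph.mem_incidenceFinset]
            exact ⟨hF (Finset.mem_filter.1 h1).1, hve⟩⟩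
      _ ≤ K.card * Δ := Finset.card_biUnion_le_card_mul _ _ _ fun v _ => by
          rw [SimpleGraph.card_incidenceFinset_eq_degree]; exact hΔ v
      _ ≤ Δ * N := by rw [mul_comm]; exact Nat.mul_le_mul_left _ hP.2.le
  calc (1 - p) ^ (Δ * N) ≤ (1 - p) ^ X.card :=
        pow_le_pow_of_le_one (by linarith) (by linarith) hXc
    _ = Ex (fun _ => p) (F.filter (· ∈ ins I)) (fun s => ind (Disjoint (X : Set (Sym2 V)) s)) := by
        rw [Ex_disjoint_ind _ (Finset.filter_subset _ _), Finset.prod_const]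
    _ ≤ _ := by
        refine Ex_mono hq fun s hs => ?_
        by_cases hd : Disjoint (X : Set (Sym2 V)) s
        swap
        · rw [ind_neg hd]; exact sub_nonneg.2 (hmono _)
        have hsI : s ⊆ ins I := fun e he => (Finset.mem_filter.1 (hs he)).2
        have hK' : contact G o D ξ S I (s ∪ t) = K := contact_union hsI
        have c1 : o ∈ cl ((ξ ∪ (s ∪ t)) ∩ ins S) I := by
          obtain ⟨u, hu⟩ := hP.1
          rw [← hK'] at hu
          obtain ⟨_, hu1, hu2⟩ := Finset.mem_filter.1 hu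
          exact ⟨u, hu1, ((mem_cl_singleton.1 hu2).mono Set.sdiff_subset).symm⟩
        have c2 : o ∉ cl ((ξ ∪ (s ∪ t)) ∩ ins S) (near G T j) := by
          rintro ⟨v, hv, hc⟩
          have d1 : v ∈ cl (((ξ ∪ (s ∪ t)) ∩ ins S) \ ins I) {o} := by
            refine cl_subset_of_closed (subset_cl _ _) ?_ (mem_cl_singleton.2 hc.symm)
            intro x y hx hxy
            by_cases hin : s(x, y) ∈ ins I
            · exfalso
              have hxI := (mem_ins_mk.1 hin).1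
              have hxK : x ∈ K := by
                rw [← hK']
                exact Finset.mem_filter.2 ⟨hS x (mem_ins_mk.1 hxy.2).1 hxI, hxI, hx⟩
              rcases hxy.1 with h | h | h
              · exact hξ _ h x (Sym2.mem_mk_left _ _) hxI
              · exact Set.disjoint_left.1 hd
                  (Finset.mem_filter.2 ⟨hs h, mem_touch_mk.2 (Or.inl hxK)⟩) h
              · exact (Finset.mem_filter.1 (ht h)).2 hin
            · exact cl_step hx ⟨hxy, hin⟩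
          rcases Relation.ReflTransGen.cases_tail (mem_cl_singleton.1 d1) with h | ⟨x, _, hx⟩
          · exact ho (h ▸ near_mono T (Nat.le_succ j) hv)
          · have hadj : G.Adj x v := by
              rcases hx.1.1 with h | h | h
              · exact hξE h
              · exact hF (Finset.mem_filter.1 (hs h)).1
              · exact hF (Finset.mem_filter.1 (ht h)).1
            exact hx.2 (mem_ins_mk.2 ⟨near_ball hv (ball_adj (self_mem_ball 0 v) hadj.symm) le_rfl,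
              near_mono T (Nat.le_succ j) hv⟩)
        rw [ind_pos hd, ind_pos c1, ind_neg c2]; simp

lemma exists_shell {Δ : ℕ} (hΔ : ∀ v, G.degree v ≤ Δ) {p : ℝ} (h0 : 0 ≤ p) (h1 : p < 1)
    {F : Finset (Sym2 V)} (hF : (F : Set (Sym2 V)) ⊆ G.edgeSet) {ξ : Set (Sym2 V)}
    (hξE : ξ ⊆ G.edgeSet) {o : V} {D : ℕ} {S T : Set V} (m R N : ℕ) (hR : 0 < R)
    (ho : o ∉ near G T (m + R)) (hS : ∀ u ∈ S, u ∈ near G T (m + R) → u ∈ ball G D o)
    (hξ : ∀ e ∈ ξ, ∀ v ∈ e, v ∉ near G T (m + R)) :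
    ∃ i < R, Ex (fun _ => p) F (fun ω =>
        ind ((contact G o D ξ S (near G T (m + i + 1)) ω).Nonempty ∧
          (contact G o D ξ S (near G T (m + i + 1)) ω).card < N)) ≤
      1 / ((1 - p) ^ (Δ * N) * R) := by
  have hq : Par (fun _ : Sym2 V => p) := par_const h0 h1.le
  have hc : 0 < (1 - p) ^ (Δ * N) := pow_pos (by linarith) _
  have hR' : (0 : ℝ) < R := by exact_mod_cast hR
  have key : ∑ i ∈ Finset.range R, (1 - p) ^ (Δ * N) * Ex (fun _ => p) F (fun ω =>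
        ind ((contact G o D ξ S (near G T (m + i + 1)) ω).Nonempty ∧
          (contact G o D ξ S (near G T (m + i + 1)) ω).card < N)) ≤
      ∑ _i ∈ Finset.range R, (1 : ℝ) / R := by
    refine le_trans (Finset.sum_le_sum fun i hi => shell_bound hΔ h0 h1.le hF hξE N
      (fun h => ho (near_mono T (by have := Finset.mem_range.1 hi; omega) h))
      (fun u hu h => hS u hu (near_mono T (by have := Finset.mem_range.1 hi; omega) h))
      (fun e he v hv h => hξ e he v hv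
        (near_mono T (by have := Finset.mem_range.1 hi; omega) h))) ?_
    rw [← Ex_sum, Finset.sum_const, Finset.card_range, nsmul_eq_mul, mul_one_div_cancel hR'.ne']
    refine Ex_le_const hq fun ω _ => ?_
    have := Finset.sum_range_sub
      (fun i => ind (o ∈ cl ((ξ ∪ ω) ∩ ins S) (near G T (m + i)))) R
    simp only [← add_assoc] at this
    rw [this]
    linarith [ind_le_one (o ∈ cl ((ξ ∪ ω) ∩ ins S) (near G T (m + R))),
      ind_nonneg (o ∈ cl ((ξ ∪ ω) ∩ ins S) (near G T (m + 0)))]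
  obtain ⟨i, hi, hle⟩ := Finset.exists_le_of_sum_le ⟨0, Finset.mem_range.2 hR⟩ key
  refine ⟨i, Finset.mem_range.1 hi, ?_⟩
  rw [le_div_iff₀ (mul_pos hc hR')]
  rw [le_div_iff₀ hR'] at hle
  linarith

/-- the loss in one transfer -/
noncomputable def loss (p δ' δ lam : ℝ) (Δ m N R : ℕ) : ℝ :=
  δ' + 1 / ((1 - p) ^ (Δ * (N * (Δ + 1) ^ (4 * m))) * R) + Real.exp (-lam) + (lam + 1) * (δ / δ')

theorem transfer {Δ : ℕ} (hΔ : ∀ v, G.degree v ≤ Δ) {p : ℝ} (h0 : 0 ≤ p) (h1 : p < 1)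
    {F : Finset (Sym2 V)} (hF : (F : Set (Sym2 V)) ⊆ G.edgeSet) {ξ : Set (Sym2 V)}
    (hξE : ξ ⊆ G.edgeSet) (hξf : ξ.Finite) {o : V} {D : ℕ} {S S' T B : Set V} {m R N : ℕ}
    {δ' δ lam : ℝ} (hR : 0 < R) (hδ' : 0 < δ') (hδ : 0 ≤ δ) (hlam : 0 ≤ lam)
    (hN : lam ≤ N * p ^ (((Δ + 1) ^ (2 * m) + 1) ^ 2)) (hSS : S ⊆ S')
    (ho : o ∉ near G T (m + R)) (hS : ∀ u ∈ S, u ∈ near G T (m + R) → u ∈ ball G D o)
    (hξ : ∀ e ∈ ξ, ∀ v ∈ e, v ∉ near G T (m + R))
    (hS' : ∀ u ∈ near G T (m + R), u ∈ ball G (D + 2 * m) o → u ∈ S')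
    (hfresh : ∀ u v, G.Adj u v → u ∈ near G T (m + R) → v ∈ near G T (m + R) →
      u ∈ ball G (D + 2 * m) o → v ∈ ball G (D + 2 * m) o → s(u, v) ∈ F)
    (hloc : ∀ w ∈ near G T (m + R), w ∈ ball G (D + m) o → ∃ (L Q : Finset V) (B' : Set V),
      L ⊆ ball G m w ∧ (Q : Set V) ⊆ S' ∧ edgesIn G Q ⊆ F ∧ B' ⊆ B ∧ LF G p L Q B' ≤ δ) :
    Ex (fun _ => p) F (fun ω => ind (o ∉ cl ((ξ ∪ ω) ∩ ins S') B)) ≤
      Ex (fun _ => p) F (fun ω => ind (o ∉ cl ((ξ ∪ ω) ∩ ins S) (T ∪ B))) +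
        loss p δ' δ lam Δ m N R := by
  have hq : Par (fun _ : Sym2 V => p) := par_const h0 h1.le
  obtain ⟨i, hi, hthin⟩ := exists_shell hΔ h0 h1 hF hξE m R (N * (Δ + 1) ^ (4 * m)) hR ho hS hξ
  set I := near G T (m + i + 1) with hI
  have hIr : I ⊆ near G T (m + R) := near_mono T (by omega)
  set N' := N * (Δ + 1) ^ (4 * m) with hN'
  set Fi := F.filter (· ∈ ins I) with hFi
  set Fo := F.filter (· ∉ ins I) with hFo
  set φ : V → Set (Sym2 V) → ℝ := fun u s =>
    Ex (fun _ => p) Fo (fun t => ind (u ∉ cl ((ξ ∪ s ∪ t) ∩ ins S') B)) with hφ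
  set A : Set (Sym2 V) → Finset V := fun s => (ball G D o).filter fun u => φ u s ≤ δ' with hA
  set K := contact G o D ξ S I with hK
  have a1 : Ex (fun _ => p) F (fun ω => ind (o ∉ cl ((ξ ∪ ω) ∩ ins S') B)) ≤
      Ex (fun _ => p) Fi (fun s => δ' + Ex (fun _ => p) Fo (fun t =>
        ind (o ∉ cl ((ξ ∪ (s ∪ t)) ∩ ins S) (T ∪ B)) +
        ind ((K (s ∪ t)).Nonempty ∧ (K (s ∪ t)).card < N') +
        ind (N' ≤ (K t).card ∧ ∀ u ∈ K t, ¬ φ u s ≤ δ'))) := by
    rw [Ex_split _ F (ins I)]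
    refine Ex_mono hq fun s hs => ?_
    have g := glue (F := Fo) hq (ξ ∪ s) (hξf.union (Fi.finite_toSet.subset hs)) (ins S') o (A s) B
      hδ'.le (fun a ha => (Finset.mem_filter.1 ha).2)
    refine le_trans ?_ (add_le_add_left g _)
    rw [← Ex_add]
    refine Ex_mono hq fun t ht => ?_
    have hsI : s ⊆ ins I := fun e he => (Finset.mem_filter.1 (hs he)).2
    have hKK : K (s ∪ t) = K t := contact_union hsI
    have n1 := ind_nonneg (o ∈ cl ((ξ ∪ s ∪ t) ∩ ins S') (A s) ∧ o ∉ cl ((ξ ∪ s ∪ t) ∩ ins S') B)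
    have n2 := ind_nonneg (o ∉ cl ((ξ ∪ (s ∪ t)) ∩ ins S) (T ∪ B))
    have n3 := ind_nonneg ((K (s ∪ t)).Nonempty ∧ (K (s ∪ t)).card < N')
    have n4 := ind_nonneg (N' ≤ (K t).card ∧ ∀ u ∈ K t, ¬ φ u s ≤ δ')
    by_cases hB : o ∉ cl ((ξ ∪ (s ∪ t)) ∩ ins S') B
    swap
    · rw [ind_neg hB]; linarith
    rw [ind_pos hB]
    have hsub : (ξ ∪ (s ∪ t)) ∩ ins S ⊆ (ξ ∪ (s ∪ t)) ∩ ins S' :=
      Set.inter_subset_inter_right _ (ins_mono hSS)
    by_cases hAo : o ∈ cl ((ξ ∪ s ∪ t) ∩ ins S') (A s)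
    · rw [ind_pos (P := _ ∧ _) ⟨hAo, by rwa [Set.union_assoc]⟩]; linarith
    by_cases hc : N' ≤ (K t).card
    · rw [ind_pos (P := N' ≤ (K t).card ∧ _) ⟨hc, ?_⟩]; · linarith
      intro u hu hφu
      rw [← hKK] at hu
      obtain ⟨hu0, _, hu2⟩ := Finset.mem_filter.1 hu
      refine hAo ⟨u, Finset.mem_filter.2 ⟨hu0, hφu⟩, ?_⟩
      rw [Set.union_assoc]
      exact ((mem_cl_singleton.1 hu2).mono (Set.sdiff_subset.trans hsub)).symm
    by_cases hne : (K (s ∪ t)).Nonempty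
    · rw [ind_pos (P := (K (s ∪ t)).Nonempty ∧ _) ⟨hne, by rw [hKK]; omega⟩]; linarith
    · rw [ind_pos (P := o ∉ cl ((ξ ∪ (s ∪ t)) ∩ ins S) (T ∪ B)) ?_]; · linarith
      rw [cl_union]
      rintro (h | h)
      · exact hne (contact_nonempty (fun h => ho (hIr h)) (fun u hu h => hS u hu (hIr h))
          (cl_mono subset_rfl (subset_near T _) h))
      · exact hB (cl_mono hsub subset_rfl h)
  have a2 : Ex (fun _ => p) Fi (fun s => Ex (fun _ => p) Fo (fun t =>
      ind (N' ≤ (K t).card ∧ ∀ u ∈ K t, ¬ φ u s ≤ δ'))) ≤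
      Real.exp (-lam) + (lam + 1) * (δ / δ') := by
    rw [Ex_comm]
    refine Ex_le_const hq fun t _ => ?_
    by_cases hc : N' ≤ (K t).card
    swap
    · refine Ex_le_const hq fun s _ => ?_
      rw [ind_neg fun h => hc h.1]; positivity
    obtain ⟨J, hJ, hJc, hsep⟩ := exists_separated hΔ (4 * m) N (K t) hc
    have hJ' : ∀ u ∈ J, u ∈ ball G D o ∧ u ∈ I := fun u hu =>
      ⟨(Finset.mem_filter.1 (hJ hu)).1, (Finset.mem_filter.1 (hJ hu)).2.1⟩
    set E : V → Finset (Sym2 V) := fun u => edgesIn G ((ball G (2 * m) u).filter (· ∈ I)) with hE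
    have hEF : ∀ u ∈ J, E u ⊆ Fi := by
      intro u hu e he
      induction e using Sym2.ind with
      | _ x y =>
        obtain ⟨b1, b2⟩ := mem_edgesIn.1 he
        rw [mem_ins_mk] at b2
        obtain ⟨x1, x2⟩ := Finset.mem_filter.1 b2.1
        obtain ⟨y1, y2⟩ := Finset.mem_filter.1 b2.2
        exact Finset.mem_filter.2 ⟨hfresh x y b1 (hIr x2) (hIr y2) (ball_trans (hJ' u hu).1 x1)
          (ball_trans (hJ' u hu).1 y1), mem_ins_mk.2 ⟨x2, y2⟩⟩
    refine le_trans (Ex_mono hq fun s _ => ind_mono fun h u hu => h.2 u (hJ hu))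
      (seeds h0 h1.le Fi J E hEF ?_ (fun u s => φ u s ≤ δ') (by positivity) hlam
        (s := p ^ (((Δ + 1) ^ (2 * m) + 1) ^ 2)) ?_ (by rwa [hJc]) ?_)
    · intro u hu v hv huv
      rw [Finset.disjoint_left]
      intro e he he'
      induction e using Sym2.ind with
      | _ x y =>
        have x1 := (Finset.mem_filter.1 (mem_ins_mk.1 (mem_edgesIn.1 he).2).1).1
        have x2 := (Finset.mem_filter.1 (mem_ins_mk.1 (mem_edgesIn.1 he').2).1).1
        exact hsep u hu v hv huv (ball_trans' x1 (ball_symm x2) (by omega))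
    · intro u _
      refine pow_le_pow_of_le_one h0 h1.le ((card_edgesIn_le _).trans ?_)
      gcongr
      exact (Finset.card_filter_le _ _).trans (card_ball_le hΔ _ _)
    · intro u hu
      obtain ⟨w, hw, hwu, hcw⟩ := near_inward (G := G) (T := T) m (j := i + 1) (u := u)
        (by have := (hJ' u hu).2; rwa [hI, show m + i + 1 = i + 1 + m by omega] at this)
      rw [show i + 1 + m = m + i + 1 by omega, ← hI] at hcw
      obtain ⟨L, Q, B', hL, hQ, hQF, hB', hLF⟩ := hloc w (near_mono T (by omega) hw)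
        (ball_trans (hJ' u hu).1 hwu)
      have b1 : Ex (fun _ => p) Fi (fun s => ind ((E u : Set (Sym2 V)) ⊆ s ∧ ¬ φ u s ≤ δ')) ≤
          Ex (fun _ => p) Fi (fun s => (1 / δ') * Ex (fun _ => p) Fo (fun t =>
            ind ((E u : Set (Sym2 V)) ⊆ s ∪ t) *
              ind (Disjoint B' (cl ((s ∪ t) ∩ ins (Q : Set V)) L)))) := by
        refine Ex_mono hq fun s _ => ?_
        by_cases hh : (E u : Set (Sym2 V)) ⊆ s ∧ ¬ φ u s ≤ δ'
        swap
        · rw [ind_neg hh]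
          exact mul_nonneg (by positivity)
            (Ex_nonneg hq fun _ _ => mul_nonneg (ind_nonneg _) (ind_nonneg _))
        rw [ind_pos hh, one_div, ← div_eq_inv_mul, le_div_iff₀ hδ', one_mul]
        refine le_trans (not_le.1 hh.2).le (Ex_mono hq fun t _ => ?_)
        rw [ind_pos (hh.1.trans Set.subset_union_left), one_mul]
        refine ind_mono fun hn => Set.disjoint_left.2 ?_
        rintro b hb ⟨l, hl, hc⟩
        have hEs : G.edgeSet ∩ ins (I ∩ ball G (2 * m) u) ⊆ (ξ ∪ s ∪ t) ∩ ins S' := by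
          rintro e ⟨e1, e2⟩
          refine ⟨Or.inl (Or.inr (hh.1 (mem_edgesIn.2 ⟨e1, fun v hv => ?_⟩))), fun v hv => ?_⟩
          · exact Finset.mem_filter.2 ⟨(e2 v hv).2, (e2 v hv).1⟩
          · exact hS' v (hIr (e2 v hv).1) (ball_trans (hJ' u hu).1 (e2 v hv).2)
        have c1 : conn ((ξ ∪ s ∪ t) ∩ ins S') u w := hcw.mono (subset_trans
          (Set.inter_subset_inter_right _ (ins_mono (Set.inter_subset_inter_right _
            (ball_mono (by omega))))) hEs)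
        have c2 : conn ((ξ ∪ s ∪ t) ∩ ins S') w l := (conn_ball (hL hl)).mono (subset_trans
          (Set.inter_subset_inter_right _ (ins_mono fun y hy =>
            Set.mem_inter (near_ball hw hy (by omega)) (ball_trans' hwu hy (by omega)))) hEs)
        have c3 : conn ((ξ ∪ s ∪ t) ∩ ins S') l b := hc.mono (by
          rw [Set.union_assoc]
          exact Set.inter_subset_inter Set.subset_union_right (ins_mono hQ))
        exact hn ⟨b, hB' hb, (c1.trans (c2.trans c3)).symm⟩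
      rw [Ex_const_mul, ← Ex_split _ F (ins I) (fun ω => ind ((E u : Set (Sym2 V)) ⊆ ω) *
        ind (Disjoint B' (cl (ω ∩ ins (Q : Set V)) L)))] at b1
      have b2 := harris_mixed hq F (f := fun ω => ind ((E u : Set (Sym2 V)) ⊆ ω))
        (g := fun ω => ind (Disjoint B' (cl (ω ∩ ins (Q : Set V)) L)))
        (fun a b hab => ind_mono fun h => h.trans hab)
        (fun a b hab => ind_mono fun h =>
          h.mono_right (cl_mono (Set.inter_subset_inter_left _ hab) subset_rfl))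
      rw [LF_eq p L Q B' hF hQF, Ex_subset_ind _ ((hEF u hu).trans (Finset.filter_subset _ _)),
        Finset.prod_const] at b2
      have b3 : 0 ≤ p ^ (E u).card := pow_nonneg h0 _
      calc _ ≤ _ := b1
        _ ≤ (1 / δ') * (p ^ (E u).card * δ) := by
          gcongr
          exact b2.trans (mul_le_mul_of_nonneg_left hLF b3)
        _ = _ := by ring
  simp_rw [Ex_add] at a1
  rw [Ex_const, ← Ex_split _ F (ins I) (fun ω => ind (o ∉ cl ((ξ ∪ ω) ∩ ins S) (T ∪ B))),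
    ← Ex_split _ F (ins I) (fun ω => ind ((K ω).Nonempty ∧ (K ω).card < N'))] at a1
  unfold loss
  linarith

end Vale.Agent.P151
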